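import Mathlib
import Crest.Prelude.Def_GraphMetric
import Crest.Agent.R206.Iface534

/-!
# Row 206, S0317 (planar graphs embed into `L¹`): definitions and module statements (helper55)

Paper proof: notes of row 206 by helper24 (EFF, levels) and helper55 (parts I and II).
Planarity is only used through `MF` (no `K₅` model and no `K₃₃` model).
-/

set_option autoImplicit false

noncomputable section

open scoped Classical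

namespace Crest.Agent.N206.PL

open MeasureTheory Crest.GeometryTopology.GraphMetric Crest.Agent.R206.Iface534

/-! ### graphs -/

/-- `S` is nonempty and connected by walks inside `S` -/
def Cn {V : Type} (G : SimpleGraph V) (S : Set V) : Prop :=
  S.Nonempty ∧ ∀ x ∈ S, ∀ y ∈ S, ∃ p : G.Walk x y, ∀ v ∈ p.support, v ∈ S

/-- some edge joins `A` and `B` -/
def Tch {V : Type} (G : SimpleGraph V) (A B : Set V) : Prop := ∃ a ∈ A, ∃ b ∈ B, G.Adj a b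

/-- no `K₅` model, no `K₃₃` model -/
structure MF {V : Type} (G : SimpleGraph V) : Prop where
  k5 : ∀ X : Fin 5 → Set V, (∀ i, Cn G (X i)) → (∀ i j, i ≠ j → Disjoint (X i) (X j)) →
    (∀ i j, i ≠ j → Tch G (X i) (X j)) → False
  k33 : ∀ A B : Fin 3 → Set V, (∀ i, Cn G (A i)) → (∀ i, Cn G (B i)) →
    (∀ i j, i ≠ j → Disjoint (A i) (A j)) → (∀ i j, i ≠ j → Disjoint (B i) (B j)) →
    (∀ i j, Disjoint (A i) (B j)) → (∀ i j, Tch G (A i) (B j)) → False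

/-- connected graph, edge lengths in `(0, δ]` -/
structure WG {V : Type} (G : SimpleGraph V) (ℓ : Sym2 V → ℝ) (δ : ℝ) : Prop where
  conn : G.Connected
  pos : ∀ e ∈ G.edgeSet, 0 < ℓ e
  small : ∀ e ∈ G.edgeSet, ℓ e ≤ δ

/-- length of a walk -/
def wl {V : Type} {G : SimpleGraph V} (ℓ : Sym2 V → ℝ) {x y : V} (p : G.Walk x y) : ℝ :=
  (p.edges.map ℓ).sum

/-- closed ball -/
def bl {V : Type} (G : SimpleGraph V) (ℓ : Sym2 V → ℝ) (p : V) (r : ℝ) : Set V :=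
  {v | wdist G ℓ p v ≤ r}

/-- `A` meets every walk from `x` to `y` -/
def Sep {V : Type} (G : SimpleGraph V) (A : Set V) (x y : V) : Prop :=
  ∀ p : G.Walk x y, ∃ v ∈ p.support, v ∈ A

/-- `ρ` is a nonnegative combination of cut semimetrics -/
def IsCut {V : Type} [Fintype V] (ρ : V → V → ℝ) : Prop :=
  ∃ w : Finset V → ℝ, (∀ S, 0 ≤ w S) ∧ ∀ x y, ρ x y = cutw w x y

/-- a geodesic line `v 0, …, v n` with arc length `pos` -/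
structure Geo {V : Type} (G : SimpleGraph V) (ℓ : Sym2 V → ℝ) where
  n : ℕ
  v : ℕ → V
  pos : ℕ → ℝ
  adj : ∀ i < n, G.Adj (v i) (v (i + 1))
  step : ∀ i < n, pos (i + 1) = pos i + ℓ s(v i, v (i + 1))
  dist : ∀ i j, i ≤ j → j ≤ n → wdist G ℓ (v i) (v j) = pos j - pos i

/-- length of the `i`-th edge of a line -/
def Geo.el {V : Type} {G : SimpleGraph V} {ℓ : Sym2 V → ℝ} (Q : Geo G ℓ) (i : ℕ) : ℝ :=
  Q.pos (i + 1) - Q.pos i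

/-- volume of the positions `(q, i)` with `A q i` -/
def vol {V ι : Type} [Fintype ι] {G : SimpleGraph V} {ℓ : Sym2 V → ℝ} (Q : ι → Geo G ℓ)
    (f : ι → ℝ) (A : ι → ℕ → Prop) : ℝ :=
  ∑ q, f q * ∑ i ∈ Finset.range (Q q).n, if A q i then (Q q).el i else 0

/-! ### final statement, topology, duality -/

/-- the statement of S0317 -/
def Goal : Prop :=
  ∃ C : ℝ, ∀ (V : Type) [Fintype V] (G : SimpleGraph V), G.Connected → IsPlanar G →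
    ∀ ℓ : Sym2 V → ℝ, (∀ e ∈ G.edgeSet, 0 < ℓ e) →
      ∃ (Ω : Type) (_ : MeasurableSpace Ω) (μ : Measure Ω) (f : V → Lp ℝ 1 μ),
        ∀ x y : V, wdist G ℓ x y ≤ ‖f x - f y‖ ∧ ‖f x - f y‖ ≤ C * wdist G ℓ x y

def TopStmt : Prop := ∀ (V : Type) (G : SimpleGraph V), IsPlanar G → MF G



/-- an efficient cut semimetric for a family of geodesics -/
def EffStmt : Prop :=
  ∃ K ε : ℝ, 0 < ε ∧ ∀ (V : Type) [Fintype V] (G : SimpleGraph V) (ℓ : Sym2 V → ℝ) (δ s0 : ℝ),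
    WG G ℓ δ → MF G → 0 < s0 → δ ≤ ε * s0 →
    ∀ (ι : Type) [Fintype ι] (Q : ι → Geo G ℓ) (f : ι → ℝ), (∀ q, 0 ≤ f q) → 0 < ∑ q, f q →
      (∀ q, s0 ≤ (Q q).pos (Q q).n - (Q q).pos 0) →
      ∃ ρ : V → V → ℝ, IsCut ρ ∧ 0 < ∑ q, f q * ρ ((Q q).v 0) ((Q q).v (Q q).n) ∧
        ∑ q, f q * ∑ i ∈ Finset.range (Q q).n, ρ ((Q q).v i) ((Q q).v (i + 1)) ≤
          K * ∑ q, f q * ρ ((Q q).v 0) ((Q q).v (Q q).n)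

/-- the same for nonnegative lengths and walks (zero edges contracted, long edges subdivided) -/
def Eff0Stmt : Prop :=
  ∃ K : ℝ, ∀ (V : Type) [Fintype V] (G : SimpleGraph V) (ℓ : Sym2 V → ℝ),
    G.Connected → MF G → (∀ e ∈ G.edgeSet, 0 ≤ ℓ e) →
    ∀ (ι : Type) [Fintype ι] (a b : ι → V) (p : ∀ q, G.Walk (a q) (b q)) (f : ι → ℝ),
      (∀ q, 0 ≤ f q) → (∀ q (p' : G.Walk (a q) (b q)), wl ℓ (p q) ≤ wl ℓ p') →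
      0 < ∑ q, f q * wl ℓ (p q) →
      ∃ ρ : V → V → ℝ, IsCut ρ ∧ (∀ x y, G.Adj x y → ℓ s(x, y) = 0 → ρ x y = 0) ∧
        0 < ∑ q, f q * ρ (a q) (b q) ∧
        ∑ q, f q * ((p q).darts.map fun d => ρ d.fst d.snd).sum ≤ K * ∑ q, f q * ρ (a q) (b q)

/-! ### single scale tools -/

/-- selection of an offset avoiding periodic families of intervals -/
def SelStmt : Prop :=
  ∀ (ι J : Type) [Fintype ι] [Fintype J] (ω : ι → ℝ) (c P r : ι → J → ℝ) (a L : ℝ), 0 < L →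
    (∀ i, 0 ≤ ω i) → (∀ i j, 0 < P i j) → (∀ i j, 0 ≤ r i j) →
    ∃ t, a ≤ t ∧ t < a + L ∧
      ∑ i, (if ∃ (j : J) (m : ℤ), |c i j - t - m * P i j| ≤ r i j then ω i else 0) ≤
        ∑ i, ω i * ∑ j, 2 * r i j * (1 / P i j + 1 / L)

/-- padded decomposition (Klein-Plotkin-Rao), weighted form; `c y` names the cell of `y` -/
def KPRStmt : Prop :=
  ∃ Δ : ℝ, 1 ≤ Δ ∧ ∀ (V : Type) [Fintype V] (G : SimpleGraph V) (ℓ : Sym2 V → ℝ) (δ : ℝ),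
    WG G ℓ δ → MF G → ∀ r θ : ℝ, 0 < r → 0 < θ → θ ≤ 1 → δ ≤ r →
    ∀ (ι : Type) [Fintype ι] (x : ι → V) (ω : ι → ℝ), (∀ i, 0 ≤ ω i) →
      ∃ c : V → V, (∀ y, wdist G ℓ y (c y) ≤ Δ * r / θ) ∧
        (∀ y z, c y = c z → wdist G ℓ y z ≤ Δ * r / θ) ∧
        ∑ i, (if ∀ y ∈ bl G ℓ (x i) r, c y = c (x i) then 0 else ω i) ≤ θ * ∑ i, ω i

/-- one scale noise with a cutoff function -/
def NoiseStmt : Prop :=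
  ∃ c ε : ℝ, 0 < c ∧ 0 < ε ∧ ∀ (V : Type) [Fintype V] (G : SimpleGraph V) (ℓ : Sym2 V → ℝ)
    (δ : ℝ), WG G ℓ δ → MF G → ∀ D : ℝ, 0 < D → δ ≤ ε * D → ∀ χ : V → ℝ, (∀ v, 0 ≤ χ v) →
    (∀ x y, G.Adj x y → |χ x - χ y| ≤ ℓ s(x, y)) →
    ∀ (ι : Type) [Fintype ι] (a b : ι → V) (ω : ι → ℝ), (∀ i, 0 ≤ ω i) →
      (∀ i, D ≤ wdist G ℓ (a i) (b i)) →
      ∃ ρ : V → V → ℝ, IsCut ρ ∧ (∀ x y, G.Adj x y → ρ x y ≤ 2 * ℓ s(x, y)) ∧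
        (∀ x y, χ x = 0 → χ y = 0 → ρ x y = 0) ∧
        c * ∑ i, ω i * min D (χ (a i)) ≤ ∑ i, ω i * ρ (a i) (b i)

/-- a separating ball contains two separating geodesics -/
def NeckStmt : Prop :=
  ∀ (V : Type) [Fintype V] (G : SimpleGraph V) (ℓ : Sym2 V → ℝ) (δ : ℝ), WG G ℓ δ → MF G →
    ∀ (p x y : V) (D : ℝ), 0 ≤ D → D < wdist G ℓ p x → D < wdist G ℓ p y →
      Sep G (bl G ℓ p D) x y →
      ∃ (a b : V) (P₁ : G.Walk p a) (P₂ : G.Walk p b), wl ℓ P₁ ≤ D ∧ wl ℓ P₂ ≤ D ∧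
        Sep G {v | v ∈ P₁.support ∨ v ∈ P₂.support} x y

/-- split points `P` of a line with sizes `D` -/
structure Splits {V : Type} {G : SimpleGraph V} {ℓ : Sym2 V → ℝ} (Q : Geo G ℓ) (η s0 : ℝ) where
  P : Finset ℕ
  D : ℕ → ℝ
  le_n : ∀ p ∈ P, p ≤ Q.n
  zero_mem : 0 ∈ P
  n_mem : Q.n ∈ P
  D_zero : D 0 = 0
  D_n : D Q.n = 0
  size : ∀ p ∈ P, p ≠ 0 → p ≠ Q.n → s0 ≤ D p
  sep : ∀ p ∈ P, p ≠ 0 → p ≠ Q.n → Sep G (bl G ℓ (Q.v p) (D p)) (Q.v 0) (Q.v Q.n)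
  far : ∀ p ∈ P, ∀ p' ∈ P, p ≠ p' → D p ≤ η * |Q.pos p - Q.pos p'|
  free : ∀ i ≤ Q.n, ∀ r, s0 ≤ r → (∀ p ∈ P, 2 * r ≤ η * |Q.pos p - Q.pos i|) →
    ¬ Sep G (bl G ℓ (Q.v i) r) (Q.v 0) (Q.v Q.n)

def SplitStmt : Prop :=
  ∀ (V : Type) [Fintype V] (G : SimpleGraph V) (ℓ : Sym2 V → ℝ) (δ : ℝ), WG G ℓ δ →
    ∀ (Q : Geo G ℓ) (η s0 : ℝ), 0 < η → 0 < s0 → Nonempty (Splits Q η s0)

/-- `p < p'` are consecutive elements of `P` -/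
def Cons (P : Finset ℕ) (p p' : ℕ) : Prop := p ∈ P ∧ p' ∈ P ∧ p < p' ∧ ∀ r ∈ P, p < r → p' ≤ r

/-- bonds and the neck inequality -/
def NeckIneqStmt : Prop :=
  ∀ (V : Type) [Fintype V] (G : SimpleGraph V) (ℓ : Sym2 V → ℝ) (δ : ℝ), WG G ℓ δ → MF G →
    ∀ ρ : V → V → ℝ, IsCut ρ → ∃ ρ' : V → V → ℝ, IsCut ρ' ∧
      (∀ x y, G.Adj x y → ρ' x y = ρ x y) ∧
      ∀ (Q : Geo G ℓ) (η s0 : ℝ), 0 < η → η ≤ 1 / 2 → 0 < s0 → ∀ (S : Splits Q η s0)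
        (K Dm : ℝ) (hot : ℕ → Prop), 0 ≤ K → 0 ≤ Dm →
        (∀ x y, G.Adj x y → ρ x y ≤ K * ℓ s(x, y)) →
        (∀ p ∈ S.P, S.D p ≤ Dm → ¬ hot p → ∀ x ∈ bl G ℓ (Q.v p) (S.D p),
          ∀ y ∈ bl G ℓ (Q.v p) (S.D p), G.Adj x y → ρ x y = 0) →
        ∑ p ∈ S.P, ∑ p' ∈ S.P,
            (if Cons S.P p p' ∧ S.D p ≤ Dm ∧ S.D p' ≤ Dm then ρ (Q.v p) (Q.v p') else 0) ≤
          ρ' (Q.v 0) (Q.v Q.n) + 4 * K * ∑ p ∈ S.P, if S.D p ≤ Dm ∧ hot p then S.D p else 0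

/-- deterministic portal lemma -/
def PortalStmt : Prop :=
  ∀ A : ℝ, ∃ M : ℕ, ∀ (V : Type) [Fintype V] (G : SimpleGraph V) (ℓ : Sym2 V → ℝ) (δ : ℝ),
    WG G ℓ δ → MF G → ∀ D : ℝ, 0 < D → ∃ φ : V → ℕ, ∀ x₀ : V, ∃ H : Finset V, H.card ≤ M ∧
      ∀ (Q : Geo G ℓ) (i j k m : ℕ), i ≤ k → k ≤ j → i ≤ m → m ≤ j → j ≤ Q.n →
        Q.pos j - Q.pos i ≤ A * D → wdist G ℓ x₀ (Q.v k) ≤ D / 2 →
        (∀ k', i ≤ k' → k' ≤ j → φ (Q.v m) ≤ φ (Q.v k')) →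
        ∃ h ∈ H, wdist G ℓ (Q.v m) h ≤ 2 * D

/-- Lemma B: near geodesic flows become exact after changing lengths by a factor at most two -/
def LemBStmt : Prop :=
  ∀ (V : Type) [Fintype V] (G : SimpleGraph V) (ℓ : Sym2 V → ℝ) (δ : ℝ), WG G ℓ δ →
    ∀ (z : V) (T : Set V) (L e : ℝ), T.Nonempty → 0 ≤ e → (∀ τ ∈ T, L ≤ wdist G ℓ z τ) →
    ∀ (ι : Type) [Fintype ι] (en : ι → V) (p : ∀ i, G.Walk z (en i)) (m : ι → ℝ),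
      (∀ i, 0 ≤ m i) → (∀ i, en i ∈ T) → (∀ i, wl ℓ (p i) ≤ L + e) →
      ∃ (ℓ' : Sym2 V → ℝ) (lam : ℝ), (∀ ed ∈ G.edgeSet, ℓ ed ≤ ℓ' ed ∧ ℓ' ed ≤ 2 * ℓ ed) ∧
        (∀ τ ∈ T, lam ≤ wdist G ℓ' z τ) ∧ (∃ τ ∈ T, wdist G ℓ' z τ = lam) ∧
        ∑ i, m i * ((p i).edges.map fun ed =>
            if ∀ x ∈ ed, ∃ τ ∈ T, wdist G ℓ' z x + wdist G ℓ' x τ ≤ lam then 0 else ℓ ed).sum ≤
          2 * e * ∑ i, m i

/-! ### Theorem A2: signs, strips, cascade -/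

/-- `F` is affine in `u` on `S` (inside one cell), or vanishes on `S` -/
def Aff {V κ : Type} (u : V → ℝ) (kap : ℝ) (q : V → Option κ) (F : V → ℝ) (S : Set V) : Prop :=
  (∃ (c : Option κ) (α β : ℝ), |α| ≤ kap ∧ ∀ y ∈ S, q y = c ∧ F y = α * u y + β) ∨
    ∀ y ∈ S, F y = 0

/-- `F` is regular on the pair `x, y` -/
def Reg {V κ : Type} (u : V → ℝ) (kap : ℝ) (q : V → Option κ) (F : V → ℝ) (x y : V) : Prop :=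
  (q x = q y ∧ |F x - F y| ≤ kap * |u x - u y|) ∨ (F x = 0 ∧ F y = 0)

structure MartHyp {V κ : Type} (G : SimpleGraph V) (ℓ : Sym2 V → ℝ) (u : V → ℝ) (kap : ℝ) (n : ℕ)
    (q : ℕ → V → Option κ) (F : ℕ → V → ℝ) : Prop where
  none : ∀ j y, q j y = none → F j y = 0
  lip : ∀ j < n, ∀ x y, G.Adj x y → (q j x = q j y ∧ |F j x - F j y| ≤ kap * ℓ s(x, y)) ∨
    (|F j x| ≤ kap * ℓ s(x, y) ∧ |F j y| ≤ kap * ℓ s(x, y))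
  few : ∀ x y, G.Adj x y →
    ((Finset.range n).filter fun j => ¬ Reg u kap (q j) (F j) x y).card ≤ 3
  cell : ∀ j < n, ∀ c : κ, ∃ (js : ℕ) (c₁ c₂ : Option κ),
    (∀ i < j, i ≠ js → Aff u kap (q i) (F i) {y | q j y = some c}) ∧
    (Aff u kap (q js) (F js) {y | q j y = some c} ∨
      ∀ y, q j y = some c → q js y = c₁ ∨ q js y = c₂)


/-- ratio of consecutive scales -/
def Kc : ℕ := 2 ^ 23

/-- band width at level `l` -/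
def ww (w0 : ℝ) (l : ℕ) : ℝ := w0 / (Kc : ℝ) ^ l

/-- band index at level `l` -/
def bd {V : Type} (u : V → ℝ) (a0 w0 : ℝ) (l : ℕ) (y : V) : ℤ := ⌊(u y - a0) / ww w0 l⌋

/-- geometry of the strips: component names `kk`, horizontal coordinate `Vc`, distance `rho` to
`Sg`; the core of level `l` is `{y | rho l y ≤ ww w0 l}` -/
structure Strips {V : Type} (G : SimpleGraph V) (ℓ : Sym2 V → ℝ) (u : V → ℝ) (Sg : Set V)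
    (a0 w0 : ℝ) (n : ℕ) where
  kk : ℕ → V → Set V
  Vc : ℕ → V → ℝ
  rho : ℕ → V → ℝ
  Vc_nonneg : ∀ l y, 0 ≤ Vc l y
  rho_nonneg : ∀ l y, 0 ≤ rho l y
  rho_Sg : ∀ l < n, ∀ x ∈ Sg, rho l x = 0
  kk_bd : ∀ l < n, ∀ y z, kk l y = kk l z → bd u a0 w0 l y = bd u a0 w0 l z
  nest : ∀ l < n, ∀ j ≤ l, ∀ y, rho l y ≤ ww w0 l → rho j y ≤ rho l y
  nestk : ∀ l < n, ∀ j ≤ l, ∀ y z, kk l y = kk l z → kk j y = kk j z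
  edge : ∀ l < n, ∀ y z, G.Adj y z → rho l y ≤ ww w0 l → bd u a0 w0 l y = bd u a0 w0 l z →
    kk l y = kk l z ∧ |Vc l y - Vc l z| ≤ ℓ s(y, z) ∧ |rho l y - rho l z| ≤ ℓ s(y, z)
  line : ∀ l < n, ∀ j ≤ l, ∀ y z, rho l y ≤ ww w0 l → rho l z ≤ ww w0 l → kk l y = kk l z →
    |Vc j y - Vc j z| ≤ |Vc l y - Vc l z| + 9 * ww w0 l
  lined : ∀ l < n, ∀ y z, rho l y ≤ ww w0 l → rho l z ≤ ww w0 l → kk l y = kk l z →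
    wdist G ℓ y z ≤ |Vc l y - Vc l z| + 9 * ww w0 l
  ball : ∀ j < n, ∀ x ∈ Sg, ∀ r, r ≤ ww w0 j →
    (∀ z ∈ bl G ℓ x r, bd u a0 w0 j z = bd u a0 w0 j x) →
    ∀ z ∈ bl G ℓ x r, kk j z = kk j x ∧ |Vc j z - Vc j x| ≤ wdist G ℓ x z
  mono : ∀ l < n, ∀ j < l, ∀ x ∈ Sg, ∀ r, r + ww w0 l ≤ ww w0 j →
    (∀ z ∈ bl G ℓ x (r + ww w0 l), bd u a0 w0 j z = bd u a0 w0 j x) → 3 * ww w0 j ≤ Vc j x →
    ∀ y₁ ∈ bl G ℓ x r, ∀ y₂ ∈ bl G ℓ x r, ∀ y₃ ∈ bl G ℓ x r,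
      rho l y₁ ≤ ww w0 l → rho l y₂ ≤ ww w0 l → rho l y₃ ≤ ww w0 l →
      kk l y₁ = kk l y₂ → kk l y₂ = kk l y₃ →
      Vc l y₁ + 20 * ww w0 l ≤ Vc l y₂ → Vc l y₂ + 20 * ww w0 l ≤ Vc l y₃ →
      min (Vc j y₁) (Vc j y₃) - 20 * ww w0 l ≤ Vc j y₂ ∧
        Vc j y₂ ≤ max (Vc j y₁) (Vc j y₃) + 20 * ww w0 l

/-- the setting of Theorem A2: `Sg` lies on geodesics from `s` to the connected set `T`, and a walk
from `s` to `T` stays far from `Sg` -/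
structure StSet {V : Type} (G : SimpleGraph V) (ℓ : Sym2 V → ℝ) (s : V) (T : Set V) (lam R : ℝ)
    (Sg : Set V) : Prop where
  conn : Cn G T
  high : ∀ τ ∈ T, lam ≤ wdist G ℓ s τ
  tight : ∀ x ∈ Sg, ∃ τ ∈ T, wdist G ℓ s x + wdist G ℓ x τ ≤ lam
  room : ∀ x ∈ Sg, wdist G ℓ s x + R ≤ lam
  away : ∃ τ ∈ T, ∃ p₀ : G.Walk s τ, ∀ v ∈ p₀.support, ∀ x ∈ Sg, R ≤ wdist G ℓ x v



def A2Stmt : Prop :=
  ∀ Δ : ℝ, 1 ≤ Δ → ∃ K c C : ℝ, 0 < K ∧ 0 < c ∧ 1 ≤ C ∧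
    ∀ (V : Type) [Fintype V] (G : SimpleGraph V) (ℓ : Sym2 V → ℝ) (δ : ℝ), WG G ℓ δ → MF G →
    ∀ (s : V) (T : Set V) (lam R m : ℝ) (Sg : Set V), 0 < R → StSet G ℓ s T lam R Sg →
      (∀ x ∈ Sg, |wdist G ℓ s x - m| ≤ Δ * R) →
    ∀ (ι : Type) [Fintype ι] (a b : ι → V) (ω : ι → ℝ), (∀ i, 0 ≤ ω i) →
      (∀ i, a i ∈ Sg ∧ b i ∈ Sg ∧ C * δ ≤ wdist G ℓ (a i) (b i) ∧
        C * wdist G ℓ (a i) (b i) ≤ R) →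
      ∃ ρ : V → V → ℝ, IsCut ρ ∧ (∀ x y, G.Adj x y → ρ x y ≤ K * ℓ s(x, y)) ∧
        (∀ x y, (∀ z ∈ Sg, R / 10 ≤ wdist G ℓ z x) → (∀ z ∈ Sg, R / 10 ≤ wdist G ℓ z y) →
          ρ x y = 0) ∧
        c * ∑ i, ω i * wdist G ℓ (a i) (b i) ≤ ∑ i, ω i * ρ (a i) (b i)

/-! ### one level -/

/-- a type: protected set `S` on `ℓ'`-geodesics from `z` to `T`, at scale `R` -/
structure TypeOK {V : Type} (G : SimpleGraph V) (ℓ ℓ' : Sym2 V → ℝ) (z : V) (T : Set V)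
    (lam R Λ : ℝ) (S : Set V) : Prop where
  len : ∀ ed ∈ G.edgeSet, ℓ ed ≤ ℓ' ed ∧ ℓ' ed ≤ 2 * ℓ ed
  conn : Cn G T
  high : ∀ τ ∈ T, lam ≤ wdist G ℓ' z τ
  tight : ∀ x ∈ S, ∃ τ ∈ T, wdist G ℓ' z x + wdist G ℓ' x τ ≤ lam
  room : ∀ x ∈ S, wdist G ℓ' z x + Λ * R ≤ lam
  away : ∀ x ∈ S, ∃ τ ∈ T, ∃ p₀ : G.Walk z τ, ∀ v ∈ p₀.support, Λ * R ≤ wdist G ℓ x v

/-- protection of most of the volume of long neck-free lines by boundedly overlapping types -/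
def ProtectStmt : Prop :=
  ∀ Λ θ : ℝ, 1 ≤ Λ → 0 < θ → ∃ (X ε : ℝ) (M : ℕ), 1 ≤ X ∧ 0 < ε ∧
    ∀ (V : Type) [Fintype V] (G : SimpleGraph V) (ℓ : Sym2 V → ℝ) (δ : ℝ), WG G ℓ δ → MF G →
    ∀ R : ℝ, 0 < R → δ ≤ ε * R →
    ∀ (ι : Type) [Fintype ι] (Q : ι → Geo G ℓ) (f : ι → ℝ) (act : ι → ℕ → Prop), (∀ q, 0 ≤ f q) →
      (∀ q i, act q i → i < (Q q).n ∧
        ¬ Sep G (bl G ℓ ((Q q).v i) (X * R)) ((Q q).v 0) ((Q q).v (Q q).n)) →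
      ∃ (𝒯 : Type) (_ : Fintype 𝒯) (ℓ' : 𝒯 → Sym2 V → ℝ) (z : 𝒯 → V) (T : 𝒯 → Set V)
        (lam : 𝒯 → ℝ) (S : 𝒯 → Set V),
        (∀ τ, TypeOK G ℓ (ℓ' τ) (z τ) (T τ) (lam τ) R Λ (S τ)) ∧
        (∀ x₀, (Finset.univ.filter fun τ => ∃ x ∈ S τ, wdist G ℓ x₀ x ≤ R / 2).card ≤ M) ∧
        (∀ τ, ∀ x ∈ S τ, ∃ q i, act q i ∧ wdist G ℓ ((Q q).v i) x ≤ X * R) ∧
        vol Q f (fun q i => act q i ∧ ∀ τ, (Q q).v i ∉ S τ) ≤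
          θ * vol Q f (fun q i => ∃ i', act q i' ∧ |(Q q).pos i - (Q q).pos i'| ≤ X * R)

/-- service of the pairs near one protected set -/
def ServeStmt : Prop :=
  ∃ Λ C : ℝ, 1 ≤ Λ ∧ 1 ≤ C ∧ ∀ B : ℝ, 1 ≤ B → ∃ K c ε : ℝ, 0 < K ∧ 0 < c ∧ 0 < ε ∧
    ∀ (V : Type) [Fintype V] (G : SimpleGraph V) (ℓ : Sym2 V → ℝ) (δ : ℝ), WG G ℓ δ → MF G →
    ∀ (ℓ' : Sym2 V → ℝ) (z : V) (T : Set V) (lam R : ℝ) (S : Set V), 0 < R →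
      TypeOK G ℓ ℓ' z T lam R Λ S →
    ∀ (ι : Type) [Fintype ι] (a b : ι → V) (ω : ι → ℝ), (∀ i, 0 ≤ ω i) →
      (∀ i, δ ≤ ε * wdist G ℓ (a i) (b i) ∧ C * B * wdist G ℓ (a i) (b i) ≤ R ∧
        ∃ x ∈ S, wdist G ℓ (a i) x ≤ B * wdist G ℓ (a i) (b i)) →
      ∃ ρ : V → V → ℝ, IsCut ρ ∧ (∀ x y, G.Adj x y → ρ x y ≤ K * ℓ s(x, y)) ∧
        (∀ x y, (∀ v ∈ S, R / 4 ≤ wdist G ℓ v x) → (∀ v ∈ S, R / 4 ≤ wdist G ℓ v y) →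
          ρ x y = 0) ∧
        c * ∑ i, ω i * wdist G ℓ (a i) (b i) ≤ ∑ i, ω i * ρ (a i) (b i)

/-- one level of the scheme; the class `k` has scale `s0 / 2 * 2 ^ k` -/
def LevelStmt : Prop :=
  ∃ B X K c ε : ℝ, 4 ≤ B ∧ 1 ≤ X ∧ 0 < K ∧ 0 < c ∧ 0 < ε ∧
    ∀ (V : Type) [Fintype V] (G : SimpleGraph V) (ℓ : Sym2 V → ℝ) (δ : ℝ), WG G ℓ δ → MF G →
    ∀ s0 : ℝ, 0 < s0 → δ ≤ ε * s0 → ∀ t : V → ℝ, (∀ x, 0 ≤ t x) →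
      (∀ x y, B * |t x - t y| ≤ wdist G ℓ x y) →
    ∀ (ι : Type) [Fintype ι] (Q : ι → Geo G ℓ) (f : ι → ℝ), (∀ q, 0 ≤ f q) →
      ∃ Sg : Set V,
        4 * vol Q f (fun q i => s0 / 2 ≤ t ((Q q).v i) ∧ (Q q).v i ∉ Sg ∧
            ¬ Sep G (bl G ℓ ((Q q).v i) (X * t ((Q q).v i))) ((Q q).v 0) ((Q q).v (Q q).n)) ≤
          vol Q f (fun q i => s0 / 8 ≤ t ((Q q).v i)) ∧
        ∀ (κ : Type) [Fintype κ] (a b : κ → V) (ω : κ → ℝ), (∀ i, 0 ≤ ω i) →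
          (∀ i, s0 ≤ wdist G ℓ (a i) (b i) ∧ wdist G ℓ (a i) (b i) ≤ t (a i) ∧
            (t (a i) < B * wdist G ℓ (a i) (b i) ∨
              ∃ x ∈ Sg, wdist G ℓ (a i) x < B * wdist G ℓ (a i) (b i))) →
          ∃ (N : ℕ) (ρ : ℕ → V → V → ℝ), (∀ k, IsCut (ρ k)) ∧
            (∀ k x y, G.Adj x y → ρ k x y ≤ K * ℓ s(x, y)) ∧
            (∀ k x y, G.Adj x y → ρ k x y ≠ 0 →
              s0 / 4 * 2 ^ k ≤ t x ∧ t x ≤ 2 * s0 * 2 ^ k) ∧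
            c * ∑ i, ω i * wdist G ℓ (a i) (b i) ≤
              ∑ i, ω i * ∑ k ∈ Finset.range N,
                if wdist G ℓ (a i) (b i) ≤ 2 * s0 * 2 ^ k then ρ k (a i) (b i) else 0

end Crest.Agent.N206.PL
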