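import Crest.Agent.N206.PL.Defs

-- ▼ part N206/PL/Basic
section

/-!
# Row 206, S0317: basic facts on walks, geodesics, connected sets and cut semimetrics (helper55)
-/

set_option autoImplicit false

noncomputable section

open scoped Classical

namespace Crest.Agent.N206.PL

open Crest.GeometryTopology.GraphMetric Crest.Agent.R206.Iface534 SimpleGraph

/-! ### walk length -/

section walks

variable {V : Type} {G : SimpleGraph V} {ℓ : Sym2 V → ℝ} {δ : ℝ}

@[simp] theorem wl_nil (x : V) : wl ℓ (Walk.nil : G.Walk x x) = 0 := by simp [wl]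

@[simp] theorem wl_cons {x y z : V} (h : G.Adj x y) (p : G.Walk y z) :
    wl ℓ (Walk.cons h p) = ℓ s(x, y) + wl ℓ p := by simp [wl]

@[simp] theorem wl_append {x y z : V} (p : G.Walk x y) (q : G.Walk y z) :
    wl ℓ (p.append q) = wl ℓ p + wl ℓ q := by simp [wl, Walk.edges_append]

@[simp] theorem wl_reverse {x y : V} (p : G.Walk x y) : wl ℓ p.reverse = wl ℓ p := by
  simp [wl, Walk.edges_reverse, List.sum_reverse]

@[simp] theorem wl_concat {x y z : V} (p : G.Walk x y) (h : G.Adj y z) :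
    wl ℓ (p.concat h) = wl ℓ p + ℓ s(y, z) := by simp [wl]

@[simp] theorem wl_copy {x y x' y' : V} (p : G.Walk x y) (h : x = x') (h' : y = y') :
    wl ℓ (p.copy h h') = wl ℓ p := by subst h h'; rfl

theorem wl_nonneg' (hℓ : ∀ e ∈ G.edgeSet, 0 ≤ ℓ e) {x y : V} (p : G.Walk x y) : 0 ≤ wl ℓ p := by
  refine List.sum_nonneg fun t ht => ?_
  obtain ⟨e, he, rfl⟩ := List.mem_map.1 ht
  exact hℓ e (p.edges_subset_edgeSet he)

theorem wl_take_drop {x y v : V} (p : G.Walk x y) (h : v ∈ p.support) :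
    wl ℓ (p.takeUntil v h) + wl ℓ (p.dropUntil v h) = wl ℓ p := by
  rw [← wl_append, Walk.take_spec]

theorem wl_bypass_le (hℓ : ∀ e ∈ G.edgeSet, 0 ≤ ℓ e) {x y : V} (p : G.Walk x y) :
    wl ℓ p.bypass ≤ wl ℓ p := by
  induction p with
  | nil => simp [Walk.bypass]
  | @cons a b c h p ih =>
    have h0 : 0 ≤ ℓ s(a, b) := hℓ _ h
    simp only [Walk.bypass]
    split_ifs with hs
    · have h1 := wl_take_drop (ℓ := ℓ) p.bypass hs
      have h2 := wl_nonneg' hℓ (p.bypass.takeUntil a hs)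
      rw [wl_cons]; linarith
    · simp only [wl_cons]; linarith

/-- a shortest walk exists (nonnegative lengths), and may be taken to be a path -/
theorem exists_short [Fintype V] (hG : G.Connected) (hℓ : ∀ e ∈ G.edgeSet, 0 ≤ ℓ e) (x y : V) :
    ∃ p : G.Walk x y, p.IsPath ∧ ∀ p' : G.Walk x y, wl ℓ p ≤ wl ℓ p' := by
  obtain ⟨p0⟩ := hG.preconnected x y
  have : Nonempty (G.Path x y) := ⟨p0.toPath⟩
  obtain ⟨p, hp⟩ := Finite.exists_min fun p : G.Path x y => wl ℓ p.1
  exact ⟨p.1, p.2, fun p' => (hp p'.toPath).trans (wl_bypass_le hℓ p')⟩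

namespace WG

theorem nn (h : WG G ℓ δ) : ∀ e ∈ G.edgeSet, 0 ≤ ℓ e := fun e he => (h.pos e he).le

theorem adj_pos (h : WG G ℓ δ) {x y : V} (hxy : G.Adj x y) : 0 < ℓ s(x, y) := h.pos _ hxy

theorem adj_le (h : WG G ℓ δ) {x y : V} (hxy : G.Adj x y) : ℓ s(x, y) ≤ δ := h.small _ hxy

theorem mono (h : WG G ℓ δ) {δ' : ℝ} (hδ : δ ≤ δ') : WG G ℓ δ' :=
  ⟨h.conn, h.pos, fun e he => (h.small e he).trans hδ⟩

/-- lengths changed by a factor at most two -/
theorem two (h : WG G ℓ δ) {ℓ' : Sym2 V → ℝ}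
    (hl : ∀ ed ∈ G.edgeSet, ℓ ed ≤ ℓ' ed ∧ ℓ' ed ≤ 2 * ℓ ed) : WG G ℓ' (2 * δ) :=
  ⟨h.conn, fun e he => (h.pos e he).trans_le (hl e he).1,
    fun e he => (hl e he).2.trans (by linarith [h.small e he])⟩

theorem wl_nonneg (h : WG G ℓ δ) {x y : V} (p : G.Walk x y) : 0 ≤ wl ℓ p := wl_nonneg' h.nn p

theorem le_wl (h : WG G ℓ δ) {x y : V} (p : G.Walk x y) : wdist G ℓ x y ≤ wl ℓ p :=
  wdist_le_walk h.pos p

theorem le_d (h : WG G ℓ δ) {x y : V} {a : ℝ} (ha : ∀ p : G.Walk x y, a ≤ wl ℓ p) :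
    a ≤ wdist G ℓ x y := le_wdist h.conn ha

@[simp] theorem self (h : WG G ℓ δ) (x : V) : wdist G ℓ x x = 0 := wdist_self h.conn h.pos x

theorem nonneg (h : WG G ℓ δ) (x y : V) : 0 ≤ wdist G ℓ x y := wdist_nonneg h.conn h.pos x y

theorem comm (h : WG G ℓ δ) (x y : V) : wdist G ℓ x y = wdist G ℓ y x :=
  wdist_comm h.conn h.pos x y

theorem tri (h : WG G ℓ δ) (x y z : V) : wdist G ℓ x z ≤ wdist G ℓ x y + wdist G ℓ y z :=
  wdist_triangle h.conn h.pos x y z

theorem edge (h : WG G ℓ δ) {x y : V} (hxy : G.Adj x y) : wdist G ℓ x y ≤ ℓ s(x, y) :=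
  wdist_edge_le h.pos hxy

theorem edge' (h : WG G ℓ δ) {x y : V} (hxy : G.Adj x y) : wdist G ℓ x y ≤ δ :=
  (h.edge hxy).trans (h.adj_le hxy)

theorem abs_sub (h : WG G ℓ δ) (s x y : V) :
    |wdist G ℓ s x - wdist G ℓ s y| ≤ wdist G ℓ x y := by
  have h1 := h.tri s x y
  have h2 := h.tri s y x
  rw [h.comm y x] at h2
  rw [abs_le]; constructor <;> linarith



theorem two_le (h : WG G ℓ δ) {ℓ' : Sym2 V → ℝ}
    (hl : ∀ ed ∈ G.edgeSet, ℓ ed ≤ ℓ' ed ∧ ℓ' ed ≤ 2 * ℓ ed) (x y : V) :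
    wdist G ℓ x y ≤ wdist G ℓ' x y ∧ wdist G ℓ' x y ≤ 2 * wdist G ℓ x y := by
  have h' := h.two hl
  constructor
  · have := le_mul_wdist (ℓ := ℓ') h.conn (wdist G ℓ) 1 zero_le_one h.self h.tri
      (fun u v huv => by rw [one_mul]; exact (h.edge huv).trans (hl _ huv).1) x y
    linarith
  · exact le_mul_wdist h.conn (wdist G ℓ') 2 zero_le_two h'.self h'.tri
      (fun u v huv => (h'.edge huv).trans (hl _ huv).2) x y

/-- a geodesic path exists -/
theorem exists_geo [Fintype V] (h : WG G ℓ δ) (x y : V) :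
    ∃ p : G.Walk x y, p.IsPath ∧ wl ℓ p = wdist G ℓ x y := by
  obtain ⟨p, hp, hmin⟩ := exists_short h.conn h.nn x y
  exact ⟨p, hp, le_antisymm (h.le_d hmin) (h.le_wl p)⟩

theorem mem_le (h : WG G ℓ δ) {x y v : V} (p : G.Walk x y) (hv : v ∈ p.support) :
    wdist G ℓ x v + wdist G ℓ v y ≤ wl ℓ p := by
  rw [← wl_take_drop p hv]
  exact add_le_add (h.le_wl _) (h.le_wl _)

theorem mem_left (h : WG G ℓ δ) {x y v : V} (p : G.Walk x y) (hv : v ∈ p.support) :
    wdist G ℓ x v ≤ wl ℓ p := by linarith [h.mem_le p hv, h.nonneg v y]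

theorem mem_right (h : WG G ℓ δ) {x y v : V} (p : G.Walk x y) (hv : v ∈ p.support) :
    wdist G ℓ v y ≤ wl ℓ p := by linarith [h.mem_le p hv, h.nonneg x v]





theorem eq_of_d [Fintype V] (h : WG G ℓ δ) {x y : V} (hxy : wdist G ℓ x y ≤ 0) : x = y := by
  obtain ⟨p, -, hp⟩ := h.exists_geo x y
  cases p with
  | nil => rfl
  | cons ha p =>
    rw [wl_cons] at hp
    linarith [h.adj_pos ha, h.wl_nonneg p]

end WG


/-- first exit: an edge `b a` of `p` with `a ∈ A` and a prefix up to `b` avoiding `A` -/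
theorem first_exit {x y : V} (p : G.Walk x y) (A : Set V) (hx : x ∉ A)
    (hA : ∃ v ∈ p.support, v ∈ A) :
    ∃ (b a : V) (h : G.Adj b a) (p₁ : G.Walk x b) (p₂ : G.Walk a y),
      p = p₁.append (Walk.cons h p₂) ∧ a ∈ A ∧ ∀ v ∈ p₁.support, v ∉ A := by
  induction p with
  | @nil x =>
    obtain ⟨v, hv, hvA⟩ := hA
    simp only [Walk.support_nil, List.mem_singleton] at hv
    subst hv
    exact absurd hvA hx
  | @cons a b c h p ih =>
    by_cases hb : b ∈ A
    · exact ⟨a, b, h, Walk.nil, p, rfl, hb, by simpa using hx⟩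
    · obtain ⟨v, hv, hvA⟩ := hA
      simp only [Walk.support_cons, List.mem_cons] at hv
      rcases hv with rfl | hv
      · exact absurd hvA hx
      obtain ⟨b', a', h', p₁, p₂, rfl, ha', hp⟩ := ih hb ⟨v, hv, hvA⟩
      refine ⟨b', a', h', Walk.cons h p₁, p₂, rfl, ha', fun w hw => ?_⟩
      simp only [Walk.support_cons, List.mem_cons] at hw
      rcases hw with rfl | hw
      · exact hx
      · exact hp w hw



end walks

/-! ### geodesic lines -/

namespace Geo

variable {V : Type} {G : SimpleGraph V} {ℓ : Sym2 V → ℝ} {δ : ℝ}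

theorem el_eq (Q : Geo G ℓ) {i : ℕ} (hi : i < Q.n) : Q.el i = ℓ s(Q.v i, Q.v (i + 1)) := by
  simp [el, Q.step i hi]

theorem el_pos (h : WG G ℓ δ) (Q : Geo G ℓ) {i : ℕ} (hi : i < Q.n) : 0 < Q.el i := by
  rw [Q.el_eq hi]; exact h.adj_pos (Q.adj i hi)

theorem el_le (h : WG G ℓ δ) (Q : Geo G ℓ) {i : ℕ} (hi : i < Q.n) : Q.el i ≤ δ := by
  rw [Q.el_eq hi]; exact h.adj_le (Q.adj i hi)

theorem pos_mono (h : WG G ℓ δ) (Q : Geo G ℓ) {i j : ℕ} (hij : i ≤ j) (hj : j ≤ Q.n) :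
    Q.pos i ≤ Q.pos j := by linarith [Q.dist i j hij hj, h.nonneg (Q.v i) (Q.v j)]

theorem pos_lt (h : WG G ℓ δ) (Q : Geo G ℓ) {i j : ℕ} (hij : i < j) (hj : j ≤ Q.n) :
    Q.pos i < Q.pos j := by
  have h1 := Q.el_pos h (lt_of_lt_of_le hij hj)
  have h2 := Q.pos_mono h (show i + 1 ≤ j from hij) hj
  unfold el at h1; linarith

theorem d_abs (h : WG G ℓ δ) (Q : Geo G ℓ) {i j : ℕ} (hi : i ≤ Q.n) (hj : j ≤ Q.n) :
    wdist G ℓ (Q.v i) (Q.v j) = |Q.pos i - Q.pos j| := by
  rcases le_total i j with hij | hij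
  · rw [Q.dist i j hij hj, abs_sub_comm, abs_of_nonneg (by linarith [Q.pos_mono h hij hj])]
  · rw [h.comm, Q.dist j i hij hi, abs_of_nonneg (by linarith [Q.pos_mono h hij hi])]


theorem sum_el (Q : Geo G ℓ) {i j : ℕ} (hij : i ≤ j) :
    ∑ k ∈ Finset.Ico i j, Q.el k = Q.pos j - Q.pos i := by
  induction j, hij using Nat.le_induction with
  | base => simp
  | succ j hij ih => rw [Finset.sum_Ico_succ_top hij, ih, el]; ring

/-- the segment of a line as a walk -/
theorem walk (Q : Geo G ℓ) {i j : ℕ} (hij : i ≤ j) (hj : j ≤ Q.n) :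
    ∃ p : G.Walk (Q.v i) (Q.v j), wl ℓ p = Q.pos j - Q.pos i ∧
      ∀ x, x ∈ p.support ↔ ∃ k, i ≤ k ∧ k ≤ j ∧ Q.v k = x := by
  induction j, hij using Nat.le_induction with
  | base =>
    refine ⟨Walk.nil, by simp, fun x => ?_⟩
    simp only [Walk.support_nil, List.mem_singleton]
    exact ⟨fun hx => ⟨i, le_rfl, le_rfl, hx.symm⟩,
      fun ⟨k, h1, h2, h3⟩ => by rw [← h3, le_antisymm h2 h1]⟩
  | succ j hij ih =>
    obtain ⟨p, hp, hs⟩ := ih (Nat.le_of_succ_le hj)
    refine ⟨p.concat (Q.adj j hj), by rw [wl_concat, hp, Q.step j hj]; ring, fun x => ?_⟩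
    rw [Walk.support_concat, List.mem_append, hs, List.mem_singleton]
    constructor
    · rintro (⟨k, h1, h2, h3⟩ | rfl)
      · exact ⟨k, h1, h2.trans (Nat.le_succ j), h3⟩
      · exact ⟨j + 1, hij.trans (Nat.le_succ j), le_rfl, rfl⟩
    · rintro ⟨k, h1, h2, h3⟩
      rcases Nat.of_le_succ h2 with h2 | rfl
      · exact Or.inl ⟨k, h1, h2, h3⟩
      · exact Or.inr h3.symm

/-- the reversed line -/
def rev (h : WG G ℓ δ) (Q : Geo G ℓ) : Geo G ℓ where
  n := Q.n
  v i := Q.v (Q.n - i)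
  pos i := - Q.pos (Q.n - i)
  adj i hi := by
    have := (Q.adj (Q.n - (i + 1)) (by omega)).symm
    rwa [show Q.n - (i + 1) + 1 = Q.n - i by omega] at this
  step i hi := by
    have := Q.step (Q.n - (i + 1)) (by omega)
    rw [show Q.n - (i + 1) + 1 = Q.n - i by omega] at this
    rw [this, Sym2.eq_swap]; ring
  dist i j hij hj := by
    rw [h.comm, Q.dist (Q.n - j) (Q.n - i) (by omega) (by omega)]; ring

end Geo

section ofwalk

variable {V : Type} {G : SimpleGraph V} {ℓ : Sym2 V → ℝ} {δ : ℝ}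

theorem wl_take_succ {x y : V} (p : G.Walk x y) {i : ℕ} (hi : i < p.length) :
    wl ℓ (p.take (i + 1)) = wl ℓ (p.take i) + ℓ s(p.getVert i, p.getVert (i + 1)) := by
  induction p generalizing i with
  | nil => simp at hi
  | @cons a b c h p ih =>
    cases i with
    | zero => simp [Walk.take]
    | succ i =>
      have := ih (i := i) (by simpa using hi)
      simp only [Walk.take, wl_cons, Walk.getVert_cons_succ] at this ⊢
      rw [this]; ring

/-- a geodesic walk as a line -/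
theorem WG.geo_of_walk (h : WG G ℓ δ) {x y : V} (p : G.Walk x y)
    (hp : wl ℓ p = wdist G ℓ x y) :
    ∃ Q : Geo G ℓ, Q.n = p.length ∧ (∀ i, Q.v i = p.getVert i) ∧ Q.pos 0 = 0 ∧
      Q.pos Q.n = wl ℓ p := by
  have hstep := fun i (hi : i < p.length) => wl_take_succ (ℓ := ℓ) p hi
  have hup : ∀ i j, i ≤ j → j ≤ p.length →
      wdist G ℓ (p.getVert i) (p.getVert j) ≤ wl ℓ (p.take j) - wl ℓ (p.take i) := by
    intro i j hij hj
    induction j, hij using Nat.le_induction with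
    | base => simp [h.self]
    | succ j hij ih =>
      have h1 := ih (Nat.le_of_succ_le hj)
      have h2 := h.edge (p.adj_getVert_succ (show j < p.length from hj))
      rw [hstep j hj]
      linarith [h.tri (p.getVert i) (p.getVert j) (p.getVert (j + 1))]
  have h0 : wl ℓ (p.take 0) = 0 := by cases p <;> simp [Walk.take]
  have hn : wl ℓ (p.take p.length) = wl ℓ p := by
    clear hp hstep hup h0
    induction p with
    | nil => simp [Walk.take]
    | cons ha p ih => simp only [Walk.length_cons, Walk.take, wl_cons]; exact congrArg _ ih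
  refine ⟨⟨p.length, p.getVert, fun i => wl ℓ (p.take i), fun i hi => p.adj_getVert_succ hi,
    hstep, fun i j hij hj => le_antisymm (hup i j hij hj) ?_⟩, rfl, fun _ => rfl, h0, hn⟩
  have h1 := hup 0 i (Nat.zero_le i) (hij.trans hj)
  have h2 := hup j p.length hj le_rfl
  rw [h0, Walk.getVert_zero] at h1
  rw [hn, Walk.getVert_length] at h2
  linarith [h.tri x (p.getVert i) y, h.tri (p.getVert i) (p.getVert j) y]

/-- a line between any two vertices -/
theorem WG.exists_line [Fintype V] (h : WG G ℓ δ) (x y : V) :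
    ∃ Q : Geo G ℓ, Q.v 0 = x ∧ Q.v Q.n = y ∧ Q.pos 0 = 0 ∧ Q.pos Q.n = wdist G ℓ x y := by
  obtain ⟨p, -, hp⟩ := h.exists_geo x y
  obtain ⟨Q, hn, hv, h0, h1⟩ := h.geo_of_walk p hp
  exact ⟨Q, by simp [hv], by simp [hv, hn], h0, h1.trans hp⟩

end ofwalk

end Crest.Agent.N206.PL
end
end

-- ▼ part N206/PL/Basic2

/-!
# Row 206, S0317: connected sets, minor models, cut semimetrics (helper55)
-/

set_option autoImplicit false

noncomputable section

open scoped Classical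

namespace Crest.Agent.N206.PL

open Crest.GeometryTopology.GraphMetric Crest.Agent.R206.Iface534 SimpleGraph

section conn

variable {V : Type} {G : SimpleGraph V} {ℓ : Sym2 V → ℝ} {δ : ℝ}

/-- a set is connected when all its points are joined inside it to one point -/
theorem Cn.of_root {S : Set V} {r : V} (hr : r ∈ S)
    (h : ∀ x ∈ S, ∃ p : G.Walk r x, ∀ v ∈ p.support, v ∈ S) : Cn G S := by
  refine ⟨⟨r, hr⟩, fun x hx y hy => ?_⟩
  obtain ⟨p, hp⟩ := h x hx
  obtain ⟨q, hq⟩ := h y hy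
  refine ⟨p.reverse.append q, fun v hv => ?_⟩
  rw [Walk.mem_support_append_iff, Walk.support_reverse, List.mem_reverse] at hv
  exact hv.elim (hp v) (hq v)

theorem Cn.single (x : V) : Cn G {x} :=
  Cn.of_root rfl fun y hy => by
    obtain rfl : y = x := hy
    exact ⟨Walk.nil, by simp⟩

theorem Cn.support {x y : V} (p : G.Walk x y) : Cn G {v | v ∈ p.support} :=
  Cn.of_root p.start_mem_support fun v hv =>
    ⟨p.takeUntil v hv, fun _ hw => p.support_takeUntil_subset_support hv hw⟩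

theorem Cn.union {A B : Set V} (hA : Cn G A) (hB : Cn G B) {x : V} (hxA : x ∈ A) (hxB : x ∈ B) :
    Cn G (A ∪ B) :=
  Cn.of_root (Or.inl hxA) fun y hy => by
    rcases hy with hy | hy
    · obtain ⟨p, hp⟩ := hA.2 x hxA y hy
      exact ⟨p, fun v hv => Or.inl (hp v hv)⟩
    · obtain ⟨p, hp⟩ := hB.2 x hxB y hy
      exact ⟨p, fun v hv => Or.inr (hp v hv)⟩

theorem Cn.union_tch {A B : Set V} (hA : Cn G A) (hB : Cn G B) (h : Tch G A B) :
    Cn G (A ∪ B) := by
  obtain ⟨a, ha, b, hb, hab⟩ := h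
  refine Cn.of_root (Or.inl ha) fun y hy => ?_
  rcases hy with hy | hy
  · obtain ⟨p, hp⟩ := hA.2 a ha y hy
    exact ⟨p, fun v hv => Or.inl (hp v hv)⟩
  · obtain ⟨p, hp⟩ := hB.2 b hb y hy
    refine ⟨Walk.cons hab p, fun v hv => ?_⟩
    simp only [Walk.support_cons, List.mem_cons] at hv
    rcases hv with rfl | hv
    · exact Or.inl ha
    · exact Or.inr (hp v hv)

/-- connected sets attached to a connected set -/
theorem Cn.attach {A : Set V} {ι : Type} (B : ι → Set V) (hA : Cn G A) (hB : ∀ i, Cn G (B i))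
    (h : ∀ i, (A ∩ B i).Nonempty ∨ Tch G A (B i)) : Cn G (A ∪ ⋃ i, B i) := by
  obtain ⟨a, ha⟩ := hA.1
  refine Cn.of_root (Or.inl ha) fun y hy => ?_
  rcases hy with hy | hy
  · obtain ⟨p, hp⟩ := hA.2 a ha y hy
    exact ⟨p, fun v hv => Or.inl (hp v hv)⟩
  · obtain ⟨i, hi⟩ := Set.mem_iUnion.1 hy
    have hc : Cn G (A ∪ B i) := by
      rcases h i with ⟨x, hx⟩ | h
      · exact hA.union (hB i) hx.1 hx.2
      · exact hA.union_tch (hB i) h
    obtain ⟨p, hp⟩ := hc.2 a (Or.inl ha) y (Or.inr hi)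
    exact ⟨p, fun v hv => (hp v hv).imp id fun h' => Set.mem_iUnion.2 ⟨i, h'⟩⟩

theorem Tch.symm {A B : Set V} (h : Tch G A B) : Tch G B A := by
  obtain ⟨a, ha, b, hb, hab⟩ := h
  exact ⟨b, hb, a, ha, hab.symm⟩

theorem Tch.mono {A B A' B' : Set V} (h : Tch G A B) (hA : A ⊆ A') (hB : B ⊆ B') :
    Tch G A' B' := by
  obtain ⟨a, ha, b, hb, hab⟩ := h
  exact ⟨a, hA ha, b, hB hb, hab⟩

/-- the component of `x` inside `S` (empty when `x ∉ S`) -/
def cmp (G : SimpleGraph V) (S : Set V) (x : V) : Set V :=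
  {y | ∃ p : G.Walk x y, ∀ v ∈ p.support, v ∈ S}

theorem cmp_sub (S : Set V) (x : V) : cmp G S x ⊆ S := fun _ ⟨p, hp⟩ => hp _ p.end_mem_support

theorem mem_cmp_self {S : Set V} {x : V} (hx : x ∈ S) : x ∈ cmp G S x := ⟨Walk.nil, by simpa⟩

theorem support_sub_cmp {S : Set V} {x y : V} (p : G.Walk x y) (hp : ∀ v ∈ p.support, v ∈ S) :
    ∀ v ∈ p.support, v ∈ cmp G S x := fun v hv =>
  ⟨p.takeUntil v hv, fun w hw => hp w (p.support_takeUntil_subset_support hv hw)⟩

theorem cn_cmp {S : Set V} {x : V} (hx : x ∈ S) : Cn G (cmp G S x) :=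
  Cn.of_root (mem_cmp_self hx) fun _ ⟨p, hp⟩ => ⟨p, support_sub_cmp p hp⟩

theorem cmp_symm {S : Set V} {x y : V} (h : y ∈ cmp G S x) : x ∈ cmp G S y := by
  obtain ⟨p, hp⟩ := h
  exact ⟨p.reverse, by simpa using hp⟩

theorem cmp_trans {S : Set V} {x y z : V} (h : y ∈ cmp G S x) (h' : z ∈ cmp G S y) :
    z ∈ cmp G S x := by
  obtain ⟨p, hp⟩ := h
  obtain ⟨q, hq⟩ := h'
  refine ⟨p.append q, fun v hv => ?_⟩
  rw [Walk.mem_support_append_iff] at hv
  exact hv.elim (hp v) (hq v)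

theorem cmp_eq {S : Set V} {x y : V} (h : y ∈ cmp G S x) : cmp G S y = cmp G S x :=
  Set.Subset.antisymm (fun _ hz => cmp_trans h hz) fun _ hz => cmp_trans (cmp_symm h) hz

theorem cmp_adj {S : Set V} {x y z : V} (h : y ∈ cmp G S x) (hyz : G.Adj y z) (hz : z ∈ S) :
    z ∈ cmp G S x :=
  cmp_trans h ⟨Walk.cons hyz Walk.nil, fun v hv => by
    simp only [Walk.support_cons, Walk.support_nil, List.mem_cons, List.not_mem_nil,
      or_false] at hv
    rcases hv with rfl | rfl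
    · exact cmp_sub S x h
    · exact hz⟩

theorem Cn.sub_cmp {S A : Set V} (hA : Cn G A) (hAS : A ⊆ S) {x : V} (hx : x ∈ A) :
    A ⊆ cmp G S x := fun y hy => by
  obtain ⟨p, hp⟩ := hA.2 x hx y hy
  exact ⟨p, fun v hv => hAS (hp v hv)⟩

theorem cmp_mono {S S' : Set V} (h : S ⊆ S') (x : V) : cmp G S x ⊆ cmp G S' x :=
  fun _ ⟨p, hp⟩ => ⟨p, fun v hv => h (hp v hv)⟩

theorem cmp_disjoint {S : Set V} {x y : V} (h : y ∉ cmp G S x) :
    Disjoint (cmp G S x) (cmp G S y) :=
  Set.disjoint_left.2 fun _ hz hz' => h (cmp_trans hz (cmp_symm hz'))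

theorem mem_bl {p v : V} {r : ℝ} : v ∈ bl G ℓ p r ↔ wdist G ℓ p v ≤ r := Iff.rfl


theorem Sep.mono {A B : Set V} {x y : V} (h : Sep G A x y) (hAB : A ⊆ B) : Sep G B x y :=
  fun p => let ⟨v, hv, hA⟩ := h p; ⟨v, hv, hAB hA⟩

theorem Sep.symm {A : Set V} {x y : V} (h : Sep G A x y) : Sep G A y x := fun p => by
  simpa using h p.reverse

theorem not_sep_iff {A : Set V} {x y : V} : ¬ Sep G A x y ↔ y ∈ cmp G Aᶜ x := by
  simp [Sep, cmp]

theorem MF.k33' (h : MF G) (A₁ A₂ A₃ B₁ B₂ B₃ : Set V) (a₁ : Cn G A₁) (a₂ : Cn G A₂)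
    (a₃ : Cn G A₃) (b₁ : Cn G B₁) (b₂ : Cn G B₂) (b₃ : Cn G B₃) (a12 : Disjoint A₁ A₂)
    (a13 : Disjoint A₁ A₃) (a23 : Disjoint A₂ A₃) (b12 : Disjoint B₁ B₂) (b13 : Disjoint B₁ B₃)
    (b23 : Disjoint B₂ B₃) (d11 : Disjoint A₁ B₁) (d12 : Disjoint A₁ B₂) (d13 : Disjoint A₁ B₃)
    (d21 : Disjoint A₂ B₁) (d22 : Disjoint A₂ B₂) (d23 : Disjoint A₂ B₃) (d31 : Disjoint A₃ B₁)
    (d32 : Disjoint A₃ B₂) (d33 : Disjoint A₃ B₃) (t11 : Tch G A₁ B₁) (t12 : Tch G A₁ B₂)
    (t13 : Tch G A₁ B₃) (t21 : Tch G A₂ B₁) (t22 : Tch G A₂ B₂) (t23 : Tch G A₂ B₃)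
    (t31 : Tch G A₃ B₁) (t32 : Tch G A₃ B₂) (t33 : Tch G A₃ B₃) : False := by
  refine h.k33 ![A₁, A₂, A₃] ![B₁, B₂, B₃] (fun i => ?_) (fun i => ?_) (fun i j hij => ?_)
    (fun i j hij => ?_) (fun i j => ?_) (fun i j => ?_)
  · fin_cases i <;> assumption
  · fin_cases i <;> assumption
  · fin_cases i <;> fin_cases j <;>
      first | exact absurd rfl hij | assumption | (apply Disjoint.symm; assumption)
  · fin_cases i <;> fin_cases j <;>
      first | exact absurd rfl hij | assumption | (apply Disjoint.symm; assumption)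
  · fin_cases i <;> fin_cases j <;> assumption
  · fin_cases i <;> fin_cases j <;> assumption


end conn

/-! ### cut semimetrics -/

namespace IsCut

variable {V : Type} [Fintype V] {ρ ρ' : V → V → ℝ}

theorem zero : IsCut fun _ _ : V => (0 : ℝ) := ⟨fun _ => 0, fun _ => le_rfl, by simp [cutw]⟩

theorem add (h : IsCut ρ) (h' : IsCut ρ') : IsCut fun x y => ρ x y + ρ' x y := by
  obtain ⟨w, hw, e⟩ := h
  obtain ⟨w', hw', e'⟩ := h'
  refine ⟨fun S => w S + w' S, fun S => add_nonneg (hw S) (hw' S), fun x y => ?_⟩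
  simp only [e, e', cutw, add_mul, Finset.sum_add_distrib]

theorem smul (h : IsCut ρ) {c : ℝ} (hc : 0 ≤ c) : IsCut fun x y => c * ρ x y := by
  obtain ⟨w, hw, e⟩ := h
  refine ⟨fun S => c * w S, fun S => mul_nonneg hc (hw S), fun x y => ?_⟩
  simp only [e, cutw, Finset.mul_sum, mul_assoc]

theorem congr (h : IsCut ρ) (e : ∀ x y, ρ' x y = ρ x y) : IsCut ρ' := by
  obtain ⟨w, hw, e'⟩ := h
  exact ⟨w, hw, fun x y => (e x y).trans (e' x y)⟩

theorem sum {ι : Type} (s : Finset ι) (r : ι → V → V → ℝ) (h : ∀ i ∈ s, IsCut (r i)) :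
    IsCut fun x y => ∑ i ∈ s, r i x y := by
  induction s using Finset.induction_on with
  | empty => simpa using zero
  | insert a s ha ih =>
    refine ((h a (by simp)).add (ih fun i hi => h i (by simp [hi]))).congr fun x y => ?_
    rw [Finset.sum_insert ha]

/-- one cut -/
theorem one (S : Set V) : IsCut fun x y => if (x ∈ S ↔ y ∈ S) then (0 : ℝ) else 1 := by
  refine ⟨fun T => if T = S.toFinset then 1 else 0, fun T => by dsimp only; split_ifs <;> norm_num,
    fun x y => ?_⟩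
  simp only [cutw, ite_mul, one_mul, zero_mul, Finset.sum_ite_eq', Finset.mem_univ, if_true,
    Set.mem_toFinset]

theorem self (h : IsCut ρ) (x : V) : ρ x x = 0 := by
  obtain ⟨w, -, e⟩ := h
  rw [e, cutw_self]

theorem tri (h : IsCut ρ) (x y z : V) : ρ x z ≤ ρ x y + ρ y z := by
  obtain ⟨w, hw, e⟩ := h
  simp only [e]
  exact cutw_triangle w hw x y z

theorem symm (h : IsCut ρ) (x y : V) : ρ x y = ρ y x := by
  obtain ⟨w, -, e⟩ := h
  simp only [e, cutw]
  exact Finset.sum_congr rfl fun S _ => by simp only [@iff_comm (x ∈ S)]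

theorem nonneg (h : IsCut ρ) (x y : V) : 0 ≤ ρ x y := by
  have := h.tri x y x
  rw [h.self, h.symm y x] at this
  linarith

theorem le_d {G : SimpleGraph V} {ℓ : Sym2 V → ℝ} {δ K : ℝ} (h : IsCut ρ) (hG : WG G ℓ δ)
    (hK : 0 ≤ K) (he : ∀ x y, G.Adj x y → ρ x y ≤ K * ℓ s(x, y)) (x y : V) :
    ρ x y ≤ K * wdist G ℓ x y := le_mul_wdist hG.conn ρ K hK h.self h.tri he x y

/-- a line metric is a cut semimetric -/
theorem abs (φ : V → ℝ) : IsCut fun x y => |φ x - φ y| := by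
  generalize hn : (Finset.univ.image φ).card = n
  induction n using Nat.strong_induction_on generalizing φ with
  | _ n ih =>
    by_cases hc : ∀ x y, φ x = φ y
    · exact zero.congr fun x y => by rw [hc x y]; simp
    push Not at hc
    obtain ⟨x₀, y₀, hxy⟩ := hc
    obtain ⟨a, -, ha⟩ := Finset.exists_max_image Finset.univ φ ⟨x₀, Finset.mem_univ _⟩
    have hne : (Finset.univ.filter fun v => φ v ≠ φ a).Nonempty := by
      by_cases h1 : φ x₀ = φ a
      · exact ⟨y₀, by simpa using fun h2 => hxy (h1.trans h2.symm)⟩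
      · exact ⟨x₀, by simpa using h1⟩
    obtain ⟨b, hb, hbm⟩ := Finset.exists_max_image _ φ hne
    have hb' : φ b ≠ φ a := by simpa using hb
    have hba : φ b < φ a := lt_of_le_of_ne (ha b (Finset.mem_univ _)) hb'
    have hbm' : ∀ v, φ v ≠ φ a → φ v ≤ φ b := fun v hv => hbm v (by simpa using hv)
    let ψ : V → ℝ := fun v => if φ v = φ a then φ b else φ v
    have hsub : Finset.univ.image ψ ⊆ (Finset.univ.image φ).erase (φ a) := by
      intro t ht
      obtain ⟨v, -, rfl⟩ := Finset.mem_image.1 ht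
      by_cases hv : φ v = φ a
      · simp only [ψ, hv, if_true]
        exact Finset.mem_erase.2 ⟨hb', Finset.mem_image_of_mem _ (Finset.mem_univ _)⟩
      · simp only [ψ, hv, if_false]
        exact Finset.mem_erase.2 ⟨hv, Finset.mem_image_of_mem _ (Finset.mem_univ _)⟩
    have hlt : (Finset.univ.image ψ).card < n := hn ▸ (Finset.card_le_card hsub).trans_lt
      (Finset.card_erase_lt_of_mem (Finset.mem_image_of_mem _ (Finset.mem_univ _)))
    refine ((ih _ hlt ψ rfl).add ((one {v | φ v = φ a}).smul (sub_pos.2 hba).le)).congr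
      fun x y => ?_
    by_cases hx : φ x = φ a <;> by_cases hy : φ y = φ a
    · simp [ψ, hx, hy]
    · have := hbm' y hy
      simp only [ψ, hx, hy, if_true, if_false, Set.mem_ofPred_eq, iff_false, not_true, mul_one]
      rw [abs_of_nonneg (by linarith), abs_of_nonneg (by linarith)]; ring
    · have := hbm' x hx
      simp only [ψ, hx, hy, if_true, if_false, Set.mem_ofPred_eq, false_iff, not_true, mul_one]
      rw [abs_of_nonpos (by linarith), abs_of_nonpos (by linarith)]; ring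
    · simp [ψ, hx, hy]

/-- a function with cells: `|F x - F y|` inside a cell, `|F x| + |F y|` across cells -/
theorem cells {κ : Type} (c : V → κ) (F : V → ℝ) :
    IsCut fun x y => if c x = c y then |F x - F y| else |F x| + |F y| := by
  refine (sum (Finset.univ.image c)
    (fun k x y => |(if c x = k then F x else 0) - if c y = k then F y else 0|)
    fun k _ => abs fun x => if c x = k then F x else 0).congr fun x y => ?_
  have hx : c x ∈ Finset.univ.image c := Finset.mem_image_of_mem _ (Finset.mem_univ _)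
  have hy : c y ∈ Finset.univ.image c := Finset.mem_image_of_mem _ (Finset.mem_univ _)
  split_ifs with h
  · rw [Finset.sum_eq_single_of_mem (c x) hx]
    · simp [h]
    · intro k _ hk
      simp [← h, hk.symm]
  · rw [Finset.sum_eq_add_of_mem (c x) (c y) hx hy h]
    · simp [h, Ne.symm h]
    · intro k _ hk
      simp [hk.1.symm, hk.2.symm]

/-- pull back along a map -/
theorem comap {W : Type} [Fintype W] (h : IsCut ρ) (g : W → V) :
    IsCut fun x y => ρ (g x) (g y) := by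
  obtain ⟨w, hw, e⟩ := h
  refine (sum Finset.univ
    (fun S x y => w S * if (x ∈ {v | g v ∈ S} ↔ y ∈ {v | g v ∈ S}) then (0 : ℝ) else 1)
    fun S _ => ((one {v | g v ∈ S}).smul (hw S)).congr fun x y => by congr).congr fun x y => ?_
  rw [e, cutw]
  exact Finset.sum_congr rfl fun S _ => by simp only [Set.mem_ofPred_eq]

end IsCut

end Crest.Agent.N206.PL
end
namespace Crest.Agent.N206.PL.WG
end Crest.Agent.N206.PL.WG
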