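import Crest.Agent.N206.Dual.Opt
import Crest.Agent.N206.PL.Basic2
import Crest.Agent.N206.PL.Defs

-- ▼ part N206/PL/Reduce
section

/-! # Row 206, S0317: reduction to efficient cuts on geodesic routings (helper6) -/

set_option autoImplicit false

open Finset SimpleGraph
open Crest.GeometryTopology.GraphMetric Crest.Agent.R206.Iface534 Crest.Agent.N206.Dual

namespace Crest.Agent.N206.PL

namespace Red

variable {V : Type}

/-- the cut semimetric of `U` on unordered pairs -/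
def kap [DecidableEq V] (U : Finset V) : Sym2 V → ℝ :=
  Sym2.lift ⟨fun x y => if (x ∈ U ↔ y ∈ U) then 0 else 1, fun x y => by simp only [Iff.comm]⟩

theorem kap_mk [DecidableEq V] (U : Finset V) (x y : V) :
    kap U s(x, y) = if (x ∈ U ↔ y ∈ U) then 0 else 1 := rfl

theorem kap_nonneg [DecidableEq V] (U : Finset V) (e : Sym2 V) : 0 ≤ kap U e := by
  induction e using Sym2.ind with
  | h x y => rw [kap_mk]; split_ifs <;> norm_num

/-- flow-cut gap -/
theorem gap (h : Eff0Stmt) : ∃ K : ℝ, 0 ≤ K ∧ ∀ (V : Type) [Fintype V] [DecidableEq V]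
    (G : SimpleGraph V) (ℓ : Sym2 V → ℝ), G.Connected → MF G → (∀ e ∈ G.edgeSet, 0 < ℓ e) →
    ∀ (w : V × V → ℝ) (c : Sym2 V → ℝ), (∀ p, 0 ≤ w p) → (∀ e, 0 ≤ c e) →
    (∀ U : Finset V, ∑ p, w p * kap U s(p.1, p.2) ≤ ∑ e, c e * ext0 G (kap U) e) →
    ∑ p, w p * wdist G ℓ p.1 p.2 ≤ K * ∑ e, c e * ext0 G ℓ e := by
  obtain ⟨K, h⟩ := h
  refine ⟨max K 0 + 1, by positivity, fun V _ _ G ℓ hG hMF hℓ w c hw hc hcut => ?_⟩
  classical
  set Λ := max K 0 + 1 with hΛ
  have hΛ0 : 0 < Λ := by positivity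
  have : ∀ p : V × V, Nonempty (G.Path p.1 p.2) := fun p =>
    (hG.preconnected p.1 p.2).elim fun q => ⟨q.toPath⟩
  have h0 := ext0_nonneg hℓ
  obtain ⟨x, μ, θ, x1, x2, h1, -, h2, h3, h4, h5, -, h7⟩ := exists_opt (P := V × V)
    (Γ := fun p => G.Path p.1 p.2) (fun _ g => cnt g.1) w hw (fun e => Λ * c e) 0 (ext0 G ℓ) h0
  simp only [dot_cnt] at h1 h2 h5
  by_contra hcon
  have h6 := h2 _ h0 le_rfl (fun p => wdist G ℓ p.1 p.2) fun p g =>
    (wdist_le_walk hℓ g.1).trans_eq (wl_congr (ext0_eq ℓ) _).symm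
  have e1 : ext0 G ℓ ⬝ᵥ (fun e => Λ * c e) = Λ * ∑ e, c e * ext0 G ℓ e := by
    rw [dotProduct, mul_sum]; exact sum_congr rfl fun e _ => by ring
  have e2 : 0 ≤ x ⬝ᵥ fun e => Λ * c e :=
    sum_nonneg fun e _ => mul_nonneg (x1 e) (mul_nonneg hΛ0.le (hc e))
  let ι := {q : Σ p : V × V, G.Path p.1 p.2 // wl x q.2.1 = μ q.1}
  have hsum : ∀ F : (Σ p : V × V, G.Path p.1 p.2) → ℝ,
      ∑ q : ι, θ q.1.1 q.1.2 * F q.1 = ∑ p, ∑ g, θ p g * F ⟨p, g⟩ := fun F => by
    rw [← Fintype.sum_sigma (fun q : Σ p : V × V, G.Path p.1 p.2 => θ q.1 q.2 * F q),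
      ← sum_subtype (univ.filter fun q : Σ p : V × V, G.Path p.1 p.2 => wl x q.2.1 = μ q.1)
        (by simp) (fun q => θ q.1 q.2 * F q), sum_filter_of_ne]
    exact fun q _ hq => h5 _ _ (left_ne_zero_of_mul hq)
  obtain ⟨ρ, ⟨ω, hω, hρ⟩, r1, r2, r3⟩ := h V G x hG hMF (fun e _ => x1 e) ι (fun q => q.1.1.1)
    (fun q => q.1.1.2) (fun q => q.1.2.1) (fun q => θ q.1.1 q.1.2) (fun q => h3 _ _)
    (fun q p' => q.2.trans_le ((h1 _ p'.toPath).trans (wl_toPath_le (fun e _ => x1 e) p')))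
    (by
      have : ∑ q : ι, θ q.1.1 q.1.2 * wl x q.1.2.1 = ∑ q : ι, θ q.1.1 q.1.2 * μ q.1.1 :=
        sum_congr rfl fun q _ => by rw [q.2]
      rw [this, hsum fun q => μ q.1]
      simp only [← sum_mul, h4]
      linarith [not_le.1 hcon])
  set r : Sym2 V → ℝ := fun e => ∑ U, ω U * kap U e with hr
  have hρ' : ∀ a b, ρ a b = r s(a, b) := fun a b => by
    rw [hρ]
    unfold cutw
    exact sum_congr rfl fun U _ => by rw [kap_mk]; congr
  have hr0 : ∀ e, 0 ≤ r e := fun e => sum_nonneg fun U _ => mul_nonneg (hω U) (kap_nonneg U e)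
  have e3 : ∑ q : ι, θ q.1.1 q.1.2 * ρ q.1.1.1 q.1.1.2 = ∑ p, w p * r s(p.1, p.2) := by
    rw [hsum fun q => ρ q.1.1 q.1.2]
    simp only [← sum_mul, h4, hρ']
  have e4 : ∑ q : ι, θ q.1.1 q.1.2 * (q.1.2.1.darts.map fun d => ρ d.fst d.snd).sum =
      ∑ e, ext0 G r e * ∑ p, ∑ g, θ p g * cnt g.1 e := by
    rw [hsum fun q => (q.2.1.darts.map fun d => ρ d.fst d.snd).sum]
    simp only [mul_sum]
    rw [sum_comm]
    refine sum_congr rfl fun p _ => ?_
    rw [sum_comm]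
    refine sum_congr rfl fun g _ => ?_
    simp only [mul_left_comm _ (θ p g), ← mul_sum]
    congr 1
    refine Eq.trans ?_ ((dot_cnt _ g.1).trans (wl_congr (ext0_eq r) _)).symm
    simp only [wl, Walk.edges, List.map_map, hρ']
    rfl
  have e5 : ∑ p, w p * r s(p.1, p.2) ≤ ∑ e, c e * ext0 G r e := by
    calc _ = ∑ U, ω U * ∑ p, w p * kap U s(p.1, p.2) := by
          simp only [hr, mul_sum]
          rw [sum_comm]
          simp only [mul_left_comm]
      _ ≤ ∑ U, ω U * ∑ e, c e * ext0 G (kap U) e :=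
          sum_le_sum fun U _ => mul_le_mul_of_nonneg_left (hcut U) (hω U)
      _ = _ := by
          simp only [mul_sum]
          rw [sum_comm]
          refine sum_congr rfl fun e _ => ?_
          simp only [ext0, hr]
          split_ifs
          · simp only [mul_sum, mul_left_comm]
          · simp
  have e6 : Λ * ∑ e, c e * ext0 G r e ≤ ∑ e, ext0 G r e * ∑ p, ∑ g, θ p g * cnt g.1 e := by
    rw [mul_sum]
    refine sum_le_sum fun e _ => ?_
    unfold ext0
    split_ifs with he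
    · rcases (x1 e).eq_or_lt with h' | h'
      · induction e using Sym2.ind with
        | h a b => rw [← hρ', r1 a b he h'.symm]; simp
      · rw [← mul_assoc, mul_comm]
        exact mul_le_mul_of_nonneg_left (h7 e h') (hr0 e)
    · simp
  rw [e3] at r2
  rw [e3, e4] at r3
  nlinarith [le_max_left K 0]

end Red

open Red in
theorem reduce' (top : TopStmt) (h : Eff0Stmt) : Goal := by
  obtain ⟨K, hK, h⟩ := gap h
  refine ⟨K, fun V _ G hG hP ℓ hℓ => ?_⟩
  classical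
  set triv : Finset V → Prop := fun U => ∀ x y, G.Adj x y → (x ∈ U ↔ y ∈ U) with htriv
  set v : Finset V → (V × V) ⊕ Sym2 V → ℝ := fun U =>
    Sum.elim (fun p => -kap U s(p.1, p.2)) (ext0 G (kap U)) with hv
  set a₀ : (V × V) ⊕ Sym2 V → ℝ :=
    Sum.elim (fun p => wdist G ℓ p.1 p.2) (fun e => -(K * ext0 G ℓ e)) with ha₀
  rcases ville (fun U => v U + if triv U then a₀ else 0) with ⟨θ, h1, h2, h3⟩ | ⟨y, h1, h2⟩
  · set t := ∑ U, if triv U then θ U else 0 with ht
    have h4 : ∀ e, ∑ U, θ U * v U e + t * a₀ e ≤ 0 := fun e => by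
      refine le_of_eq_of_le ?_ (h3 e)
      rw [ht, sum_mul, ← sum_add_distrib]
      refine sum_congr rfl fun U _ => ?_
      split_ifs <;> simp [mul_add]
    have h5 : ∀ x y, t * wdist G ℓ x y ≤ cutw θ x y := fun x y => by
      have := h4 (.inl (x, y))
      simp only [hv, ha₀, Sum.elim_inl, mul_neg, sum_neg_distrib, kap_mk] at this
      rw [cutw]; linarith
    have h6 : ∀ x y, G.Adj x y → cutw θ x y ≤ t * (K * ℓ s(x, y)) := fun x y hxy => by
      have := h4 (.inr s(x, y))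
      simp only [hv, ha₀, Sum.elim_inr, mul_neg, ext0_eq _ _ (G.mem_edgeSet.2 hxy), kap_mk] at this
      rw [cutw]; linarith
    have ht0 : 0 < t := by
      refine lt_of_le_of_ne (sum_nonneg fun U _ => by split_ifs; exacts [h1 U, le_rfl]) fun e => ?_
      refine one_ne_zero (h2.symm.trans (sum_eq_zero fun U _ => ?_))
      by_cases hU : triv U
      · simpa [hU] using (sum_eq_zero_iff_of_nonneg fun U _ => by
          split_ifs; exacts [h1 U, le_rfl]).1 e.symm U (mem_univ U)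
      · simp only [htriv, not_forall] at hU
        obtain ⟨x, y, hxy, hU⟩ := hU
        have := h6 x y hxy
        rw [← e, zero_mul, cutw] at this
        have h7 := (single_le_sum (f := fun S => θ S * if (x ∈ S ↔ y ∈ S) then (0 : ℝ) else 1)
          (fun S _ => mul_nonneg (h1 S) (by split_ifs <;> norm_num)) (mem_univ U)).trans this
        simp only [hU, if_false, mul_one] at h7
        exact le_antisymm h7 (h1 U)
    have e : ∀ x y, cutw (fun U => θ U / t) x y = cutw θ x y / t := fun x y => by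
      simp only [cutw, sum_div, div_mul_eq_mul_div]
    exact embed_of_cuts hG hK (fun U => θ U / t) (fun U => div_nonneg (h1 U) ht0.le)
      (fun x y hxy => by rw [e, div_le_iff₀' ht0]; exact h6 x y hxy)
      fun x y => by rw [e, le_div_iff₀' ht0]; exact h5 x y
  · exfalso
    have hz : ∀ U, triv U → v U = 0 := fun U hU => by
      have : ∀ x y, kap U s(x, y) = 0 := fun x y => by
        obtain ⟨q⟩ := hG.preconnected x y
        refine if_pos ?_
        induction q with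
        | nil => rfl
        | cons hq _ ih => exact (hU _ _ hq).trans ih
      ext (p | e)
      · simp [hv, this]
      · induction e using Sym2.ind with
        | h a b => simp [hv, ext0, this]
    have h3 := h V G ℓ hG (top V G hP) hℓ (fun p => y (.inl p)) (fun e => y (.inr e))
      (fun p => h1 _) (fun e => h1 _) fun U => by
        have : 0 ≤ y ⬝ᵥ v U := by
          by_cases hU : triv U
          · rw [hz U hU, dotProduct_zero]
          · simpa [hU] using (h2 U).le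
        simp only [dotProduct, Fintype.sum_sum_type, hv, Sum.elim_inl, Sum.elim_inr, mul_neg,
          sum_neg_distrib] at this
        linarith
    have h4 := h2 ∅
    have h5 : triv ∅ := fun _ _ _ => by simp
    simp only [hz ∅ h5, if_pos h5, zero_add, dotProduct, Fintype.sum_sum_type, ha₀, Sum.elim_inl,
      Sum.elim_inr, mul_neg, sum_neg_distrib, mul_left_comm _ K, ← mul_sum] at h4
    linarith


end Crest.Agent.N206.PL
end

-- ▼ part N206/PL/Eff0A
section

/-!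
# Row 206, S0317: subdivision and contraction of zero edges (helper61)
-/

set_option autoImplicit false

noncomputable section

open scoped Classical

namespace Crest.Agent.N206.PL.Eff0

open Crest.GeometryTopology.GraphMetric SimpleGraph Sum

/-! ### minor models of a general pattern -/

structure Mod {V I : Type} (G : SimpleGraph V) (R : I → I → Prop) (X : I → Set V) : Prop where
  cn : ∀ i, Cn G (X i)
  dj : ∀ i j, i ≠ j → Disjoint (X i) (X j)
  tch : ∀ i j, R i j → Tch G (X i) (X j)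

/-- irreflexive pattern of minimal degree at least three -/
def Deg {I : Type} (R : I → I → Prop) : Prop :=
  (∀ i j, R i j → i ≠ j) ∧ ∀ i, ∃ j k l, j ≠ k ∧ j ≠ l ∧ k ≠ l ∧ R i j ∧ R i k ∧ R i l

theorem transfer {V W : Type} {G : SimpleGraph V} {H : SimpleGraph W} (hG : MF G)
    (h : ∀ (I : Type) (R : I → I → Prop) (X : I → Set W), Deg R → Mod H R X → ∃ Y, Mod G R Y) :
    MF H := by
  constructor
  · intro X h1 h2 h3
    obtain ⟨Y, hY⟩ := h (Fin 5) (· ≠ ·) X ⟨fun _ _ h => h, by decide⟩ ⟨h1, h2, h3⟩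
    exact hG.k5 Y hY.cn hY.dj hY.tch
  · intro A B h1 h2 h3 h4 h5 h6
    obtain ⟨Y, hY⟩ := h (Fin 3 ⊕ Fin 3) (fun u v => u.isLeft ≠ v.isLeft) (Sum.elim A B)
      ⟨fun i j h e => h (by rw [e]), by decide⟩ ⟨fun i => by cases i <;> simp [h1, h2],
        fun i j hij => by
          rcases i with i | i <;> rcases j with j | j
          · exact h3 i j fun e => hij (by rw [e])
          · exact h5 i j
          · exact (h5 j i).symm
          · exact h4 i j fun e => hij (by rw [e]),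
        fun i j hij => by
          rcases i with i | i <;> rcases j with j | j
          · simp at hij
          · exact h6 i j
          · exact (h6 j i).symm
          · simp at hij⟩
    exact hG.k33 (fun i => Y (inl i)) (fun i => Y (inr i)) (fun i => hY.cn _) (fun i => hY.cn _)
      (fun i j hij => hY.dj _ _ (by simpa using hij))
      (fun i j hij => hY.dj _ _ (by simpa using hij)) (fun i j => hY.dj _ _ (by simp))
      (fun i j => hY.tch _ _ (by simp))

theorem wmap {V W : Type} {G : SimpleGraph V} {H : SimpleGraph W} (π : W → V)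
    (hπ : ∀ u v, H.Adj u v → π u = π v ∨ G.Adj (π u) (π v)) {u v : W} (p : H.Walk u v) :
    ∃ q : G.Walk (π u) (π v), ∀ z ∈ q.support, ∃ y ∈ p.support, π y = z := by
  induction p with
  | nil => exact ⟨Walk.nil, by simp⟩
  | @cons a b c h p ih =>
    obtain ⟨q, hq⟩ := ih
    rcases hπ a b h with e | e
    · refine ⟨q.copy e.symm rfl, fun z hz => ?_⟩
      obtain ⟨y, hy, hz⟩ := hq z (by simpa using hz)
      exact ⟨y, by simp [hy], hz⟩
    · refine ⟨Walk.cons e q, fun z hz => ?_⟩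
      rw [Walk.support_cons, List.mem_cons] at hz
      rcases hz with rfl | hz
      · exact ⟨a, by simp, rfl⟩
      · obtain ⟨y, hy, hz⟩ := hq z hz
        exact ⟨y, by simp [hy], hz⟩

theorem Mod.image {V W I : Type} {G : SimpleGraph V} {H : SimpleGraph W} {R : I → I → Prop}
    {X : I → Set W} (hX : Mod H R X) (hR : ∀ i j, R i j → i ≠ j) (π : W → V)
    (hπ : ∀ u v, H.Adj u v → π u = π v ∨ G.Adj (π u) (π v))
    (hd : ∀ i j, i ≠ j → Disjoint (π '' X i) (π '' X j)) : Mod G R fun i => π '' X i := by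
  refine ⟨fun i => ⟨(hX.cn i).1.image π, ?_⟩, hd, fun i j hij => ?_⟩
  · rintro _ ⟨u, hu, rfl⟩ _ ⟨v, hv, rfl⟩
    obtain ⟨p, hp⟩ := (hX.cn i).2 u hu v hv
    obtain ⟨q, hq⟩ := wmap π hπ p
    exact ⟨q, fun z hz => let ⟨y, hy, e⟩ := hq z hz; ⟨y, hp y hy, e⟩⟩
  · obtain ⟨u, hu, v, hv, huv⟩ := hX.tch i j hij
    rcases hπ u v huv with e | e
    · exact absurd ⟨v, hv, e.symm⟩ (Set.disjoint_left.1 (hd i j (hR i j hij)) ⟨u, hu, rfl⟩)
    · exact ⟨_, ⟨u, hu, rfl⟩, _, ⟨v, hv, rfl⟩, e⟩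

/-! ### simulation of a weighted graph by another one -/

structure Sim {V W : Type} (G : SimpleGraph V) (ℓ : Sym2 V → ℝ) (H : SimpleGraph W)
    (m : Sym2 W → ℝ) (φ : V → W) : Prop where
  up : ∀ x y, G.Adj x y → ∃ w : H.Walk (φ x) (φ y), wl m w ≤ ℓ s(x, y)
  dn : ∀ x y (w : H.Walk (φ x) (φ y)), ∃ p : G.Walk x y, wl ℓ p ≤ wl m w

theorem Sim.walk {V W : Type} {G : SimpleGraph V} {ℓ : Sym2 V → ℝ} {H : SimpleGraph W}
    {m : Sym2 W → ℝ} {φ : V → W} (h : Sim G ℓ H m φ) {x y : V} (p : G.Walk x y) :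
    ∃ w : H.Walk (φ x) (φ y), wl m w ≤ wl ℓ p := by
  induction p with
  | nil => exact ⟨Walk.nil, by simp⟩
  | cons a p ih =>
    obtain ⟨w, hw⟩ := ih
    obtain ⟨w', hw'⟩ := h.up _ _ a
    exact ⟨w'.append w, by rw [wl_append, wl_cons]; linarith⟩

theorem Sim.trans {U V W : Type} {F : SimpleGraph U} {k : Sym2 U → ℝ} {G : SimpleGraph V}
    {ℓ : Sym2 V → ℝ} {H : SimpleGraph W} {m : Sym2 W → ℝ} {ψ : U → V} {φ : V → W}
    (h : Sim F k G ℓ ψ) (h' : Sim G ℓ H m φ) : Sim F k H m fun x => φ (ψ x) := by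
  refine ⟨fun x y a => ?_, fun x y w => ?_⟩
  · obtain ⟨w, hw⟩ := h.up x y a
    obtain ⟨w', hw'⟩ := h'.walk w
    exact ⟨w', hw'.trans hw⟩
  · obtain ⟨p, hp⟩ := h'.dn _ _ w
    obtain ⟨p', hp'⟩ := h.dn _ _ p
    exact ⟨p', hp'.trans hp⟩

/-! ### barycentric subdivision -/

section sub

variable {V : Type} (G : SimpleGraph V) (ℓ : Sym2 V → ℝ)

def subAdj : V ⊕ G.edgeSet → V ⊕ G.edgeSet → Prop
  | inl x, inr e => x ∈ e.1
  | inr e, inl x => x ∈ e.1
  | inl _, inl _ => False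
  | inr _, inr _ => False

def subG : SimpleGraph (V ⊕ G.edgeSet) where
  Adj := subAdj G
  symm := ⟨fun u v h => by cases u <;> cases v <;> exact h⟩
  loopless := ⟨fun u h => by cases u <;> exact h⟩

def subL : Sym2 (V ⊕ G.edgeSet) → ℝ :=
  Sym2.lift ⟨fun u v => Sum.elim (fun _ => 0) (fun e : G.edgeSet => ℓ e.1 / 2) u +
    Sum.elim (fun _ => 0) (fun e : G.edgeSet => ℓ e.1 / 2) v, fun _ _ => add_comm _ _⟩

variable {G ℓ}

theorem subL_lr (x : V) (e : G.edgeSet) : subL G ℓ s(inl x, inr e) = ℓ e.1 / 2 := by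
  simp [subL]

theorem subL_rl (x : V) (e : G.edgeSet) : subL G ℓ s(inr e, inl x) = ℓ e.1 / 2 := by
  simp [subL]

theorem sub_dn (h0 : ∀ e ∈ G.edgeSet, 0 ≤ ℓ e) {u v : V ⊕ G.edgeSet}
    (w : (subG G).Walk u v) (y : V) (hv : v = inl y) :
    (∀ x, u = inl x → ∃ p : G.Walk x y, wl ℓ p ≤ wl (subL G ℓ) w) ∧
      ∀ e, u = inr e → ∃ x ∈ e.1, ∃ p : G.Walk x y, wl ℓ p + ℓ e.1 / 2 ≤ wl (subL G ℓ) w := by
  induction w with
  | nil =>
    subst hv
    refine ⟨fun x hx => ?_, fun e he => by simp at he⟩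
    obtain rfl : y = x := by simpa using hx
    exact ⟨Walk.nil, by simp⟩
  | @cons a b c h w ih =>
    obtain ⟨ih1, ih2⟩ := ih hv
    refine ⟨fun x hx => ?_, fun e he => ?_⟩
    · subst hx
      rcases b with b | e
      · exact h.elim
      obtain ⟨x', hx', p, hp⟩ := ih2 e rfl
      have he := h0 _ e.2
      rw [wl_cons, subL_lr]
      by_cases hxx : x = x'
      · subst hxx
        exact ⟨p, by linarith⟩
      · have h1 : e.1 = s(x, x') := (Sym2.mem_and_mem_iff hxx).1 ⟨h, hx'⟩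
        have h2 : G.Adj x x' := by rw [← mem_edgeSet, ← h1]; exact e.2
        exact ⟨Walk.cons h2 p, by rw [wl_cons, ← h1]; linarith⟩
    · subst he
      rcases b with x | e'
      · obtain ⟨p, hp⟩ := ih1 x rfl
        exact ⟨x, h, p, by rw [wl_cons, subL_rl]; linarith⟩
      · exact h.elim

theorem sub_sim (h0 : ∀ e ∈ G.edgeSet, 0 ≤ ℓ e) : Sim G ℓ (subG G) (subL G ℓ) inl := by
  refine ⟨fun x y a => ?_, fun x y w => (sub_dn h0 w y rfl).1 x rfl⟩
  have h1 : (subG G).Adj (inl x) (inr ⟨s(x, y), a⟩) := Sym2.mem_mk_left x y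
  have h2 : (subG G).Adj (inr ⟨s(x, y), a⟩) (inl y) := Sym2.mem_mk_right x y
  refine ⟨Walk.cons h1 (Walk.cons h2 Walk.nil), ?_⟩
  simp only [wl_cons, wl_nil, subL_lr, subL_rl]
  linarith

theorem sub_wg {δ : ℝ} (h : WG G ℓ δ) : WG (subG G) (subL G ℓ) (δ / 2) := by
  have key : ∀ e ∈ (subG G).edgeSet, ∃ e' ∈ G.edgeSet, subL G ℓ e = ℓ e' / 2 := by
    intro e he
    induction e using Sym2.ind with
    | _ u v =>
      rcases u with u | u <;> rcases v with v | v
      · exact he.elim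
      · exact ⟨v.1, v.2, subL_lr _ _⟩
      · exact ⟨u.1, u.2, subL_rl _ _⟩
      · exact he.elim
  refine ⟨?_, fun e he => ?_, fun e he => ?_⟩
  · obtain ⟨r⟩ := h.conn.nonempty
    have h1 : ∀ x, (subG G).Reachable (inl r) (inl x) := fun x => by
      obtain ⟨p⟩ := h.conn.preconnected r x
      exact ⟨((sub_sim h.nn).walk p).choose⟩
    refine (connected_iff_exists_forall_reachable _).2 ⟨inl r, fun u => ?_⟩
    rcases u with x | e
    · exact h1 x
    · have : (subG G).Adj (inl e.1.out.1) (inr e) := Sym2.out_fst_mem e.1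
      exact (h1 _).trans this.reachable
  · obtain ⟨e', he', e1⟩ := key e he
    rw [e1]; linarith [h.pos e' he']
  · obtain ⟨e', he', e1⟩ := key e he
    rw [e1]; linarith [h.small e' he']

theorem sub_mf (h : MF G) : MF (subG G) := by
  refine transfer h fun I R X hR hX => ?_
  have huniq : ∀ u i j, u ∈ X i → u ∈ X j → i = j := fun u i j hi hj => by
    by_contra hij
    exact Set.disjoint_left.1 (hX.dj i j hij) hi hj
  have hend : ∀ e : G.edgeSet, ∃ x ∈ e.1, ∀ i, inr e ∈ X i → inl x ∈ X i := by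
    intro e
    by_cases he : ∃ i, inr e ∈ X i
    swap
    · exact ⟨_, Sym2.out_fst_mem e.1, fun i hi => absurd ⟨i, hi⟩ he⟩
    obtain ⟨i, hi⟩ := he
    suffices ∃ x ∈ e.1, inl x ∈ X i by
      obtain ⟨x, hx, hxi⟩ := this
      exact ⟨x, hx, fun j hj => huniq _ i j hi hj ▸ hxi⟩
    by_contra hn
    have hone : ∀ u ∈ X i, u = inr e := fun u hu => by
      obtain ⟨p, hp⟩ := (hX.cn i).2 _ hi u hu
      cases p with
      | nil => rfl
      | @cons _ b _ a p =>
        rcases b with b | b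
        · exact absurd ⟨b, a, hp _ (by simp)⟩ hn
        · exact a.elim
    have hnb : ∀ j, R i j → ∃ x ∈ e.1, inl x ∈ X j := fun j hj => by
      obtain ⟨u, hu, v, hv, a⟩ := hX.tch i j hj
      rw [hone u hu] at a
      rcases v with v | v
      · exact ⟨v, a, hv⟩
      · exact a.elim
    obtain ⟨j, k, l, hjk, hjl, hkl, hj, hk, hl⟩ := hR.2 i
    obtain ⟨x, hx, hxj⟩ := hnb j hj
    obtain ⟨y, hy, hyk⟩ := hnb k hk
    obtain ⟨z, hz, hzl⟩ := hnb l hl
    have hxy : x ≠ y := fun e => hjk (huniq _ _ _ hxj (e ▸ hyk))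
    rw [(Sym2.mem_and_mem_iff hxy).1 ⟨hx, hy⟩, Sym2.mem_iff] at hz
    rcases hz with rfl | rfl
    · exact hjl (huniq _ _ _ hxj hzl)
    · exact hkl (huniq _ _ _ hyk hzl)
  choose g hg hgX using hend
  have hadj : ∀ x (e : G.edgeSet), x ∈ e.1 → x = g e ∨ G.Adj x (g e) := fun x e hx => by
    by_cases hxe : x = g e
    · exact Or.inl hxe
    · right
      rw [← mem_edgeSet, ← (Sym2.mem_and_mem_iff hxe).1 ⟨hx, hg e⟩]
      exact e.2
  have him : ∀ i, ∀ x ∈ Sum.elim id g '' X i, inl x ∈ X i := by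
    rintro i _ ⟨u, hu, rfl⟩
    rcases u with u | u
    · exact hu
    · exact hgX u i hu
  refine ⟨_, hX.image hR.1 (Sum.elim id g) (fun u v a => ?_) fun i j hij =>
    Set.disjoint_left.2 fun x hi hj => hij (huniq _ _ _ (him i x hi) (him j x hj))⟩
  rcases u with u | u <;> rcases v with v | v
  · exact a.elim
  · exact hadj u v a
  · exact (hadj v u a).imp Eq.symm Adj.symm
  · exact a.elim

end sub

/-- edges can be made short -/
theorem exists_fine (n : ℕ) : ∀ (V : Type) [Finite V] (G : SimpleGraph V) (ℓ : Sym2 V → ℝ)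
    (δ : ℝ), WG G ℓ δ → MF G → ∃ (W : Type) (_ : Finite W) (H : SimpleGraph W)
      (m : Sym2 W → ℝ) (φ : V → W), WG H m (δ / 2 ^ n) ∧ MF H ∧ Sim G ℓ H m φ := by
  induction n with
  | zero =>
    intro V _ G ℓ δ h hM
    refine ⟨V, inferInstance, G, ℓ, id, by simpa using h, hM, fun x y a => ?_,
      fun x y w => ⟨w, le_rfl⟩⟩
    exact ⟨Walk.cons a Walk.nil, by simp⟩
  | succ n ih =>
    intro V _ G ℓ δ h hM
    obtain ⟨W, _, H, m, φ, h1, h2, h3⟩ := ih _ (subG G) _ _ (sub_wg h) (sub_mf hM)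
    exact ⟨W, inferInstance, H, m, _, h1.mono (le_of_eq (by ring)), h2,
      (sub_sim h.nn).trans h3⟩

/-! ### contraction of the edges of length zero -/

section con

variable {V : Type} (G : SimpleGraph V) (ℓ : Sym2 V → ℝ)

def zG : SimpleGraph V where
  Adj x y := G.Adj x y ∧ ℓ s(x, y) = 0
  symm := ⟨fun x y h => ⟨h.1.symm, by rw [Sym2.eq_swap]; exact h.2⟩⟩
  loopless := ⟨fun x h => h.1.ne rfl⟩

def conG : SimpleGraph (zG G ℓ).ConnectedComponent where
  Adj A B := A ≠ B ∧ ∃ x y, G.Adj x y ∧ (zG G ℓ).connectedComponentMk x = A ∧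
    (zG G ℓ).connectedComponentMk y = B
  symm := ⟨fun _ _ ⟨h, x, y, a, hx, hy⟩ => ⟨h.symm, y, x, a.symm, hy, hx⟩⟩
  loopless := ⟨fun _ h => h.1 rfl⟩

def conL (e : Sym2 (zG G ℓ).ConnectedComponent) : ℝ :=
  sInf (ℓ '' {e' | e' ∈ G.edgeSet ∧ e'.map (zG G ℓ).connectedComponentMk = e})

variable {G ℓ}

theorem zwalk {x y : V} (h : (zG G ℓ).connectedComponentMk x = (zG G ℓ).connectedComponentMk y) :
    ∃ p : G.Walk x y, wl ℓ p = 0 ∧
      ∀ v ∈ p.support, (zG G ℓ).connectedComponentMk v = (zG G ℓ).connectedComponentMk y := by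
  obtain ⟨p⟩ := ConnectedComponent.exact h
  induction p with
  | nil => exact ⟨Walk.nil, by simp, by simp⟩
  | cons a p ih =>
    obtain ⟨q, h1, h2⟩ := ih (ConnectedComponent.sound ⟨p⟩)
    refine ⟨Walk.cons a.1 q, by rw [wl_cons, h1, a.2, add_zero], fun v hv => ?_⟩
    rw [Walk.support_cons, List.mem_cons] at hv
    rcases hv with rfl | hv
    · exact h
    · exact h2 v hv

theorem conL_le [Finite V] {x y : V} (a : G.Adj x y) :
    conL G ℓ s((zG G ℓ).connectedComponentMk x, (zG G ℓ).connectedComponentMk y) ≤ ℓ s(x, y) :=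
  csInf_le ((Set.toFinite _).image _).bddBelow ⟨s(x, y), ⟨a, rfl⟩, rfl⟩

theorem conL_eq [Finite V] {A B : (zG G ℓ).ConnectedComponent} (h : (conG G ℓ).Adj A B) :
    ∃ x y, G.Adj x y ∧ (zG G ℓ).connectedComponentMk x = A ∧
      (zG G ℓ).connectedComponentMk y = B ∧ ℓ s(x, y) = conL G ℓ s(A, B) := by
  obtain ⟨-, x, y, a, rfl, rfl⟩ := h
  obtain ⟨e, ⟨he, hm⟩, e1⟩ := Set.Nonempty.csInf_mem
    (s := ℓ '' {e' | e' ∈ G.edgeSet ∧ e'.map (zG G ℓ).connectedComponentMk =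
      s((zG G ℓ).connectedComponentMk x, (zG G ℓ).connectedComponentMk y)})
    ⟨_, s(x, y), ⟨a, rfl⟩, rfl⟩ ((Set.toFinite _).image _)
  induction e using Sym2.ind with
  | _ u v =>
    rw [Sym2.map_mk, Sym2.eq_iff] at hm
    rcases hm with ⟨h1, h2⟩ | ⟨h1, h2⟩
    · exact ⟨u, v, he, h1, h2, e1⟩
    · exact ⟨v, u, Adj.symm he, h2, h1, by rw [Sym2.eq_swap]; exact e1⟩

theorem con_dn [Finite V] {A B : (zG G ℓ).ConnectedComponent} (w : (conG G ℓ).Walk A B) :
    ∀ x y, (zG G ℓ).connectedComponentMk x = A → (zG G ℓ).connectedComponentMk y = B →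
      ∃ p : G.Walk x y, wl ℓ p = wl (conL G ℓ) w ∧
        ∀ v ∈ p.support, (zG G ℓ).connectedComponentMk v ∈ w.support := by
  induction w with
  | nil =>
    intro x y hx hy
    obtain ⟨p, h1, h2⟩ := zwalk (hx.trans hy.symm)
    exact ⟨p, by simp [h1], fun v hv => by simp [h2 v hv, hy]⟩
  | cons a w ih =>
    intro x y hx hy
    obtain ⟨u, v, huv, hu, hv, e1⟩ := conL_eq a
    obtain ⟨p, h1, h2⟩ := zwalk (hx.trans hu.symm)
    obtain ⟨q, h3, h4⟩ := ih v y hv hy
    refine ⟨p.append (Walk.cons huv q), by simp [h1, h3, e1], fun z hz => ?_⟩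
    rw [Walk.mem_support_append_iff, Walk.support_cons, List.mem_cons] at hz
    rw [Walk.support_cons, List.mem_cons]
    rcases hz with hz | rfl | hz
    · exact Or.inl ((h2 z hz).trans hu)
    · exact Or.inl hu
    · exact Or.inr (h4 z hz)

theorem con_sim [Finite V] (h0 : ∀ e ∈ G.edgeSet, 0 ≤ ℓ e) :
    Sim G ℓ (conG G ℓ) (conL G ℓ) (zG G ℓ).connectedComponentMk := by
  refine ⟨fun x y a => ?_, fun x y w => ?_⟩
  · by_cases h : (zG G ℓ).connectedComponentMk x = (zG G ℓ).connectedComponentMk y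
    · exact ⟨Walk.nil.copy rfl h, by simpa using h0 _ a⟩
    · exact ⟨Walk.cons ⟨h, x, y, a, rfl, rfl⟩ Walk.nil, by simpa using conL_le a⟩
  · obtain ⟨p, hp, -⟩ := con_dn w x y rfl rfl
    exact ⟨p, hp.le⟩

theorem con_mf [Finite V] (h : MF G) : MF (conG G ℓ) := by
  refine transfer h fun I R X _ hX => ⟨fun i => (zG G ℓ).connectedComponentMk ⁻¹' X i,
    fun i => ⟨?_, fun x hx y hy => ?_⟩, fun i j hij => (hX.dj i j hij).preimage _,
    fun i j hij => ?_⟩
  · obtain ⟨A, hA⟩ := (hX.cn i).1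
    induction A using ConnectedComponent.ind with
    | _ x => exact ⟨x, hA⟩
  · obtain ⟨w, hw⟩ := (hX.cn i).2 _ hx _ hy
    obtain ⟨p, -, hp⟩ := con_dn w x y rfl rfl
    exact ⟨p, fun v hv => hw _ (hp v hv)⟩
  · obtain ⟨A, hA, B, hB, -, x, y, a, rfl, rfl⟩ := hX.tch i j hij
    exact ⟨x, hA, y, hB, a⟩

theorem con_wg [Finite V] (hc : G.Connected) (h0 : ∀ e ∈ G.edgeSet, 0 ≤ ℓ e) :
    ∃ δ, WG (conG G ℓ) (conL G ℓ) δ := by
  obtain ⟨δ, hδ⟩ := (Set.finite_range (conL G ℓ)).bddAbove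
  refine ⟨δ, ?_, fun e he => ?_, fun e _ => hδ ⟨e, rfl⟩⟩
  · obtain ⟨r⟩ := hc.nonempty
    refine (connected_iff_exists_forall_reachable _).2 ⟨(zG G ℓ).connectedComponentMk r,
      fun A => ?_⟩
    induction A using ConnectedComponent.ind with
    | _ x =>
      obtain ⟨p⟩ := hc.preconnected r x
      exact ⟨((con_sim h0).walk p).choose⟩
  · induction e using Sym2.ind with
    | _ A B =>
      obtain ⟨x, y, a, hx, hy, e1⟩ := conL_eq he
      rw [← e1]
      refine lt_of_le_of_ne (h0 _ a) fun hz => he.1 ?_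
      rw [← hx, ← hy]
      exact ConnectedComponent.sound (Adj.reachable ⟨a, hz.symm⟩)

end con

/-- a weighted graph is simulated by one with short positive edges -/
theorem exists_sim {V : Type} [Finite V] {G : SimpleGraph V} {ℓ : Sym2 V → ℝ} (hc : G.Connected)
    (hM : MF G) (h0 : ∀ e ∈ G.edgeSet, 0 ≤ ℓ e) {η : ℝ} (hη : 0 < η) :
    ∃ (W : Type) (_ : Finite W) (H : SimpleGraph W) (m : Sym2 W → ℝ) (φ : V → W),
      WG H m η ∧ MF H ∧ Sim G ℓ H m φ := by
  obtain ⟨δ, hδ⟩ := con_wg hc h0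
  obtain ⟨n, hn⟩ := pow_unbounded_of_one_lt (δ / η) (one_lt_two (α := ℝ))
  obtain ⟨W, _, H, m, φ, h1, h2, h3⟩ := exists_fine n _ _ _ δ hδ (con_mf hM)
  refine ⟨W, inferInstance, H, m, _, h1.mono ?_, h2, (con_sim h0).trans h3⟩
  rw [div_lt_iff₀ hη] at hn
  rw [div_le_iff₀ (by positivity)]
  linarith

end Crest.Agent.N206.PL.Eff0
end
end

-- ▼ part N206/PL/Eff0
section

/-!
# Row 206, S0317: the efficient cut semimetric for nonnegative lengths (helper61)
-/

set_option autoImplicit false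

noncomputable section

open scoped Classical

namespace Crest.Agent.N206.PL

open Crest.GeometryTopology.GraphMetric SimpleGraph

namespace Eff0

/-- load of a walk -/
def load {V : Type} {G : SimpleGraph V} (ρ : V → V → ℝ) {x y : V} (p : G.Walk x y) : ℝ :=
  (p.darts.map fun d => ρ d.fst d.snd).sum

variable {V W : Type} {G : SimpleGraph V} {ℓ : Sym2 V → ℝ} {H : SimpleGraph W} {m : Sym2 W → ℝ}
  {φ : V → W}

theorem load_nil (ρ : V → V → ℝ) (x : V) : load ρ (Walk.nil : G.Walk x x) = 0 := by simp [load]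

theorem load_cons (ρ : V → V → ℝ) {x y z : V} (a : G.Adj x y) (p : G.Walk y z) :
    load ρ (Walk.cons a p) = ρ x y + load ρ p := by simp [load]

theorem load_append (ρ : V → V → ℝ) {x y z : V} (p : G.Walk x y) (q : G.Walk y z) :
    load ρ (p.append q) = load ρ p + load ρ q := by simp [load, Walk.darts_append]

theorem le_load [Fintype V] {ρ : V → V → ℝ} (h : IsCut ρ) {x y : V} (p : G.Walk x y) :
    ρ x y ≤ load ρ p := by
  induction p with
  | nil => rw [load_nil, h.self]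
  | @cons a b c _ p ih => rw [load_cons]; linarith [h.tri a b c]

theorem load_eq (ρ : V → V → ℝ) {x y : V} (p : G.Walk x y) :
    load ρ p = ∑ i ∈ Finset.range p.length, ρ (p.getVert i) (p.getVert (i + 1)) := by
  induction p with
  | nil => simp [load_nil]
  | cons a p ih =>
    rw [load_cons, Walk.length_cons, Finset.sum_range_succ', ih, add_comm]
    simp only [Walk.getVert_cons_succ, Walk.getVert_zero]

theorem load_zero (h0 : ∀ e ∈ G.edgeSet, 0 ≤ ℓ e) {ρ : V → V → ℝ}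
    (hρ : ∀ x y, G.Adj x y → ℓ s(x, y) = 0 → ρ x y = 0) {x y : V} (p : G.Walk x y)
    (hp : wl ℓ p ≤ 0) : load ρ p = 0 := by
  induction p with
  | nil => exact load_nil _ _
  | @cons u v _ a p ih =>
    rw [wl_cons] at hp
    have h1 := h0 s(u, v) a
    have h2 := wl_nonneg' h0 p
    rw [load_cons, ih (by linarith), hρ _ _ a (by linarith), add_zero]

theorem Sim.load [Fintype W] (h : Sim G ℓ H m φ) {x y : V} (p : G.Walk x y) :
    ∃ w : H.Walk (φ x) (φ y), wl m w ≤ wl ℓ p ∧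
      ∀ ρ : W → W → ℝ, IsCut ρ → load (fun u v => ρ (φ u) (φ v)) p ≤ load ρ w := by
  induction p with
  | nil => exact ⟨Walk.nil, by simp, fun ρ _ => by simp [load_nil]⟩
  | cons a p ih =>
    obtain ⟨w, hw, hl⟩ := ih
    obtain ⟨w', hw'⟩ := h.up _ _ a
    refine ⟨w'.append w, by rw [wl_append, wl_cons]; linarith, fun ρ hρ => ?_⟩
    rw [load_cons, load_append]
    exact add_le_add (le_load hρ w') (hl ρ hρ)

/-- a shortest walk becomes a line of the simulating graph -/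
theorem Sim.geo [Fintype W] {δ : ℝ} (h : Sim G ℓ H m φ) (hH : WG H m δ) {x y : V}
    (p : G.Walk x y) (hp : ∀ p' : G.Walk x y, wl ℓ p ≤ wl ℓ p') :
    ∃ Q : Geo H m, Q.v 0 = φ x ∧ Q.v Q.n = φ y ∧ wl ℓ p ≤ Q.pos Q.n - Q.pos 0 ∧
      ∀ ρ : W → W → ℝ, IsCut ρ → Eff0.load (fun u v => ρ (φ u) (φ v)) p ≤
        ∑ i ∈ Finset.range Q.n, ρ (Q.v i) (Q.v (i + 1)) := by
  obtain ⟨w, hw, hl⟩ := h.load p
  have hlow : ∀ w' : H.Walk (φ x) (φ y), wl ℓ p ≤ wl m w' := fun w' => by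
    obtain ⟨p', hp'⟩ := h.dn x y w'
    exact (hp p').trans hp'
  obtain ⟨Q, hn, hv, h0, h1⟩ := hH.geo_of_walk w
    (le_antisymm (hH.le_d fun w' => hw.trans (hlow w')) (hH.le_wl w))
  refine ⟨Q, by simp [hv], by simp [hv, hn], by rw [h0, h1, sub_zero]; exact hlow w,
    fun ρ hρ => (hl ρ hρ).trans (le_of_eq ?_)⟩
  rw [load_eq, hn]
  simp only [hv]

end Eff0

open Eff0 in
theorem eff0 (hE : EffStmt) : Eff0Stmt := by
  obtain ⟨K, ε, hε, hE⟩ := hE
  refine ⟨K, fun V _ G ℓ hc hM h0 ι _ a b p f hf hp hpos => ?_⟩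
  obtain ⟨q₀, -, hq₀⟩ := Finset.exists_lt_of_sum_lt (s := Finset.univ) (f := fun _ => (0 : ℝ))
    (g := fun q => f q * wl ℓ (p q)) (by simpa using hpos)
  have hf₀ : 0 < f q₀ := lt_of_le_of_ne (hf q₀) fun e => by simp [← e] at hq₀
  have hw₀ : 0 < wl ℓ (p q₀) := pos_of_mul_pos_left (by rwa [mul_comm] at hq₀) hf₀.le
  obtain ⟨σ, hσ, hσ'⟩ : ∃ σ : ι → ι, (∀ q, 0 < wl ℓ (p (σ q))) ∧
      ∀ q, 0 < wl ℓ (p q) → σ q = q :=
    ⟨fun q => if 0 < wl ℓ (p q) then q else q₀, fun q => by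
      by_cases h : 0 < wl ℓ (p q)
      · have e : (if 0 < wl ℓ (p q) then q else q₀) = q := if_pos h
        show 0 < wl ℓ (p (if 0 < wl ℓ (p q) then q else q₀))
        rw [e]; exact h
      · have e : (if 0 < wl ℓ (p q) then q else q₀) = q₀ := if_neg h
        show 0 < wl ℓ (p (if 0 < wl ℓ (p q) then q else q₀))
        rw [e]; exact hw₀, fun q h => if_pos h⟩
  haveI : Nonempty ι := ⟨q₀⟩
  obtain ⟨q₁, hq₁⟩ := Finite.exists_min fun q => wl ℓ (p (σ q))
  obtain ⟨W, _, H, m, φ, hH, hMH, hS⟩ := exists_sim hc hM h0 (mul_pos hε (hσ q₁))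
  haveI := Fintype.ofFinite W
  choose Q hQ0 hQn hQl hQρ using fun q => hS.geo hH (p q) (hp q)
  obtain ⟨ρ, hρ, h1, h2⟩ := hE W H m _ _ hH hMH (hσ q₁) le_rfl ι (fun q => Q (σ q))
    (fun q => if 0 < wl ℓ (p q) then f q else 0) (fun q => by split_ifs; exacts [hf q, le_rfl])
    (Finset.sum_pos' (fun q _ => by split_ifs; exacts [hf q, le_rfl])
      ⟨q₀, Finset.mem_univ _, by rwa [if_pos hw₀]⟩)
    (fun q => (hq₁ q).trans (hQl _))
  have hz : ∀ x y, G.Adj x y → ℓ s(x, y) = 0 → ρ (φ x) (φ y) = 0 := fun x y hxy e => by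
    obtain ⟨w, hw⟩ := hS.up x y hxy
    rw [hH.eq_of_d ((hH.le_wl w).trans (hw.trans e.le)), hρ.self]
  have hbad : ∀ q, ¬ 0 < wl ℓ (p q) → load (fun u v => ρ (φ u) (φ v)) (p q) = 0 := fun q hq =>
    load_zero h0 hz (p q) (not_lt.1 hq)
  have e1 : ∑ q, (if 0 < wl ℓ (p q) then f q else 0) *
      ρ ((Q (σ q)).v 0) ((Q (σ q)).v (Q (σ q)).n) = ∑ q, f q * ρ (φ (a q)) (φ (b q)) := by
    refine Finset.sum_congr rfl fun q _ => ?_
    split_ifs with h
    · rw [hσ' q h, hQ0, hQn]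
    · have h3 := le_load (hρ.comap φ) (p q)
      rw [hbad q h] at h3
      rw [le_antisymm h3 (hρ.nonneg _ _), zero_mul, mul_zero]
  rw [e1] at h1 h2
  refine ⟨fun x y => ρ (φ x) (φ y), hρ.comap φ, hz, h1, le_trans ?_ h2⟩
  refine Finset.sum_le_sum fun q _ => ?_
  split_ifs with h
  · rw [hσ' q h]
    exact mul_le_mul_of_nonneg_left (hQρ q ρ hρ) (hf q)
  · exact le_of_eq (by rw [zero_mul]; exact mul_eq_zero_of_right _ (hbad q h))

end Crest.Agent.N206.PL
end
end

-- ▼ part N206/PL/Eff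
section

/-!
# Row 206, S0317: summation over the levels (`EffStmt`, helper61)
-/

set_option autoImplicit false

noncomputable section

open scoped Classical

namespace Crest.Agent.N206.PL

open Finset Crest.GeometryTopology.GraphMetric Crest.Agent.R206.Iface534

namespace Eff

variable {V : Type} {G : SimpleGraph V} {ℓ : Sym2 V → ℝ}

theorem cut_nonneg [Fintype V] {ρ : V → V → ℝ} (h : IsCut ρ) (x y : V) : 0 ≤ ρ x y := by
  obtain ⟨w, hw, h⟩ := h
  rw [h, cutw]
  exact sum_nonneg fun S _ => mul_nonneg (hw S) (by split_ifs <;> norm_num)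

theorem cut_sum [Fintype V] {κ : Type} (s : Finset κ) (a : κ → ℝ) (ρ : κ → V → V → ℝ)
    (ha : ∀ k, 0 ≤ a k) (h : ∀ k, IsCut (ρ k)) : IsCut fun x y => ∑ k ∈ s, a k * ρ k x y := by
  choose w hw h using h
  refine ⟨fun S => ∑ k ∈ s, a k * w k S, fun S => sum_nonneg fun k _ => mul_nonneg (ha k) (hw k S),
    fun x y => ?_⟩
  simp only [h, cutw, mul_sum, sum_mul, mul_assoc]
  exact sum_comm

theorem count {a t C : ℝ} (ha : 0 < a) (hC : 0 ≤ C) (N : ℕ) :
    ∑ k ∈ range N, (if a * 2 ^ k ≤ t ∧ t ≤ C * (a * 2 ^ k) then (1 : ℝ) else 0) ≤ 2 * C := by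
  rcases le_or_gt t 0 with ht | ht
  · rw [sum_eq_zero fun k _ => if_neg fun h => by
      have : 0 < a * 2 ^ k := by positivity
      linarith [h.1]]
    positivity
  have h : ∀ N, ∑ k ∈ range N, (if a * 2 ^ k ≤ t then a * 2 ^ k else 0) ≤ min (2 * t) (a * 2 ^ N) := by
    intro N
    induction N with
    | zero => simp only [range_zero, sum_empty]; positivity
    | succ N ih =>
      rw [sum_range_succ, pow_succ]
      have h1 : 0 < a * 2 ^ N := by positivity
      rw [le_min_iff] at ih ⊢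
      split_ifs <;> constructor <;> linarith [ih.1, ih.2]
  refine le_of_mul_le_mul_left ?_ ht
  refine le_trans ?_ ((mul_le_mul_of_nonneg_left ((h N).trans (min_le_left _ _)) hC).trans_eq
    (by ring))
  rw [mul_sum, mul_sum]
  refine sum_le_sum fun k _ => ?_
  by_cases h1 : a * 2 ^ k ≤ t ∧ t ≤ C * (a * 2 ^ k)
  · rw [if_pos h1, if_pos h1.1, mul_one]; exact h1.2
  · rw [if_neg h1, mul_zero]; split_ifs <;> positivity

theorem geom (m I : ℕ) : ∑ i ∈ range I, (2 : ℝ) ^ i * (1 / 4) ^ (i - m) ≤ 3 * 2 ^ m := by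
  have h : ∑ i ∈ range I, (2 : ℝ) ^ i * (1 / 4) ^ (i - m) ≤
      2 ^ (min I (m + 1)) + 2 ^ m * (1 - (1 / 2) ^ (I - (m + 1))) := by
    induction I with
    | zero => simp
    | succ I ih =>
      rw [sum_range_succ]
      rcases le_or_gt I m with h | h
      · rw [min_eq_left (by omega), show I - (m + 1) = 0 by omega] at ih
        rw [min_eq_left (by omega), show I + 1 - (m + 1) = 0 by omega, show I - m = 0 by omega,
          pow_succ]
        linarith
      · obtain ⟨j, rfl⟩ : ∃ j, I = m + 1 + j := ⟨I - (m + 1), by omega⟩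
        rw [min_eq_right (by omega), show m + 1 + j - (m + 1) = j by omega] at ih
        rw [min_eq_right (by omega), show m + 1 + j + 1 - (m + 1) = j + 1 by omega,
          show m + 1 + j - m = j + 1 by omega]
        have e : (2 : ℝ) ^ (m + 1 + j) * (1 / 4) ^ (j + 1) = 2 ^ m * (1 / 2) ^ (j + 1) := by
          rw [add_assoc, add_comm 1 j, pow_add, mul_assoc, ← mul_pow]; norm_num
        rw [e, pow_succ (1 / 2 : ℝ)]
        linarith
  have h1 : (2 : ℝ) ^ (min I (m + 1)) ≤ 2 ^ (m + 1) :=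
    pow_le_pow_right₀ one_le_two (min_le_right _ _)
  have h2 : (0 : ℝ) ≤ 2 ^ m * (1 / 2) ^ (I - (m + 1)) := by positivity
  rw [pow_succ] at h1
  linarith

/-- the next element of `P` -/
def nx (P : Finset ℕ) (p : ℕ) : ℕ := sInf {r | r ∈ P ∧ p < r}

theorem cons_nx {P : Finset ℕ} {p n : ℕ} (hp : p ∈ P) (hn : n ∈ P) (h : p < n) :
    Cons P p (nx P p) :=
  have h1 := Nat.sInf_mem (s := {r | r ∈ P ∧ p < r}) ⟨n, hn, h⟩
  ⟨hp, h1.1, h1.2, fun _ hr h' => Nat.sInf_le ⟨hr, h'⟩⟩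

theorem sum_le_pieces {P : Finset ℕ} {n : ℕ} (h0 : 0 ∈ P) (hn : n ∈ P) (g : ℕ → ℝ)
    (hg : ∀ i < n, 0 ≤ g i) :
    ∑ i ∈ range n, g i ≤ ∑ p ∈ P.filter (· < n), ∑ i ∈ Ico p (nx P p), g i := by
  have h1 : ∀ p ∈ P.filter (· < n), ∑ i ∈ Ico p (nx P p), g i =
      ∑ i ∈ range n, if i ∈ Ico p (nx P p) then g i else 0 := fun p hp => by
    rw [← sum_filter]
    congr 1
    ext i
    have := (cons_nx (mem_filter.1 hp).1 hn (mem_filter.1 hp).2).2.2.2 n hn (mem_filter.1 hp).2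
    simp only [mem_filter, mem_range, mem_Ico]
    omega
  rw [sum_congr rfl h1, sum_comm]
  refine sum_le_sum fun i hi => ?_
  have hi' := mem_range.1 hi
  have h2 : Nat.findGreatest (· ∈ P) i ∈ P := Nat.findGreatest_spec (P := (· ∈ P)) (Nat.zero_le i) h0
  have h3 := Nat.findGreatest_le (P := (· ∈ P)) i
  have h4 := cons_nx h2 hn (by omega)
  refine le_trans ?_ (single_le_sum (f := fun p => if i ∈ Ico p (nx P p) then g i else 0)
    (fun p _ => by split_ifs; exacts [hg i hi', le_rfl]) (mem_filter.2 ⟨h2, by omega⟩))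
  rw [if_pos (mem_Ico.2 ⟨h3, not_le.1 fun h => Nat.findGreatest_is_greatest h4.2.2.1 h h4.2.1⟩)]

theorem pos_mono {δ : ℝ} (hG : WG G ℓ δ) (Q : Geo G ℓ) {i j : ℕ} (h : i ≤ j) (hj : j ≤ Q.n) :
    Q.pos i ≤ Q.pos j := by
  linarith [Q.dist i j h hj, wdist_nonneg hG.conn hG.pos (Q.v i) (Q.v j)]

theorem el_eq (Q : Geo G ℓ) {i : ℕ} (h : i < Q.n) : Q.el i = ℓ s(Q.v i, Q.v (i + 1)) := by
  rw [Geo.el, Q.step i h]; ring

theorem el_nonneg {δ : ℝ} (hG : WG G ℓ δ) (Q : Geo G ℓ) {i : ℕ} (h : i < Q.n) : 0 ≤ Q.el i :=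
  sub_nonneg.2 (pos_mono hG Q (Nat.le_succ i) h)

theorem short_le {δ : ℝ} (hG : WG G ℓ δ) (Q : Geo G ℓ) {p p' : ℕ} (h : p ≤ p') (hp : p' ≤ Q.n)
    {r : ℝ} (hr : 0 ≤ r) (hδ : 0 ≤ δ) (A : ℕ → Prop)
    (hA : ∀ i, p ≤ i → i < p' → A i → Q.pos i - Q.pos p ≤ r ∨ Q.pos p' - Q.pos i ≤ r) :
    ∑ i ∈ Ico p p', (if A i then Q.el i else 0) ≤ 2 * r + δ := by
  let φ : ℕ → ℝ := fun i => min (Q.pos i) (Q.pos p + r + δ) + max (Q.pos i) (Q.pos p' - r)
  refine (sum_le_sum (g := fun i => φ (i + 1) - φ i) fun i hi => ?_).trans ?_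
  · obtain ⟨h1, h2⟩ := mem_Ico.1 hi
    have h3 := pos_mono hG Q (Nat.le_succ i) (by omega)
    have h4 : Q.pos (i + 1) - Q.pos i ≤ δ := by
      have := el_eq Q (i := i) (by omega)
      rw [Geo.el] at this
      exact this.trans_le (hG.small _ (Q.adj i (by omega)))
    have h5 := min_le_min_right (Q.pos p + r + δ) h3
    have h6 := max_le_max_right (Q.pos p' - r) h3
    simp only [φ, Geo.el, Nat.succ_eq_add_one] at *
    split_ifs with hi
    · rcases hA i h1 h2 hi with h7 | h7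
      · rw [min_eq_left (by linarith), min_eq_left (by linarith)]; linarith
      · rw [max_eq_left (by linarith), max_eq_left (by linarith)]; linarith
    · linarith
  · rw [sum_Ico_sub _ h]
    have h3 := pos_mono hG Q h hp
    simp only [φ]
    rw [min_eq_left (a := Q.pos p) (by linarith), max_eq_left (a := Q.pos p') (by linarith)]
    linarith [min_le_right (Q.pos p') (Q.pos p + r + δ), le_max_right (Q.pos p) (Q.pos p' - r)]

/-- the scale functions -/
theorem exists_scales [Fintype V] {δ B : ℝ} (hG : WG G ℓ δ) (hB : 4 ≤ B)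
    (R : (V → ℝ) → Set V → Prop)
    (h : ∀ t : V → ℝ, (∀ x, 0 ≤ t x) → (∀ x y, B * |t x - t y| ≤ wdist G ℓ x y) → ∃ S, R t S)
    {s0 : ℝ} (hs : 0 < s0) :
    ∃ (t : ℕ → V → ℝ) (Sg : ℕ → Set V) (I : ℕ), (∀ i, R (t i) (Sg i)) ∧
      (∀ x y, wdist G ℓ x y ≤ t 0 x) ∧ (∀ x, t I x < s0) ∧
      (∀ i x y, 4 * |t i x - t i y| ≤ wdist G ℓ x y) ∧ (∀ i x, 4 * t (i + 1) x ≤ t i x) ∧
      (∀ i, ∀ x ∈ Sg i, t (i + 1) x ≤ 0) ∧
      ∀ i x r, t (i + 1) x < r → t i x < B * r ∨ ∃ y ∈ Sg i, wdist G ℓ x y < B * r := by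
  have hd := wdist_nonneg hG.conn hG.pos
  have hB0 : 0 < B := by linarith
  choose! sg hsg using h
  let st : (V → ℝ) → V → ℝ := fun t x =>
    (univ.filter (· ∈ sg t)).fold min (t x) (wdist G ℓ x) / B
  obtain ⟨T0, hT0⟩ := (Set.finite_range fun z : V × V => wdist G ℓ z.1 z.2).bddAbove
  let t : ℕ → V → ℝ := fun i => st^[i] fun _ => max T0 0
  have ht : ∀ i x, B * t (i + 1) x = (univ.filter (· ∈ sg (t i))).fold min (t i x) (wdist G ℓ x) :=
    fun i x => by simp only [t, Function.iterate_succ_apply', st]; field_simp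
  have h1 : ∀ i, (∀ x, 0 ≤ t i x) ∧ ∀ x y, B * |t i x - t i y| ≤ wdist G ℓ x y := by
    intro i
    induction i with
    | zero => exact ⟨fun _ => le_max_right _ _, fun x y => by simpa [t] using hd x y⟩
    | succ i ih =>
      refine ⟨fun x => le_of_mul_le_mul_left ?_ hB0, ?_⟩
      · rw [ht, mul_zero, le_fold_min]; exact ⟨ih.1 x, fun y _ => hd x y⟩
      have key : ∀ x y, B * t (i + 1) x - wdist G ℓ x y ≤ B * t (i + 1) y := fun x y => by
        rw [ht i y, le_fold_min, ht i x]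
        refine ⟨sub_le_iff_le_add.2 ((fold_min_le _).2 (.inl ?_)), fun z hz =>
          sub_le_iff_le_add.2 ((fold_min_le _).2 (.inr ⟨z, hz, ?_⟩))⟩
        · nlinarith [ih.2 x y, le_abs_self (t i x - t i y), abs_nonneg (t i x - t i y)]
        · linarith [wdist_triangle hG.conn hG.pos x y z]
      intro x y
      rw [← abs_of_pos hB0, ← abs_mul, abs_le, mul_sub]
      constructor <;> linarith [key x y, key y x, wdist_comm hG.conn hG.pos x y]
  have h2 : ∀ i x, 4 * t (i + 1) x ≤ t i x := fun i x => by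
    have : B * t (i + 1) x ≤ t i x := by rw [ht]; exact (fold_min_le _).2 (.inl le_rfl)
    nlinarith [(h1 (i + 1)).1 x]
  have h3 : ∀ i x, t i x ≤ max T0 0 * (1 / 4) ^ i := fun i x => by
    induction i with
    | zero => simp [t]
    | succ i ih => rw [pow_succ]; linarith [h2 i x]
  obtain ⟨I, hI⟩ := exists_pow_lt_of_lt_one (div_pos hs (show 0 < max T0 0 + 1 by positivity))
    (show (1 / 4 : ℝ) < 1 by norm_num)
  refine ⟨t, fun i => sg (t i), I, fun i => hsg _ (h1 i).1 (h1 i).2,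
    fun x y => le_max_of_le_left (hT0 ⟨(x, y), rfl⟩), fun x => (h3 I x).trans_lt ?_,
    fun i x y => by nlinarith [(h1 i).2 x y, abs_nonneg (t i x - t i y)], h2,
    fun i x hx => le_of_mul_le_mul_left ?_ hB0, fun i x r hr => ?_⟩
  · rw [lt_div_iff₀ (by positivity)] at hI
    have : (0 : ℝ) < (1 / 4) ^ I := by positivity
    nlinarith
  · rw [ht, mul_zero]
    exact (fold_min_le _).2 (.inr ⟨x, mem_filter.2 ⟨mem_univ _, hx⟩, (wdist_self hG.conn hG.pos x).le⟩)
  · have := mul_lt_mul_of_pos_left hr hB0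
    rw [ht, fold_min_lt] at this
    exact this.imp id fun ⟨y, hy, h⟩ => ⟨y, (mem_filter.1 hy).2, h⟩

theorem vol_nonneg {δ : ℝ} (hG : WG G ℓ δ) {ι : Type} [Fintype ι] (Q : ι → Geo G ℓ) {f : ι → ℝ}
    (hf : ∀ q, 0 ≤ f q) (A : ι → ℕ → Prop) : 0 ≤ vol Q f A :=
  sum_nonneg fun q _ => mul_nonneg (hf q) (sum_nonneg fun i hi => by
    split_ifs; exacts [el_nonneg hG _ (mem_range.1 hi), le_rfl])

theorem vol_le_add {δ : ℝ} (hG : WG G ℓ δ) {ι : Type} [Fintype ι] (Q : ι → Geo G ℓ) {f : ι → ℝ}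
    (hf : ∀ q, 0 ≤ f q) {A A₁ A₂ : ι → ℕ → Prop} (h : ∀ q i, A q i → A₁ q i ∨ A₂ q i) :
    vol Q f A ≤ vol Q f A₁ + vol Q f A₂ := by
  simp only [vol, ← sum_add_distrib, ← mul_add]
  refine sum_le_sum fun q _ => mul_le_mul_of_nonneg_left (sum_le_sum fun i hi => ?_) (hf q)
  have := el_nonneg hG _ (mem_range.1 hi)
  have := h q i
  split_ifs <;> first | linarith | tauto

end Eff

open Eff in
theorem eff (level : LevelStmt) (split : SplitStmt) (neck : NeckIneqStmt) : EffStmt := by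
  obtain ⟨B, X, K, c, ε, hB, hX, hK, hc, hε, level⟩ := level
  obtain ⟨η, hη, hη1, hη2⟩ : ∃ η : ℝ, 0 < η ∧ η ≤ 1 / 4 ∧ 52224 * K * η ≤ c / 2 :=
    ⟨min (1 / 4) (c / 2 / (52224 * K)), by positivity, min_le_left _ _, by
      rw [← le_div_iff₀' (by positivity)]; exact min_le_right _ _⟩
  refine ⟨16 * K * (2 + 96 * (8 * X / η + 2)) * (2 / c), min ε 1, by positivity, ?_⟩
  intro V _ G ℓ δ s0 hG hMF hs hδ ι _ Q f hf hf0 hlen
  have hδ1 : δ ≤ s0 := hδ.trans (mul_le_of_le_one_left hs.le (min_le_right _ _))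
  obtain ⟨t, Sg, I, hR, t0, tI, tlip, tdec, tS, tnext⟩ := exists_scales hG hB _
    (fun t h1 h2 => level V G ℓ δ hG hMF s0 hs
      (hδ.trans (mul_le_mul_of_nonneg_right (min_le_left _ _) hs.le)) t h1 h2 ι Q f hf) hs
  have hvol := fun i => (hR i).1
  have hserve := fun i => (hR i).2
  clear hR level
  have S : ∀ q, Splits (Q q) η s0 := fun q => (split V G ℓ δ hG (Q q) η s0 hη hs).some
  let PP : ι → Finset ℕ := fun q => (S q).P.filter (· < (Q q).n)
  let nn : ι → ℕ → ℕ := fun q p => nx (S q).P p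
  let L : ι → ℕ → ℝ := fun q p => (Q q).pos (nn q p) - (Q q).pos p
  let m : ι → ℕ → ℕ := fun q p => Nat.findGreatest (fun i => L q p ≤ t i ((Q q).v p)) I
  let W : ι → ℕ → ℕ → ℝ := fun q p i => 8 * L q p * (1 / 4) ^ (i - m q p)
  have hcons : ∀ q, ∀ p ∈ PP q, Cons (S q).P p (nn q p) := fun q p hp =>
    cons_nx (mem_filter.1 hp).1 (S q).n_mem (mem_filter.1 hp).2
  have hnn : ∀ q, ∀ p ∈ PP q, nn q p ≤ (Q q).n := fun q p hp => (S q).le_n _ (hcons q p hp).2.1
  have hLd : ∀ q, ∀ p ∈ PP q, wdist G ℓ ((Q q).v p) ((Q q).v (nn q p)) = L q p := fun q p hp =>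
    (Q q).dist _ _ (hcons q p hp).2.2.1.le (hnn q p hp)
  have hL0 : ∀ q, ∀ p ∈ PP q, 0 ≤ L q p := fun q p hp =>
    hLd q p hp ▸ wdist_nonneg hG.conn hG.pos _ _
  have hD : ∀ q, ∀ p ∈ PP q, (S q).D p ≤ η * L q p ∧ (S q).D (nn q p) ≤ η * L q p := by
    intro q p hp
    obtain ⟨h1, h2, h3, -⟩ := hcons q p hp
    have h4 := (S q).far _ h1 _ h2 h3.ne
    have h5 := (S q).far _ h2 _ h1 h3.ne'
    rw [abs_sub_comm] at h4
    rw [abs_of_nonneg (hL0 q p hp)] at h4 h5
    exact ⟨h4, h5⟩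
  have hLs : ∀ q, ∀ p ∈ PP q, s0 ≤ L q p := by
    intro q p hp
    obtain ⟨h1, h2, h3, -⟩ := hcons q p hp
    have h4 := hL0 q p hp
    by_cases h5 : p = 0
    · by_cases h6 : nn q p = (Q q).n
      · simp only [L, h6]; rw [h5]; exact hlen q
      · nlinarith [(S q).size _ h2 (by omega) h6, (hD q p hp).2]
    · nlinarith [(S q).size _ h1 h5 (mem_filter.1 hp).2.ne, (hD q p hp).1]
  have hm1 : ∀ q, ∀ p ∈ PP q, L q p ≤ t (m q p) ((Q q).v p) := fun q p hp =>
    Nat.findGreatest_spec (P := fun i => L q p ≤ t i ((Q q).v p)) (Nat.zero_le I)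
      (hLd q p hp ▸ t0 _ _)
  have hm2 : ∀ q, ∀ p ∈ PP q, m q p < I := fun q p hp =>
    (Nat.findGreatest_le I).lt_of_ne fun e => by
      have := hm1 q p hp
      rw [show m q p = I from e] at this
      linarith [tI ((Q q).v p), hLs q p hp]
  have hm3 : ∀ q, ∀ p ∈ PP q, t (m q p + 1) ((Q q).v p) < L q p := fun q p hp =>
    not_le.1 (Nat.findGreatest_is_greatest (P := fun i => L q p ≤ t i ((Q q).v p))
      (Nat.lt_succ_self _) (hm2 q p hp))
  have hW0 : ∀ q, ∀ p ∈ PP q, ∀ i, 0 ≤ W q p i := fun q p hp i => by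
    have := hL0 q p hp
    positivity
  have hW1 : ∀ q, ∀ p ∈ PP q, ∀ i ≤ m q p, L q p ≤ W q p i := fun q p hp i hi => by
    simp only [W, Nat.sub_eq_zero_of_le hi, pow_zero]
    linarith [hL0 q p hp]
  have hW2 : ∀ q, ∀ p ∈ PP q, ∀ i, m q p < i → ∀ j, p ≤ j → j ≤ nn q p →
      t i ((Q q).v j) ≤ W q p i := by
    intro q p hp i hi j h1 h2
    induction i, hi using Nat.le_induction with
    | base =>
      have h3 := tlip (m q p + 1) ((Q q).v p) ((Q q).v j)
      rw [(Q q).dist _ _ h1 (h2.trans (hnn q p hp))] at h3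
      have h4 := pos_mono hG (Q q) h2 (hnn q p hp)
      have h5 := hm3 q p hp
      have h6 := neg_abs_le (t (m q p + 1) ((Q q).v p) - t (m q p + 1) ((Q q).v j))
      have h7 := hL0 q p hp
      simp only [W, Nat.succ_eq_add_one, Nat.add_sub_cancel_left, pow_one]
      simp only [L] at *
      linarith
    | succ i hi ih =>
      simp only [W] at ih ⊢
      rw [show i + 1 - m q p = i - m q p + 1 by omega, pow_succ]
      linarith [tdec i ((Q q).v j)]
  set Φ := ∑ q, f q * ∑ p ∈ PP q, 2 ^ m q p * L q p with hΦ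
  let A : ℕ → ℝ := fun i => ∑ q, f q * ∑ p ∈ PP q, W q p i
  have hA : ∑ i ∈ range I, 2 ^ i * A i ≤ 24 * Φ := by
    simp only [A, hΦ, mul_sum]
    rw [sum_comm]
    refine sum_le_sum fun q _ => ?_
    rw [sum_comm]
    refine sum_le_sum fun p hp => ?_
    have := mul_le_mul_of_nonneg_left (geom (m q p) I)
      (show 0 ≤ f q * (8 * L q p) by have := hL0 q p hp; have := hf q; positivity)
    rw [mul_sum] at this
    refine le_trans (le_of_eq (sum_congr rfl fun i _ => ?_)) (this.trans_eq (by ring))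
    simp only [W]; ring
  have htot : ∀ q, ∑ j ∈ range (Q q).n, (Q q).el j ≤ ∑ p ∈ PP q, 2 ^ m q p * L q p := fun q => by
    refine (sum_le_pieces (S q).zero_mem (S q).n_mem _ fun j hj => el_nonneg hG _ hj).trans
      (sum_le_sum fun p hp => ?_)
    rw [show ∑ j ∈ Ico p (nx (S q).P p), (Q q).el j = L q p from
      sum_Ico_sub _ (hcons q p hp).2.2.1.le]
    exact le_mul_of_one_le_left (hL0 q p hp) (one_le_pow₀ one_le_two)
  have hΦ0 : 0 < Φ := by
    refine (mul_pos hf0 hs).trans_le ?_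
    rw [sum_mul]
    refine sum_le_sum fun q _ => mul_le_mul_of_nonneg_left (le_trans ?_ (htot q)) (hf q)
    exact (hlen q).trans_eq (sum_range_sub (Q q).pos _).symm
  -- volumes
  let Vv : ℕ → ℝ := fun i => vol Q f fun q j => s0 / 8 ≤ t i ((Q q).v j)
  have hV0 : Vv 0 ≤ Φ := sum_le_sum fun q _ => mul_le_mul_of_nonneg_left
    (le_trans (sum_le_sum fun j hj => by
      split_ifs; exacts [le_rfl, el_nonneg hG _ (mem_range.1 hj)]) (htot q)) (hf q)
  have hXη : 0 ≤ X / η := by positivity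
  have hV1 : ∀ i, Vv (i + 1) ≤ (8 * X / η + 2) * A i + Vv i / 4 := by
    intro i
    refine (vol_le_add hG Q hf (A₁ := fun q j => s0 / 2 ≤ t i ((Q q).v j) ∧
      Sep G (bl G ℓ ((Q q).v j) (X * t i ((Q q).v j))) ((Q q).v 0) ((Q q).v (Q q).n))
      fun q j h => ?_).trans (add_le_add ?_ ((le_div_iff₀' four_pos).2 (hvol i)))
    · have h1 : s0 / 2 ≤ t i ((Q q).v j) := by linarith [tdec i ((Q q).v j)]
      exact (em _).imp (fun h2 => ⟨h1, h2⟩) fun h2 => ⟨h1, fun h3 => by linarith [tS i _ h3], h2⟩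
    simp only [vol, A, mul_sum _ _ (8 * X / η + 2), mul_left_comm (8 * X / η + 2)]
    refine sum_le_sum fun q _ => mul_le_mul_of_nonneg_left ((sum_le_pieces (S q).zero_mem
      (S q).n_mem _ fun j hj => by split_ifs; exacts [el_nonneg hG _ hj, le_rfl]).trans
      (sum_le_sum fun p hp => ?_)) (hf q)
    obtain ⟨c1, c2, c3, c4⟩ := hcons q p hp
    have h0 := hW0 q p hp i
    have h00 : 8 * X / η = 8 * (X / η) := by ring
    rcases le_or_gt i (m q p) with hi | hi
    · refine (sum_le_sum (g := (Q q).el) fun j hj => ?_).trans ?_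
      · split_ifs
        exacts [le_rfl, el_nonneg hG _ ((mem_Ico.1 hj).2.trans_le (hnn q p hp))]
      · rw [show ∑ j ∈ Ico p (nx (S q).P p), (Q q).el j = L q p from sum_Ico_sub _ c3.le]
        nlinarith [hW1 q p hp i hi, mul_nonneg hXη h0]
    by_cases hW : s0 ≤ 2 * W q p i
    · have hδ0 : 0 ≤ δ := by
        have : s((Q q).v p, (Q q).v (p + 1)) ∈ G.edgeSet := (Q q).adj p (mem_filter.1 hp).2
        exact (hG.pos _ this).le.trans (hG.small _ this)
      refine (short_le hG (Q q) c3.le (hnn q p hp) (r := 4 * (X / η) * W q p i) (by positivity)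
        hδ0 _ fun j h1 h2 h3 => ?_).trans (by nlinarith)
      have h4 := hW2 q p hp i hi j h1 h2.le
      have h5 := (S q).free j (h2.le.trans (hnn q p hp)) (2 * X * W q p i) (by nlinarith)
      by_contra h6
      rw [not_or, not_le, not_le] at h6
      refine h5 (fun p' hp' => ?_) fun w => ?_
      · have h7 : 4 * (X / η) * W q p i ≤ |(Q q).pos p' - (Q q).pos j| := by
          rcases le_or_gt p' p with h8 | h8
          · have := pos_mono hG (Q q) h8 (mem_filter.1 hp).2.le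
            linarith [neg_abs_le ((Q q).pos p' - (Q q).pos j), h6.1]
          · have := pos_mono hG (Q q) (c4 p' hp' h8) ((S q).le_n _ hp')
            linarith [le_abs_self ((Q q).pos p' - (Q q).pos j), h6.2]
        refine le_trans (le_of_eq ?_) (mul_le_mul_of_nonneg_left h7 hη.le)
        field_simp; ring
      · obtain ⟨v, hv, hv'⟩ := h3.2 w
        have h8 := mul_le_mul_of_nonneg_left h4 (show 0 ≤ X by linarith)
        have h9 := mul_nonneg (show 0 ≤ X by linarith) h0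
        exact ⟨v, hv, le_trans (b := X * t i ((Q q).v j)) hv' (by linarith)⟩
    · refine (sum_eq_zero fun j hj => if_neg fun h => hW ?_).trans_le (by positivity)
      linarith [hW2 q p hp i hi j (mem_Ico.1 hj).1 (mem_Ico.1 hj).2.le, h.1]
  have hV : ∑ i ∈ range I, 2 ^ i * Vv i ≤ (2 + 96 * (8 * X / η + 2)) * Φ := by
    have h1 := sum_range_succ' (fun i => 2 ^ i * Vv i) I
    rw [sum_range_succ] at h1
    have h2 : ∑ i ∈ range I, 2 ^ (i + 1) * Vv (i + 1) ≤
        2 * (8 * X / η + 2) * ∑ i ∈ range I, 2 ^ i * A i + (∑ i ∈ range I, 2 ^ i * Vv i) / 2 := by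
      rw [mul_sum, sum_div, ← sum_add_distrib]
      exact sum_le_sum fun i _ => (mul_le_mul_of_nonneg_left (hV1 i) (by positivity)).trans_eq
        (by ring)
    have h3 : 0 ≤ 2 ^ I * Vv I := mul_nonneg (by positivity) (vol_nonneg hG Q hf _)
    have h4 := mul_le_mul_of_nonneg_left hA (show 0 ≤ 2 * (8 * X / η + 2) by positivity)
    nlinarith
  -- service
  choose N ρ hρ1 hρ2 hρ3 hρ4 using fun i => hserve i
    (Σ q, {p // p ∈ (PP q).filter fun p => m q p = i}) (fun x => (Q x.1).v x.2)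
    (fun x => (Q x.1).v (nn x.1 x.2)) (fun x => f x.1) (fun x => hf x.1) fun x => by
      obtain ⟨q, p, hp'⟩ := x
      obtain ⟨hp, e⟩ := mem_filter.1 hp'
      simp only [hLd q p hp, ← e]
      exact ⟨hLs q p hp, hm1 q p hp, tnext _ _ _ (hm3 q p hp)⟩
  choose ρ' hρ'1 hρ'2 hρ'3 using fun i k => neck V G ℓ δ hG hMF (ρ i k) (hρ1 i k)
  have hgain : ∀ i, c * ∑ q, f q * ∑ p ∈ PP q, (if m q p = i then L q p else 0) ≤
      ∑ q, f q * ∑ k ∈ range (N i), ρ' i k ((Q q).v 0) ((Q q).v (Q q).n) +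
        4 * K * (544 * η) * A i := by
    intro i
    have h1 := hρ4 i
    rw [Fintype.sum_sigma, Fintype.sum_sigma] at h1
    dsimp only at h1
    refine le_trans (le_of_eq ?_) (h1.trans ?_)
    · refine congrArg _ (sum_congr rfl fun q _ => ?_)
      rw [← mul_sum, ← sum_filter, ← sum_coe_sort]
      exact congrArg _ (sum_congr rfl fun p _ => (hLd q p (mem_filter.1 p.2).1).symm)
    simp only [A, mul_sum _ _ (4 * K * (544 * η)), mul_left_comm (4 * K * (544 * η)),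
      ← sum_add_distrib, ← mul_add]
    refine sum_le_sum fun q _ => ?_
    rw [← mul_sum]
    refine mul_le_mul_of_nonneg_left ?_ (hf q)
    let hot : ℕ → ℕ → Prop := fun k p => ∃ x ∈ bl G ℓ ((Q q).v p) ((S q).D p),
      s0 / 4 * 2 ^ k ≤ t i x ∧ t i x ≤ 2 * s0 * 2 ^ k
    rw [sum_comm]
    refine (sum_le_sum fun k _ => le_trans ?_ (hρ'3 i k (Q q) η s0 hη (by linarith) hs (S q) K
      (2 * η * s0 * 2 ^ k) (hot k) hK.le (by positivity) (hρ2 i k)
      fun p _ _ h x hx y _ hxy => by_contra fun h' => h ⟨x, hx, hρ3 i k x y hxy h'⟩)).trans ?_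
    · rw [sum_coe_sort ((PP q).filter fun p => m q p = i) fun p =>
        if wdist G ℓ ((Q q).v p) ((Q q).v (nn q p)) ≤ 2 * s0 * 2 ^ k then
          ρ i k ((Q q).v p) ((Q q).v (nn q p)) else 0]
      refine le_trans (sum_le_sum fun p hp => ?_) (sum_le_sum_of_subset_of_nonneg
        ((filter_subset (fun p => m q p = i) _).trans (filter_subset (· < (Q q).n) _))
        fun p _ _ => sum_nonneg fun p' _ => by
          split_ifs; exacts [cut_nonneg (hρ1 i k) _ _, le_rfl])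
      replace hp := (mem_filter.1 hp).1
      refine le_trans ?_ (single_le_sum (fun p' _ => by
        split_ifs; exacts [cut_nonneg (hρ1 i k) _ _, le_rfl]) (hcons q p hp).2.1)
      rw [hLd q p hp]
      by_cases h : L q p ≤ 2 * s0 * 2 ^ k
      · have h2 := mul_le_mul_of_nonneg_left h hη.le
        rw [if_pos h, if_pos ⟨hcons q p hp, by linarith [(hD q p hp).1],
          by linarith [(hD q p hp).2]⟩]
      · rw [if_neg h]; split_ifs; exacts [cut_nonneg (hρ1 i k) _ _, le_rfl]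
    rw [sum_add_distrib, ← mul_sum, sum_comm]
    simp only [mul_assoc (4 * K)]
    rw [← mul_sum]
    refine add_le_add le_rfl (mul_le_mul_of_nonneg_left ?_ (by positivity))
    rw [← sum_filter_add_sum_filter_not (S q).P (· < (Q q).n), sum_eq_zero (s := filter
      (fun p => ¬ p < (Q q).n) _) fun p hp => sum_eq_zero fun k _ => by
        rw [le_antisymm ((S q).le_n _ (mem_filter.1 hp).1) (not_lt.1 (mem_filter.1 hp).2),
          (S q).D_n, ite_self], add_zero]
    refine sum_le_sum fun p hp => ?_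
    have h0 := hW0 q p hp i
    refine le_trans (sum_le_sum fun k _ => ?_) ((mul_sum _ _ _).symm.trans_le
      ((mul_le_mul_of_nonneg_left (count (a := s0 / 8) (t := t i ((Q q).v p)) (C := 17)
        (by positivity) (by norm_num) (N i))
        (show 0 ≤ 16 * η * W q p i by positivity)).trans_eq (by ring)))
    by_cases h : (S q).D p ≤ 2 * η * s0 * 2 ^ k ∧ hot k p
    · obtain ⟨h2, x, hx, h3, h4⟩ := h
      have h5 := (tlip i ((Q q).v p) x).trans (hx.trans h2)
      have h6 : 0 < s0 * 2 ^ k := by positivity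
      have h7 := mul_le_mul_of_nonneg_right hη1 h6.le
      have h8 := le_abs_self (t i ((Q q).v p) - t i x)
      have h9 := neg_abs_le (t i ((Q q).v p) - t i x)
      have h10 : s0 / 8 * 2 ^ k ≤ t i ((Q q).v p) := by linarith
      rw [if_pos ⟨h2, x, hx, h3, h4⟩, if_pos ⟨h10, by linarith⟩, mul_one]
      rcases le_or_gt i (m q p) with hi | hi
      · nlinarith [(hD q p hp).1, hW1 q p hp i hi]
      · nlinarith [hW2 q p hp i hi p le_rfl (hcons q p hp).2.2.1.le]
    · rw [if_neg h]; split_ifs <;> positivity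
  have hG1 : c / 2 * Φ ≤ ∑ q, f q * ∑ i ∈ range I, 2 ^ i * ∑ k ∈ range (N i),
      1 * ρ' i k ((Q q).v 0) ((Q q).v (Q q).n) := by
    have h1 := sum_le_sum (s := range I) fun i _ =>
      mul_le_mul_of_nonneg_left (hgain i) (show (0 : ℝ) ≤ 2 ^ i by positivity)
    have h2 : ∑ i ∈ range I, 2 ^ i * (c * ∑ q, f q * ∑ p ∈ PP q,
        (if m q p = i then L q p else 0)) = c * Φ := by
      simp only [mul_left_comm _ c, ← mul_sum, hΦ]
      congr 1
      simp only [mul_sum _ _ ((2 : ℝ) ^ _), mul_left_comm _ (f _)]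
      rw [sum_comm]
      refine sum_congr rfl fun q _ => ?_
      rw [← mul_sum, sum_comm]
      refine congrArg _ (sum_congr rfl fun p hp => ?_)
      simp only [mul_ite, mul_zero]
      rw [sum_ite_eq, if_pos (mem_range.2 (hm2 q p hp))]
    simp only [mul_add, sum_add_distrib, mul_left_comm _ (4 * K * (544 * η))] at h1
    rw [← mul_sum, h2] at h1
    have h3 := mul_le_mul_of_nonneg_left hA (show 0 ≤ 4 * K * (544 * η) by positivity)
    have h4 := mul_le_mul_of_nonneg_right hη2 hΦ0.le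
    refine le_trans (by nlinarith) (le_of_eq (a := ∑ i ∈ range I, 2 ^ i * ∑ q, f q *
      ∑ k ∈ range (N i), ρ' i k ((Q q).v 0) ((Q q).v (Q q).n)) ?_)
    simp only [one_mul, mul_sum _ _ ((2 : ℝ) ^ _), mul_left_comm _ (f _)]
    rw [sum_comm]
    exact sum_congr rfl fun q _ => by rw [← mul_sum]
  refine ⟨fun x y => ∑ i ∈ range I, 2 ^ i * ∑ k ∈ range (N i), 1 * ρ' i k x y,
    cut_sum _ _ _ (fun _ => by positivity) fun i => cut_sum _ _ _ (fun _ => zero_le_one) (hρ'1 i),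
    (mul_pos (half_pos hc) hΦ0).trans_le hG1, ?_⟩
  refine le_trans ?_ (mul_le_mul_of_nonneg_left hG1 (by positivity))
  refine le_trans ?_ ((mul_le_mul_of_nonneg_left hV (show 0 ≤ 16 * K by positivity)).trans_eq
    (by field_simp))
  simp only [Vv, vol, mul_sum _ _ ((2 : ℝ) ^ _), mul_sum _ _ (16 * K), mul_left_comm _ (f _)]
  rw [sum_comm]
  refine sum_le_sum fun q _ => ?_
  rw [← mul_sum, sum_comm]
  refine mul_le_mul_of_nonneg_left (sum_le_sum fun i _ => sum_le_sum fun j hj => ?_) (hf q)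
  have hadj := (Q q).adj j (mem_range.1 hj)
  have h0 := el_nonneg hG (Q q) (mem_range.1 hj)
  rw [← mul_sum, mul_left_comm]
  refine mul_le_mul_of_nonneg_left ?_ (by positivity)
  have h1 : ∀ k, ¬ (s0 / 4 * 2 ^ k ≤ t i ((Q q).v j) ∧ t i ((Q q).v j) ≤ 8 * (s0 / 4 * 2 ^ k)) →
      ρ' i k ((Q q).v j) ((Q q).v (j + 1)) = 0 := fun k h => by
    rw [hρ'2 i k _ _ hadj]
    by_contra h'
    have := hρ3 i k _ _ hadj h'
    exact h ⟨this.1, by linarith [this.2]⟩
  split_ifs with h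
  · refine le_trans (sum_le_sum fun k _ => ?_) ((mul_sum _ _ _).symm.trans_le
      ((mul_le_mul_of_nonneg_left (count (a := s0 / 4) (t := t i ((Q q).v j)) (C := 8)
        (by positivity) (by norm_num) (N i))
        (show 0 ≤ K * (Q q).el j by positivity)).trans_eq (by ring)))
    split_ifs with h2
    · rw [one_mul, mul_one, hρ'2 i k _ _ hadj, el_eq _ (mem_range.1 hj)]
      exact hρ2 i k _ _ hadj
    · rw [h1 k h2]; simp
  · rw [sum_eq_zero fun k _ => by
      rw [h1 k fun h2 => h ?_, mul_zero]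
      have : (1 : ℝ) ≤ 2 ^ k := one_le_pow₀ one_le_two
      nlinarith [h2.1], mul_zero]

end Crest.Agent.N206.PL
end
end

-- ▼ part N206/PL/Sel
section

/-!
# Row 206, S0317: selection of an offset avoiding periodic families of intervals (helper61)
-/

set_option autoImplicit false

noncomputable section

open scoped Classical

namespace Crest.Agent.N206.PL

open MeasureTheory Set

namespace Sel

/-- indicator of a periodic family of intervals -/
def ind (c P r t : ℝ) : ℝ := if ∃ m : ℤ, |c - t - m * P| ≤ r then 1 else 0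

theorem ind_nonneg (c P r t : ℝ) : 0 ≤ ind c P r t := by
  unfold ind; split_ifs <;> norm_num

theorem ind_le (c P r t : ℝ) : ind c P r t ≤ 1 := by
  unfold ind; split_ifs <;> norm_num

theorem ind_meas (c P r : ℝ) : Measurable (ind c P r) := by
  refine Measurable.ite ?_ measurable_const measurable_const
  rw [setOf_exists]
  exact MeasurableSet.iUnion fun m => measurableSet_le (by fun_prop) measurable_const

theorem ind_per (c P r : ℝ) : Function.Periodic (ind c P r) P := by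
  intro t
  unfold ind
  refine if_congr ⟨fun ⟨m, h⟩ => ⟨m + 1, ?_⟩, fun ⟨m, h⟩ => ⟨m - 1, ?_⟩⟩ rfl rfl
  · convert h using 2; push_cast; ring
  · convert h using 2; push_cast; ring

theorem ind_on (c P r a b : ℝ) : IntegrableOn (ind c P r) (Icc a b) := by
  refine Measure.integrableOn_of_bounded (M := 1) (by simp) (ind_meas c P r).aestronglyMeasurable
    (Filter.Eventually.of_forall fun t => ?_)
  rw [Real.norm_eq_abs, abs_of_nonneg (ind_nonneg _ _ _ _)]
  exact ind_le _ _ _ _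

theorem ind_ii (c P r a b : ℝ) : IntervalIntegrable (ind c P r) volume a b :=
  ⟨(ind_on c P r a b).mono_set Ioc_subset_Icc_self,
    (ind_on c P r b a).mono_set Ioc_subset_Icc_self⟩

theorem one_period (c : ℝ) {P r : ℝ} (hP : 0 < P) (hr : 0 ≤ r) (a : ℝ) :
    ∫ t in a..a + P, ind c P r t ≤ 2 * r := by
  rw [(ind_per c P r).intervalIntegral_add_eq a (c + r - P),
    intervalIntegral.integral_of_le (by linarith)]
  have hi : Integrable (indicator (Icc (c - r) (c + r)) fun _ : ℝ => (1 : ℝ)) := by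
    rw [integrable_indicator_iff measurableSet_Icc]
    exact integrableOn_const (by simp)
  calc ∫ t in Ioc (c + r - P) (c + r - P + P), ind c P r t
      ≤ ∫ t in Ioc (c + r - P) (c + r - P + P),
          indicator (Icc (c - r) (c + r)) (fun _ : ℝ => (1 : ℝ)) t := by
        refine setIntegral_mono_on ((ind_on c P r _ _).mono_set Ioc_subset_Icc_self)
          hi.integrableOn measurableSet_Ioc fun t ht => ?_
        unfold ind
        split_ifs with h
        · obtain ⟨m, hm⟩ := h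
          rw [abs_le] at hm
          have h1 := ht.1
          have h2 := ht.2
          have hm0 : (m : ℝ) ≤ 0 := by
            by_contra h0
            have : (1 : ℝ) ≤ m := by exact_mod_cast (show (1 : ℤ) ≤ m by
              have : (0 : ℤ) < m := by exact_mod_cast not_le.1 h0
              omega)
            nlinarith
          rw [indicator_of_mem (show t ∈ Icc (c - r) (c + r) from ⟨by nlinarith, by linarith⟩)]
        · exact indicator_nonneg (fun _ _ => zero_le_one) t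
    _ ≤ ∫ t, indicator (Icc (c - r) (c + r)) (fun _ : ℝ => (1 : ℝ)) t :=
        setIntegral_le_integral hi (Filter.Eventually.of_forall fun t =>
          indicator_nonneg (fun _ _ => zero_le_one) t)
    _ = 2 * r := by
        rw [integral_indicator measurableSet_Icc]
        simp only [integral_const, MeasurableSet.univ, measureReal_restrict_apply, univ_inter,
          smul_eq_mul, mul_one]
        rw [Real.volume_real_Icc_of_le (by linarith)]; ring

theorem window (c : ℝ) {P r L : ℝ} (hP : 0 < P) (hr : 0 ≤ r) (hL : 0 < L) (a : ℝ) :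
    ∫ t in Ico a (a + L), ind c P r t ≤ L * (2 * r * (1 / P + 1 / L)) := by
  rw [integral_Ico_eq_integral_Ioc, ← intervalIntegral.integral_of_le (by linarith)]
  have hN : L / P ≤ (⌈L / P⌉ : ℝ) := Int.le_ceil _
  have hN' : (⌈L / P⌉ : ℝ) ≤ L / P + 1 := (Int.ceil_lt_add_one _).le
  have h0 : (0 : ℝ) ≤ ⌈L / P⌉ := (div_pos hL hP).le.trans hN
  calc ∫ t in a..a + L, ind c P r t ≤ ∫ t in a..a + ⌈L / P⌉ • P, ind c P r t := by
        refine intervalIntegral.integral_mono_interval le_rfl (by linarith) ?_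
          (Filter.Eventually.of_forall fun t => ind_nonneg _ _ _ t) (ind_ii _ _ _ _ _)
        rw [zsmul_eq_mul]
        rw [div_le_iff₀ hP] at hN
        linarith
    _ = ⌈L / P⌉ * ∫ t in a..a + P, ind c P r t := by
        rw [(ind_per c P r).intervalIntegral_add_zsmul_eq _ _ (ind_ii c P r), zsmul_eq_mul]
    _ ≤ ⌈L / P⌉ * (2 * r) := mul_le_mul_of_nonneg_left (one_period c hP hr a) h0
    _ ≤ (L / P + 1) * (2 * r) := mul_le_mul_of_nonneg_right hN' (by linarith)
    _ = L * (2 * r * (1 / P + 1 / L)) := by field_simp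

end Sel

open Sel in
theorem sel : SelStmt := by
  intro ι J _ _ ω c P r a L hL hω hP hr
  have hI : ∀ i j, IntegrableOn (ind (c i j) (P i j) (r i j)) (Ico a (a + L)) := fun i j =>
    (ind_on _ _ _ _ _).mono_set Ico_subset_Icc_self
  have hJ : ∀ i, IntegrableOn (fun t => ω i * ∑ j, ind (c i j) (P i j) (r i j) t)
      (Ico a (a + L)) := fun i =>
    Integrable.const_mul (integrable_finsetSum _ fun j _ => hI i j) _
  obtain ⟨t, ht, hle⟩ := exists_le_setAverage (μ := volume) (s := Ico a (a + L))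
    (f := fun t => ∑ i, ω i * ∑ j, ind (c i j) (P i j) (r i j) t) (by simpa using hL) (by simp)
    (integrable_finsetSum _ fun i _ => hJ i)
  refine ⟨t, ht.1, ht.2, le_trans (Finset.sum_le_sum fun i _ => ?_) (hle.trans ?_)⟩
  · have hs : 0 ≤ ∑ j, ind (c i j) (P i j) (r i j) t :=
      Finset.sum_nonneg fun j _ => ind_nonneg _ _ _ _
    split_ifs with h
    · obtain ⟨j, m, hm⟩ := h
      have h1 : ind (c i j) (P i j) (r i j) t = 1 := if_pos ⟨m, hm⟩
      have h2 := Finset.single_le_sum (f := fun j => ind (c i j) (P i j) (r i j) t)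
        (fun j _ => ind_nonneg _ _ _ _) (Finset.mem_univ j)
      nlinarith [hω i]
    · exact mul_nonneg (hω i) hs
  · rw [setAverage_eq, integral_finsetSum _ fun i _ => hJ i, Real.volume_real_Ico_of_le
      (by linarith), add_sub_cancel_left, smul_eq_mul, inv_mul_le_iff₀ hL, Finset.mul_sum]
    refine Finset.sum_le_sum fun i _ => ?_
    rw [integral_const_mul, integral_finsetSum _ fun j _ => hI i j, mul_left_comm]
    refine mul_le_mul_of_nonneg_left ?_ (hω i)
    rw [Finset.mul_sum]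
    exact Finset.sum_le_sum fun j _ => window _ (hP i j) (hr i j) hL a

end Crest.Agent.N206.PL
end
end

-- ▼ part N206/PL/KPRPot
section

/-!
# Row 206, S0317: intrinsic distance functions and descents (helper62)

`Pot H s π`: `π` is the distance to `s` inside `H`.  `Desc`: descent along geodesics of `H`.
-/

set_option autoImplicit false

noncomputable section

open scoped Classical

namespace Crest.Agent.N206.PL.KP

open Crest.GeometryTopology.GraphMetric Crest.Agent.R206.Iface534 SimpleGraph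

variable {V : Type} {G : SimpleGraph V} {ℓ : Sym2 V → ℝ}

/-- the walk stays in `H` -/
def In {x y : V} (p : G.Walk x y) (H : Set V) : Prop := ∀ v ∈ p.support, v ∈ H

theorem In.nil {x : V} {H : Set V} (h : x ∈ H) : In (Walk.nil : G.Walk x x) H := by
  intro v hv; simp at hv; exact hv ▸ h

theorem In.cons {x y z : V} {H : Set V} (h : G.Adj x y) {p : G.Walk y z} (hx : x ∈ H)
    (hp : In p H) : In (Walk.cons h p) H := by
  intro v hv
  rcases (by simpa using hv : v = x ∨ v ∈ p.support) with rfl | hv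
  · exact hx
  · exact hp v hv

theorem In.tail {x y z : V} {H : Set V} {h : G.Adj x y} {p : G.Walk y z}
    (hp : In (Walk.cons h p) H) : In p H := fun v hv => hp v (by simp [hv])

theorem In.start {x y : V} {H : Set V} {p : G.Walk x y} (hp : In p H) : x ∈ H :=
  hp x p.start_mem_support

theorem In.stop {x y : V} {H : Set V} {p : G.Walk x y} (hp : In p H) : y ∈ H :=
  hp y p.end_mem_support

theorem In.append {x y z : V} {H : Set V} {p : G.Walk x y} {q : G.Walk y z} (hp : In p H)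
    (hq : In q H) : In (p.append q) H := by
  intro v hv
  rcases (Walk.mem_support_append_iff _ _).1 hv with h | h
  · exact hp v h
  · exact hq v h

theorem In.reverse {x y : V} {H : Set V} {p : G.Walk x y} (hp : In p H) : In p.reverse H := by
  intro v hv
  rw [Walk.support_reverse, List.mem_reverse] at hv
  exact hp v hv

theorem In.mono {x y : V} {H H' : Set V} {p : G.Walk x y} (hp : In p H) (h : H ⊆ H') :
    In p H' := fun v hv => h (hp v hv)

@[simp] theorem wl_nil (x : V) : wl ℓ (Walk.nil : G.Walk x x) = 0 := by simp [wl]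

@[simp] theorem wl_cons {x y z : V} (h : G.Adj x y) (p : G.Walk y z) :
    wl ℓ (Walk.cons h p) = ℓ s(x, y) + wl ℓ p := by simp [wl]

theorem wl_append {x y z : V} (p : G.Walk x y) (q : G.Walk y z) :
    wl ℓ (p.append q) = wl ℓ p + wl ℓ q := by simp [wl]

theorem wl_reverse {x y : V} (p : G.Walk x y) : wl ℓ p.reverse = wl ℓ p := by
  simp [wl, List.map_reverse, List.sum_reverse]

theorem wl_nonneg (hℓ : ∀ e ∈ G.edgeSet, 0 < ℓ e) {x y : V} (p : G.Walk x y) : 0 ≤ wl ℓ p :=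
  edges_sum_nonneg hℓ p

theorem wdist_le_wl (hℓ : ∀ e ∈ G.edgeSet, 0 < ℓ e) {x y : V} (p : G.Walk x y) :
    wdist G ℓ x y ≤ wl ℓ p := wdist_le_walk hℓ p

/-- split a walk at a vertex of its support -/
theorem split {x y z : V} (p : G.Walk x y) (hz : z ∈ p.support) :
    ∃ (p₁ : G.Walk x z) (p₂ : G.Walk z y), wl ℓ p = wl ℓ p₁ + wl ℓ p₂ ∧
      (∀ v ∈ p₁.support, v ∈ p.support) ∧ (∀ v ∈ p₂.support, v ∈ p.support) := by
  refine ⟨p.takeUntil z hz, p.dropUntil z hz, ?_,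
    fun v hv => p.support_takeUntil_subset_support hz hv,
    fun v hv => p.support_dropUntil_subset_support hz hv⟩
  rw [← wl_append, Walk.take_spec]

theorem wl_bypass_le (hℓ : ∀ e ∈ G.edgeSet, 0 < ℓ e) {x y : V} (p : G.Walk x y) :
    wl ℓ p.bypass ≤ wl ℓ p := by
  unfold wl
  refine List.Sublist.sum_le_sum (p.edges_bypass_sublist_edges.map ℓ) fun a ha => ?_
  obtain ⟨e, he, rfl⟩ := List.mem_map.1 ha
  exact (hℓ e (p.edges_subset_edgeSet he)).le

/-- a shortest walk inside `H` -/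
theorem exists_min [Fintype V] (hℓ : ∀ e ∈ G.edgeSet, 0 < ℓ e) {H : Set V} {x y : V}
    (h : ∃ p : G.Walk x y, In p H) :
    ∃ p : G.Walk x y, In p H ∧ ∀ q : G.Walk x y, In q H → wl ℓ p ≤ wl ℓ q := by
  obtain ⟨p₀, hp₀⟩ := h
  have hb : ∀ q : G.Walk x y, In q H → In q.bypass H := fun q hq v hv =>
    hq v (q.support_bypass_subset_support hv)
  obtain ⟨p, hp, hmin⟩ := Finset.exists_min_image
    (Finset.univ.filter fun p : G.Path x y => In p.1 H) (fun p => wl ℓ p.1)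
    ⟨p₀.toPath, Finset.mem_filter.2 ⟨Finset.mem_univ _, hb p₀ hp₀⟩⟩
  refine ⟨p.1, by simpa using hp, fun q hq => ?_⟩
  exact (hmin q.toPath (Finset.mem_filter.2 ⟨Finset.mem_univ _, hb q hq⟩)).trans (wl_bypass_le hℓ q)

/-- a geodesic of the whole graph -/
theorem exists_geo [Fintype V] (hG : G.Connected) (hℓ : ∀ e ∈ G.edgeSet, 0 < ℓ e) (x y : V) :
    ∃ p : G.Walk x y, wl ℓ p = wdist G ℓ x y := by
  obtain ⟨p₀⟩ := hG.preconnected x y
  obtain ⟨p, -, hp⟩ := exists_min hℓ (H := Set.univ) ⟨p₀, fun _ _ => trivial⟩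
  exact ⟨p, le_antisymm (le_wdist hG fun q => hp q fun _ _ => trivial) (wdist_le_wl hℓ p)⟩

/-- `π` is the distance to `s` inside `H` -/
structure Pot (G : SimpleGraph V) (ℓ : Sym2 V → ℝ) (H : Set V) (s : V) (π : V → ℝ) : Prop where
  geo : ∀ v ∈ H, ∃ p : G.Walk v s, In p H ∧ wl ℓ p ≤ π v
  lip : ∀ x y (p : G.Walk x y), In p H → π x ≤ π y + wl ℓ p
  zero : π s ≤ 0

theorem exists_pot [Fintype V] (hℓ : ∀ e ∈ G.edgeSet, 0 < ℓ e) {H : Set V} (hH : Cn G H) {s : V}
    (hs : s ∈ H) : ∃ π : V → ℝ, Pot G ℓ H s π := by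
  have h : ∀ v, ∃ a : ℝ, v ∈ H → ∃ p : G.Walk v s, In p H ∧ wl ℓ p = a ∧
      ∀ q : G.Walk v s, In q H → a ≤ wl ℓ q := by
    intro v
    by_cases hv : v ∈ H
    · obtain ⟨p, hp, hm⟩ := exists_min hℓ (hH.2 v hv s hs)
      exact ⟨wl ℓ p, fun _ => ⟨p, hp, rfl, hm⟩⟩
    · exact ⟨0, fun h => absurd h hv⟩
  choose π hπ using h
  refine ⟨π, fun v hv => ?_, fun x y p hp => ?_, ?_⟩
  · obtain ⟨p, hp, he, -⟩ := hπ v hv
    exact ⟨p, hp, he.le⟩
  · obtain ⟨q, hq, he, -⟩ := hπ y hp.stop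
    obtain ⟨-, -, -, hm⟩ := hπ x hp.start
    have := hm (p.append q) (hp.append hq)
    rw [wl_append] at this
    linarith
  · obtain ⟨-, -, -, hm⟩ := hπ s hs
    simpa using hm Walk.nil (In.nil hs)

theorem Pot.congr {H : Set V} {s : V} {π π' : V → ℝ} (h : Pot G ℓ H s π) (hs : s ∈ H)
    (he : ∀ v ∈ H, π' v = π v) : Pot G ℓ H s π' := by
  refine ⟨fun v hv => ?_, fun x y p hp => ?_, ?_⟩
  · rw [he v hv]; exact h.geo v hv
  · rw [he x hp.start, he y hp.stop]; exact h.lip x y p hp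
  · rw [he s hs]; exact h.zero

theorem Pot.lip' {H : Set V} {s : V} {π : V → ℝ} (h : Pot G ℓ H s π) {x y : V} (p : G.Walk x y)
    (hp : In p H) : π y ≤ π x + wl ℓ p := by
  have := h.lip y x p.reverse hp.reverse
  rwa [wl_reverse] at this

theorem Pot.edge {H : Set V} {s : V} {π : V → ℝ} (h : Pot G ℓ H s π) {x y : V} (hx : x ∈ H)
    (hy : y ∈ H) (hxy : G.Adj x y) : π x ≤ π y + ℓ s(x, y) := by
  simpa using h.lip x y (Walk.cons hxy Walk.nil) (In.cons hxy hx (In.nil hy))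

theorem Pot.dist (hℓ : ∀ e ∈ G.edgeSet, 0 < ℓ e) {H : Set V} {s : V} {π : V → ℝ}
    (h : Pot G ℓ H s π) {v : V} (hv : v ∈ H) : wdist G ℓ v s ≤ π v := by
  obtain ⟨p, -, hp⟩ := h.geo v hv
  exact (wdist_le_wl hℓ p).trans hp

/-- `v` is below `u` on a geodesic of `H` towards the root -/
def Desc (G : SimpleGraph V) (ℓ : Sym2 V → ℝ) (H : Set V) (π : V → ℝ) (u v : V) : Prop :=
  ∃ p : G.Walk u v, In p H ∧ wl ℓ p + π v ≤ π u

/-- the part above level `a` of the descents from `u` -/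
def Dn (G : SimpleGraph V) (ℓ : Sym2 V → ℝ) (H : Set V) (π : V → ℝ) (u : V) (a : ℝ) : Set V :=
  {v | a ≤ π v ∧ Desc G ℓ H π u v}

/-- along a descending walk -/
theorem Pot.along (hℓ : ∀ e ∈ G.edgeSet, 0 < ℓ e) {H : Set V} {s : V} {π : V → ℝ}
    (h : Pot G ℓ H s π) {u v : V} (p : G.Walk u v) (hp : In p H) (hd : wl ℓ p + π v ≤ π u)
    {z : V} (hz : z ∈ p.support) : π v ≤ π z ∧ π z ≤ π u ∧ Desc G ℓ H π u z := by
  obtain ⟨p₁, p₂, he, h₁, h₂⟩ := split (ℓ := ℓ) p hz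
  have i₁ : In p₁ H := fun w hw => hp w (h₁ w hw)
  have i₂ : In p₂ H := fun w hw => hp w (h₂ w hw)
  have a₁ := h.lip u z p₁ i₁
  have a₂ := h.lip z v p₂ i₂
  have n₁ := wl_nonneg hℓ p₁
  have n₂ := wl_nonneg hℓ p₂
  exact ⟨by linarith, by linarith, p₁, i₁, by linarith⟩

theorem Pot.dn_walk (hℓ : ∀ e ∈ G.edgeSet, 0 < ℓ e) {H : Set V} {s : V} {π : V → ℝ}
    (h : Pot G ℓ H s π) {u v : V} {a : ℝ} (hv : v ∈ Dn G ℓ H π u a) :
    ∃ p : G.Walk u v, In p (Dn G ℓ H π u a) ∧ In p H ∧ wl ℓ p + π v ≤ π u ∧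
      ∀ z ∈ p.support, π v ≤ π z ∧ π z ≤ π u := by
  obtain ⟨ha, p, hp, hd⟩ := hv
  refine ⟨p, fun z hz => ?_, hp, hd, fun z hz => ?_⟩
  · obtain ⟨h1, -, h3⟩ := h.along hℓ p hp hd hz
    exact ⟨ha.trans h1, h3⟩
  · obtain ⟨h1, h2, -⟩ := h.along hℓ p hp hd hz
    exact ⟨h1, h2⟩

theorem self_mem_dn {H : Set V} {π : V → ℝ} {u : V} {a : ℝ} (hu : u ∈ H) (ha : a ≤ π u) :
    u ∈ Dn G ℓ H π u a := ⟨ha, Walk.nil, In.nil hu, by simp⟩

theorem dn_subset {H : Set V} {π : V → ℝ} {u : V} {a : ℝ} : Dn G ℓ H π u a ⊆ H :=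
  fun _ ⟨_, _, hp, _⟩ => hp.stop

/-- a descent crosses every level -/
theorem Pot.cross {H : Set V} {s : V} {π : V → ℝ} (h : Pot G ℓ H s π) {a : ℝ} (ha : 0 < a)
    {u : V} (hu : u ∈ H) (hau : a ≤ π u) :
    ∃ v w, G.Adj v w ∧ v ∈ Dn G ℓ H π u a ∧ w ∈ H ∧ π w < a ∧ a ≤ π w + ℓ s(v, w) ∧
      Desc G ℓ H π u w := by
  have key : ∀ {u s' : V} (q : G.Walk u s'), π s' ≤ 0 → In q H → wl ℓ q + π s' ≤ π u →
      a ≤ π u → ∃ v w, ∃ _ : G.Adj v w, a ≤ π v ∧ w ∈ H ∧ π w < a ∧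
        ∃ p : G.Walk u v, In p H ∧ wl ℓ p + ℓ s(v, w) + π w ≤ π u := by
    intro u s' q
    induction q with
    | nil => intro e3 _ _ h1; linarith
    | @cons u u' s' huu q ih =>
      intro e3 hq hl h1
      rw [wl_cons] at hl
      have e1 := h.edge hq.start hq.tail.start huu
      have e2 := h.lip _ _ q hq.tail
      by_cases h2 : a ≤ π u'
      · obtain ⟨v, w, hvw, b1, b2, b3, p, hp, b4⟩ := ih e3 hq.tail (by linarith) h2
        exact ⟨v, w, hvw, b1, b2, b3, Walk.cons huu p, In.cons huu hq.start hp, by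
          rw [wl_cons]; linarith⟩
      · exact ⟨u, u', huu, h1, hq.tail.start, lt_of_not_ge h2, Walk.nil, In.nil hq.start, by
          rw [wl_nil]; linarith⟩
  obtain ⟨q, hq, hl⟩ := h.geo u hu
  obtain ⟨v, w, hvw, b1, b2, b3, p, hp, b4⟩ :=
    key q h.zero hq (by linarith [h.zero]) hau
  have e := h.edge hp.stop b2 hvw
  refine ⟨v, w, hvw, ⟨b1, p, hp, by linarith⟩, b2, b3, by linarith,
    p.append (Walk.cons hvw Walk.nil), hp.append (In.cons hvw hp.stop (In.nil b2)), ?_⟩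
  rw [wl_append, wl_cons, wl_nil]; linarith

/-- a set with walks to a centre is connected -/
theorem cn_of_center {S : Set V} {c : V} (hc : c ∈ S)
    (h : ∀ v ∈ S, ∃ p : G.Walk c v, In p S) : Cn G S := by
  refine ⟨⟨c, hc⟩, fun x hx y hy => ?_⟩
  obtain ⟨p, hp⟩ := h x hx
  obtain ⟨q, hq⟩ := h y hy
  exact ⟨p.reverse.append q, hp.reverse.append hq⟩

/-- the part of `H` below a positive level is connected -/
theorem Pot.hub (hℓ : ∀ e ∈ G.edgeSet, 0 < ℓ e) {H : Set V} {s : V} {π : V → ℝ}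
    (h : Pot G ℓ H s π) (hs : s ∈ H) {a : ℝ} (ha : 0 < a) : Cn G {v | v ∈ H ∧ π v < a} := by
  refine cn_of_center (c := s) ⟨hs, by linarith [h.zero]⟩ fun v hv => ?_
  obtain ⟨p, hp, hl⟩ := h.geo v hv.1
  refine ⟨p.reverse, In.reverse fun z hz => ⟨hp z hz, ?_⟩⟩
  have := (h.along hℓ p hp (by linarith [h.zero]) hz).2.1
  exact this.trans_lt hv.2

end Crest.Agent.N206.PL.KP
end
end

-- ▼ part N206/PL/KPRDiam
section

/-!
# Row 206, S0317: three nested bands have bounded weak diameter (helper62)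
-/

set_option autoImplicit false

noncomputable section

open scoped Classical

namespace Crest.Agent.N206.PL.KP

open Crest.GeometryTopology.GraphMetric Crest.Agent.R206.Iface534 SimpleGraph

variable {V : Type} {G : SimpleGraph V} {ℓ : Sym2 V → ℝ}

/-- `H'` is a union of components of the band `b ≤ π < b + W` of `H` -/
structure Band (G : SimpleGraph V) (ℓ : Sym2 V → ℝ) (H : Set V) (s : V) (π : V → ℝ) (b W : ℝ)
    (H' : Set V) : Prop where
  pot : Pot G ℓ H s π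
  root : s ∈ H
  sub : H' ⊆ H
  lo : ∀ v ∈ H', b ≤ π v
  hi : ∀ v ∈ H', π v < b + W
  closed : ∀ v ∈ H', ∀ u ∈ H, G.Adj v u → b ≤ π u → π u < b + W → u ∈ H'

theorem Band.walk {H H' : Set V} {s : V} {π : V → ℝ} {b W : ℝ} (h : Band G ℓ H s π b W H')
    {u v : V} (p : G.Walk u v) (hu : u ∈ H') (hp : In p H)
    (hb : ∀ z ∈ p.support, b ≤ π z ∧ π z < b + W) : In p H' := by
  induction p with
  | nil => exact In.nil hu
  | @cons u u' v huu p ih =>
    have h' := hb u' (by simp)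
    exact In.cons huu hu (ih (h.closed u hu u' hp.tail.start huu h'.1 h'.2) hp.tail
      fun z hz => hb z (by simp [hz]))

/-- a descent that stays above the bottom of the band stays in the piece and is short -/
theorem Band.desc (hℓ : ∀ e ∈ G.edgeSet, 0 < ℓ e) {H H' : Set V} {s : V} {π : V → ℝ} {b W : ℝ}
    (h : Band G ℓ H s π b W H') {u v : V} (hu : u ∈ H') (hd : Desc G ℓ H π u v) (hv : b ≤ π v) :
    ∃ p : G.Walk u v, In p H' ∧ wl ℓ p < W := by
  obtain ⟨p, -, hp, hl, hz⟩ := h.pot.dn_walk hℓ (a := b) ⟨hv, hd⟩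
  have := h.hi u hu
  exact ⟨p, h.walk p hu hp fun z hz' => ⟨hv.trans (hz z hz').1, (hz z hz').2.trans_lt this⟩,
    by linarith⟩

theorem tch_cross {H S : Set V} {s : V} {π : V → ℝ} (h : Pot G ℓ H s π) {a : ℝ} (ha : 0 < a)
    {u : V} (hu : u ∈ H) (hau : a ≤ π u) (hS : Dn G ℓ H π u a ⊆ S) :
    Tch G {v | v ∈ H ∧ π v < a} S := by
  obtain ⟨v, w, hvw, h1, h2, h3, -⟩ := h.cross ha hu hau
  exact ⟨w, ⟨h2, h3⟩, v, hS h1, hvw.symm⟩

section diam

variable {δ W b₁ b₂ b₃ : ℝ} {H₀ H₁ H₂ H₃ : Set V} {s₁ s₂ s₃ : V} {π₁ π₂ π₃ : V → ℝ}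

/-- the branch set at `u` -/
theorem branch (hw : WG G ℓ δ) (hδ : δ ≤ W) (hW : 0 < W)
    (h₃ : Band G ℓ H₃ s₃ π₃ b₃ W H₂) (h₂ : Band G ℓ H₂ s₂ π₂ b₂ W H₁)
    (h₁ : Band G ℓ H₁ s₁ π₁ b₁ W H₀) (c₁ : W < b₁) (c₂ : 4 * W < b₂) (c₃ : 0 < b₃)
    {u : V} (hu : u ∈ H₀) :
    ∃ B : Set V, Cn G B ∧ (∀ v ∈ B, wdist G ℓ u v ≤ 5 * W) ∧
      Disjoint {v | v ∈ H₁ ∧ π₁ v < b₁ - W} B ∧ Disjoint {v | v ∈ H₂ ∧ π₂ v < b₂ - 4 * W} B ∧
      Disjoint {v | v ∈ H₃ ∧ π₃ v < b₃} B ∧ Tch G {v | v ∈ H₁ ∧ π₁ v < b₁ - W} B ∧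
      Tch G {v | v ∈ H₂ ∧ π₂ v < b₂ - 4 * W} B ∧ Tch G {v | v ∈ H₃ ∧ π₃ v < b₃} B := by
  have hℓ := hw.pos
  have u₁ : u ∈ H₁ := h₁.sub hu
  have u₂ : u ∈ H₂ := h₂.sub u₁
  have l₁ := h₁.lo u hu
  have t₁ := h₁.hi u hu
  have l₂ := h₂.lo u u₁
  have t₂ := h₂.hi u u₁
  obtain ⟨v₀, w, hvw, -, w₂, wlt, wge, wd⟩ :=
    h₂.pot.cross (a := b₂ - 2 * W) (by linarith) u₂ (by linarith)
  have hsm : ℓ s(v₀, w) ≤ W := (hw.small _ (by simpa using hvw)).trans hδ
  have wP : w ∈ Dn G ℓ H₂ π₂ u (b₂ - 4 * W) := ⟨by linarith, wd⟩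
  have l₃ := h₃.lo w w₂
  -- facts on the third part
  have f₃ : ∀ v ∈ Dn G ℓ H₃ π₃ w b₃, v ∈ H₂ ∧ π₂ v < b₂ ∧ b₂ - 4 * W ≤ π₂ v ∧
      wdist G ℓ u v ≤ 5 * W := by
    intro v hv
    obtain ⟨p, hp, hl⟩ := h₃.desc hℓ w₂ hv.2 hv.1
    have e1 := h₂.pot.lip _ _ p hp
    have e2 := h₂.pot.lip' p hp
    obtain ⟨q, -, hq⟩ := wd
    have e3 := wdist_le_wl hℓ (q.append p)
    rw [wl_append] at e3
    exact ⟨hp.stop, by linarith, by linarith, by linarith⟩
  refine ⟨(Dn G ℓ H₁ π₁ u (b₁ - W) ∪ Dn G ℓ H₂ π₂ u (b₂ - 4 * W)) ∪ Dn G ℓ H₃ π₃ w b₃, ?_, ?_,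
    ?_, ?_, ?_, ?_, ?_, ?_⟩
  · refine cn_of_center (c := u) (Or.inl (Or.inl (self_mem_dn u₁ (by linarith)))) ?_
    rintro v ((hv | hv) | hv)
    · obtain ⟨p, hp, -⟩ := h₁.pot.dn_walk hℓ hv
      exact ⟨p, hp.mono fun z hz => Or.inl (Or.inl hz)⟩
    · obtain ⟨p, hp, -⟩ := h₂.pot.dn_walk hℓ hv
      exact ⟨p, hp.mono fun z hz => Or.inl (Or.inr hz)⟩
    · obtain ⟨p, hp, -⟩ := h₂.pot.dn_walk hℓ wP
      obtain ⟨q, hq, -⟩ := h₃.pot.dn_walk hℓ hv
      exact ⟨p.append q, (hp.mono fun z hz => Or.inl (Or.inr hz)).append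
        (hq.mono fun z hz => Or.inr hz)⟩
  · rintro v ((hv | hv) | hv)
    · obtain ⟨ha, p, -, hp⟩ := hv
      linarith [wdist_le_wl hℓ p]
    · obtain ⟨ha, p, -, hp⟩ := hv
      linarith [wdist_le_wl hℓ p]
    · exact (f₃ v hv).2.2.2
  · rw [Set.disjoint_left]
    rintro v ⟨v₁, hlt⟩ ((hv | hv) | hv)
    · linarith [hv.1]
    · obtain ⟨p, hp, hl⟩ := h₂.desc hℓ u₁ hv.2 (h₂.lo v v₁)
      linarith [h₁.pot.lip _ _ p hp]
    · linarith [(f₃ v hv).2.1, h₂.lo v v₁]
  · rw [Set.disjoint_left]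
    rintro v ⟨-, hlt⟩ ((hv | hv) | hv)
    · linarith [h₂.lo v (dn_subset hv)]
    · linarith [hv.1]
    · linarith [(f₃ v hv).2.2.1]
  · rw [Set.disjoint_left]
    rintro v ⟨-, hlt⟩ ((hv | hv) | hv)
    · linarith [h₃.lo v (h₂.sub (dn_subset hv))]
    · linarith [h₃.lo v (dn_subset hv)]
    · linarith [hv.1]
  · exact tch_cross h₁.pot (by linarith) u₁ (by linarith) fun z hz => Or.inl (Or.inl hz)
  · exact tch_cross h₂.pot (by linarith) u₂ (by linarith) fun z hz => Or.inl (Or.inr hz)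
  · exact tch_cross h₃.pot c₃ (h₃.sub w₂) l₃ fun z hz => Or.inr hz

/-- discrete intermediate value along a walk -/
theorem ivt (hw : WG G ℓ δ) (u : V) {a : ℝ} {x y : V} (p : G.Walk x y)
    (hx : wdist G ℓ u x ≤ a) (hy : a < wdist G ℓ u y) :
    ∃ z ∈ p.support, a < wdist G ℓ u z ∧ wdist G ℓ u z ≤ a + δ := by
  induction p with
  | nil => linarith
  | @cons x x' y hxx p ih =>
    by_cases h : wdist G ℓ u x' ≤ a
    · obtain ⟨z, hz, h'⟩ := ih h hy
      exact ⟨z, by simp [hz], h'⟩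
    · refine ⟨x', by simp, lt_of_not_ge h, ?_⟩
      have e1 := wdist_triangle hw.conn hw.pos u x x'
      have e2 := wdist_edge_le hw.pos hxx
      have e3 := hw.small s(x, x') (by simpa using hxx)
      linarith

theorem diam (hw : WG G ℓ δ) (hm : MF G) (hδ : δ ≤ W) (hW : 0 < W)
    (h₃ : Band G ℓ H₃ s₃ π₃ b₃ W H₂) (h₂ : Band G ℓ H₂ s₂ π₂ b₂ W H₁)
    (h₁ : Band G ℓ H₁ s₁ π₁ b₁ W H₀) (h₀ : Cn G H₀) {u v : V} (hu : u ∈ H₀) (hv : v ∈ H₀) :
    wdist G ℓ u v ≤ 21 * W := by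
  have hℓ := hw.pos
  have tri := wdist_triangle hw.conn hw.pos
  have com := wdist_comm hw.conn hw.pos
  have small : ∀ {H H' : Set V} {s : V} {π : V → ℝ} {b : ℝ}, Band G ℓ H s π b W H' → u ∈ H' →
      v ∈ H' → wdist G ℓ u v ≤ 2 * (b + W) := by
    intro H H' s π b h hu hv
    have e1 := h.pot.dist hℓ (h.sub hu)
    have e2 := h.pot.dist hℓ (h.sub hv)
    have e3 := tri u s v
    have e4 := com s v
    linarith [h.hi u hu, h.hi v hv]
  by_contra hc
  rw [not_le] at hc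
  have c₁ : W < b₁ := by
    by_contra h; linarith [small h₁ hu hv]
  have c₂ : 4 * W < b₂ := by
    by_contra h; linarith [small h₂ (h₁.sub hu) (h₁.sub hv)]
  have c₃ : 0 < b₃ := by
    by_contra h; linarith [small h₃ (h₂.sub (h₁.sub hu)) (h₂.sub (h₁.sub hv))]
  obtain ⟨p, hp⟩ := h₀.2 u hu v hv
  obtain ⟨z, hz, z₁, z₂⟩ := ivt hw u (a := 10 * W) p
    (by rw [wdist_self hw.conn hw.pos]; linarith) (by linarith)
  have z₃ : 10 * W < wdist G ℓ z v := by linarith [tri u z v]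
  have hx : ∀ i : Fin 3, (![u, z, v] i) ∈ H₀ := by
    intro i; fin_cases i
    · exact hu
    · exact hp z hz
    · exact hv
  have hfar : ∀ i j : Fin 3, i ≠ j → 10 * W < wdist G ℓ (![u, z, v] i) (![u, z, v] j) := by
    intro i j hij
    fin_cases i <;> fin_cases j <;> simp at hij ⊢ <;>
      linarith [com u z, com u v, com z v]
  choose B hB using fun i => branch hw hδ hW h₃ h₂ h₁ c₁ c₂ c₃ (hx i)
  refine hm.k33 ![{v | v ∈ H₁ ∧ π₁ v < b₁ - W}, {v | v ∈ H₂ ∧ π₂ v < b₂ - 4 * W},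
    {v | v ∈ H₃ ∧ π₃ v < b₃}] B ?_ (fun i => (hB i).1) ?_ ?_ ?_ ?_
  · intro i; fin_cases i
    · exact h₁.pot.hub hℓ h₁.root (by linarith)
    · exact h₂.pot.hub hℓ h₂.root (by linarith)
    · exact h₃.pot.hub hℓ h₃.root c₃
  · have d12 : Disjoint {v | v ∈ H₁ ∧ π₁ v < b₁ - W} {v | v ∈ H₂ ∧ π₂ v < b₂ - 4 * W} := by
      rw [Set.disjoint_left]
      rintro x ⟨x₁, -⟩ ⟨-, x₂⟩
      linarith [h₂.lo x x₁]
    have d13 : Disjoint {v | v ∈ H₁ ∧ π₁ v < b₁ - W} {v | v ∈ H₃ ∧ π₃ v < b₃} := by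
      rw [Set.disjoint_left]
      rintro x ⟨x₁, -⟩ ⟨-, x₂⟩
      linarith [h₃.lo x (h₂.sub x₁)]
    have d23 : Disjoint {v | v ∈ H₂ ∧ π₂ v < b₂ - 4 * W} {v | v ∈ H₃ ∧ π₃ v < b₃} := by
      rw [Set.disjoint_left]
      rintro x ⟨x₁, -⟩ ⟨-, x₂⟩
      linarith [h₃.lo x x₁]
    intro i j hij
    fin_cases i <;> fin_cases j
    all_goals first
      | exact absurd rfl hij
      | exact d12 | exact d13 | exact d23 | exact d12.symm | exact d13.symm | exact d23.symm
  · intro i j hij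
    rw [Set.disjoint_left]
    intro x hi hj
    have e1 := (hB i).2.1 x hi
    have e2 := (hB j).2.1 x hj
    have e3 := tri (![u, z, v] i) x (![u, z, v] j)
    have e4 := com x (![u, z, v] j)
    linarith [hfar i j hij]
  · intro i j; fin_cases i
    · exact (hB j).2.2.1
    · exact (hB j).2.2.2.1
    · exact (hB j).2.2.2.2.1
  · intro i j; fin_cases i
    · exact (hB j).2.2.2.2.2.1
    · exact (hB j).2.2.2.2.2.2.1
    · exact (hB j).2.2.2.2.2.2.2

end diam

end Crest.Agent.N206.PL.KP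
end
end

-- ▼ part N206/PL/KPR

/-!
# Row 206, S0317: the padded decomposition `kpr : SelStmt → KPRStmt` (helper62)
-/

set_option autoImplicit false

noncomputable section

open scoped Classical

namespace Crest.Agent.N206.PL

open Crest.GeometryTopology.GraphMetric Crest.Agent.R206.Iface534 SimpleGraph

namespace KP

variable {V : Type} {G : SimpleGraph V} {ℓ : Sym2 V → ℝ}

/-- a partition into connected pieces; `k v` is the piece of `v` -/
structure Part (G : SimpleGraph V) (k : V → Set V) : Prop where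
  mem : ∀ v, v ∈ k v
  eq : ∀ u v, u ∈ k v → k u = k v
  cn : ∀ v, Cn G (k v)

/-- a geodesic from `x` to a point of the ball stays in the ball -/
theorem geo_in_ball [Fintype V] {δ : ℝ} (hw : WG G ℓ δ) {x y : V} {r : ℝ}
    (hy : y ∈ bl G ℓ x r) : ∃ p : G.Walk x y, In p (bl G ℓ x r) ∧ wl ℓ p ≤ r := by
  obtain ⟨p, hp⟩ := exists_geo hw.conn hw.pos x y
  have hy' : wdist G ℓ x y ≤ r := hy
  refine ⟨p, fun z hz => ?_, by linarith⟩
  obtain ⟨p₁, p₂, he, -, -⟩ := split (ℓ := ℓ) p hz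
  have := wdist_le_wl hw.pos p₁
  have := wl_nonneg hw.pos p₂
  show wdist G ℓ x z ≤ r
  linarith

theorem floor_eq_of {c c' t W r : ℝ} (hW : 0 < W) (h : ¬ ∃ m : ℤ, |c - t - m * W| ≤ r)
    (hc : |c' - c| ≤ r) : ⌊(c' - t) / W⌋ = ⌊(c - t) / W⌋ := by
  have hc' := abs_le.1 hc
  have a1 := Int.floor_le ((c - t) / W)
  have a2 := Int.lt_floor_add_one ((c - t) / W)
  rw [le_div_iff₀ hW] at a1
  rw [div_lt_iff₀ hW] at a2
  rw [Int.floor_eq_iff, le_div_iff₀ hW, div_lt_iff₀ hW]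
  constructor
  · by_contra h'
    exact h ⟨⌊(c - t) / W⌋, abs_le.2 ⟨by linarith, by linarith⟩⟩
  · by_contra h'
    refine h ⟨⌊(c - t) / W⌋ + 1, abs_le.2 ⟨?_, ?_⟩⟩ <;> push_cast <;> linarith

/-- one round of bands -/
theorem round (sel : SelStmt) [Fintype V] {δ : ℝ} (hw : WG G ℓ δ) {k : V → Set V} (hk : Part G k)
    {W r : ℝ} (hW : 0 < W) (hr : 0 ≤ r) {ι : Type} [Fintype ι] (x : ι → V) (ω : ι → ℝ)
    (hω : ∀ i, 0 ≤ ω i) :
    ∃ k' : V → Set V, Part G k' ∧ (∀ v, ∃ s π b, Band G ℓ (k v) s π b W (k' v)) ∧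
      (∀ u v, u ∈ k' v → u ∈ k v) ∧
      ∑ i, (if bl G ℓ (x i) r ⊆ k' (x i) then 0 else ω i) ≤
        ∑ i, (if bl G ℓ (x i) r ⊆ k (x i) then 0 else ω i) + 4 * r / W * ∑ i, ω i := by
  have hex : ∀ H : Set V, ∃ (s : V → V) (π : V → ℝ), ∀ v, Cn G H → s v ∈ H ∧ Pot G ℓ H (s v) π := by
    intro H
    by_cases hH : Cn G H
    · obtain ⟨s, hs⟩ := hH.1
      obtain ⟨π, hπ⟩ := exists_pot hw.pos hH hs
      exact ⟨fun _ => s, π, fun _ _ => ⟨hs, hπ⟩⟩
    · exact ⟨id, fun _ => 0, fun _ h => absurd h hH⟩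
  choose sf πf hf using hex
  set π : V → ℝ := fun u => πf (k u) u with hπ
  have hpot : ∀ v, Pot G ℓ (k v) (sf (k v) v) π := fun v =>
    (hf (k v) v (hk.cn v)).2.congr (hf (k v) v (hk.cn v)).1 fun u hu => by
      simp only [hπ, hk.eq u v hu]
  obtain ⟨t, -, -, ht⟩ := sel ι Unit ω (fun i _ => π (x i)) (fun _ _ => W) (fun _ _ => r) 0 W hW
    hω (fun _ _ => hW) (fun _ _ => hr)
  set β : V → ℤ := fun u => ⌊(π u - t) / W⌋ with hβ
  set S : V → Set V := fun v => {z | z ∈ k v ∧ β z = β v} with hS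
  have hSeq : ∀ u v, u ∈ S v → S u = S v := by
    intro u v hu
    simp only [hS, hk.eq u v hu.1, hu.2]
  refine ⟨fun v => {u | ∃ p : G.Walk v u, In p (S v)}, ⟨fun v => ?_, ?_, fun v => ?_⟩,
    fun v => ⟨sf (k v) v, π, t + β v * W, hpot v, (hf (k v) v (hk.cn v)).1, ?_, ?_, ?_, ?_⟩,
    ?_, ?_⟩
  · exact ⟨Walk.nil, In.nil ⟨hk.mem v, rfl⟩⟩
  · rintro u v ⟨p, hp⟩
    have e := hSeq u v hp.stop
    ext z
    simp only [Set.mem_ofPred_eq, e]
    exact ⟨fun ⟨q, hq⟩ => ⟨p.append q, hp.append hq⟩,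
      fun ⟨q, hq⟩ => ⟨p.reverse.append q, hp.reverse.append hq⟩⟩
  · refine cn_of_center (c := v) ⟨Walk.nil, In.nil ⟨hk.mem v, rfl⟩⟩ ?_
    rintro u ⟨p, hp⟩
    refine ⟨p, fun z hz => ?_⟩
    obtain ⟨p₁, -, -, h₁, -⟩ := split (ℓ := ℓ) p hz
    exact ⟨p₁, fun y hy => hp y (h₁ y hy)⟩
  · rintro u ⟨p, hp⟩
    exact hp.stop.1
  · rintro u ⟨p, hp⟩
    have := Int.floor_le ((π u - t) / W)
    rw [le_div_iff₀ hW] at this
    rw [← hp.stop.2]
    simp only [hβ]
    linarith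
  · rintro u ⟨p, hp⟩
    have := Int.lt_floor_add_one ((π u - t) / W)
    rw [div_lt_iff₀ hW] at this
    rw [← hp.stop.2]
    simp only [hβ]
    linarith
  · rintro z ⟨p, hp⟩ u hu hzu h1 h2
    refine ⟨p.append (Walk.cons hzu Walk.nil), hp.append (In.cons hzu hp.stop (In.nil ⟨hu, ?_⟩))⟩
    show ⌊(π u - t) / W⌋ = β v
    rw [Int.floor_eq_iff, le_div_iff₀ hW, div_lt_iff₀ hW]
    constructor <;> linarith
  · rintro u v ⟨p, hp⟩
    exact hp.stop.1
  · have e : ∑ i, ω i * ∑ _j : Unit, 2 * r * (1 / W + 1 / W) = 4 * r / W * ∑ i, ω i := by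
      rw [Finset.mul_sum]
      refine Finset.sum_congr rfl fun i _ => ?_
      simp only [Finset.univ_unique, Finset.sum_singleton]
      ring
    rw [← e]
    refine le_trans ?_ (add_le_add le_rfl ht)
    rw [← Finset.sum_add_distrib]
    refine Finset.sum_le_sum fun i _ => ?_
    have h0 := hω i
    by_cases h1 : bl G ℓ (x i) r ⊆ k (x i)
    swap
    · simp only [h1, if_false]
      split_ifs <;> linarith
    by_cases h2 : ∃ (_ : Unit) (m : ℤ), |π (x i) - t - m * W| ≤ r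
    · simp only [h2, if_true]
      split_ifs <;> linarith
    have h3 : bl G ℓ (x i) r ⊆ {u | ∃ p : G.Walk (x i) u, In p (S (x i))} := by
      intro y hy
      obtain ⟨p, hp, -⟩ := geo_in_ball hw hy
      refine ⟨p, fun z hz => ⟨h1 (hp z hz), ?_⟩⟩
      obtain ⟨q, hq, hl⟩ := geo_in_ball hw (hp z hz)
      have e1 := (hpot (x i)).lip _ _ q (hq.mono h1)
      have e2 := (hpot (x i)).lip' q (hq.mono h1)
      exact floor_eq_of hW (fun ⟨m, hm⟩ => h2 ⟨(), m, hm⟩) (abs_le.2 ⟨by linarith, by linarith⟩)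
    simp only [h1, h2, h3, if_true, if_false]
    linarith

end KP

open KP in
theorem kpr (sel : SelStmt) : KPRStmt := by
  refine ⟨252, by norm_num, ?_⟩
  intro V _ G ℓ δ hw hm r θ hr hθ hθ1 hδ ι _ x ω hω
  set W : ℝ := 12 * r / θ with hWd
  have hW : 0 < W := by positivity
  have hrW : r ≤ W := by
    rw [hWd, le_div_iff₀ hθ]; nlinarith
  have p₃ : Part G fun _ : V => (Set.univ : Set V) :=
    ⟨fun _ => trivial, fun _ _ _ => rfl, fun v => ⟨⟨v, trivial⟩, fun a _ b _ =>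
      let ⟨p⟩ := hw.conn.preconnected a b; ⟨p, fun _ _ => trivial⟩⟩⟩
  obtain ⟨k₂, p₂, b₃, -, w₂⟩ := round sel hw p₃ hW hr.le x ω hω
  obtain ⟨k₁, p₁, b₂, -, w₁⟩ := round sel hw p₂ hW hr.le x ω hω
  obtain ⟨k₀, p₀, b₁, -, w₀⟩ := round sel hw p₁ hW hr.le x ω hω
  have hd : ∀ v y, y ∈ k₀ v → wdist G ℓ v y ≤ 252 * r / θ := by
    intro v y hy
    obtain ⟨_, _, _, h₃⟩ := b₃ v
    obtain ⟨_, _, _, h₂⟩ := b₂ v
    obtain ⟨_, _, _, h₁⟩ := b₁ v
    have := diam hw hm (hδ.trans hrW) hW h₃ h₂ h₁ (p₀.cn v) (p₀.mem v) hy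
    refine this.trans (le_of_eq ?_)
    rw [hWd]; ring
  have hrep : ∀ S : Set V, ∃ c : V → V, ∀ v, v ∈ S → c v ∈ S ∧ ∀ u, u ∈ S → c u = c v := by
    intro S
    by_cases h : S.Nonempty
    · exact ⟨fun _ => h.some, fun _ _ => ⟨h.some_mem, fun _ _ => rfl⟩⟩
    · exact ⟨id, fun v hv => absurd ⟨v, hv⟩ h⟩
  choose cf hcf using hrep
  have hmem : ∀ v, cf (k₀ v) v ∈ k₀ v := fun v => (hcf _ v (p₀.mem v)).1
  refine ⟨fun v => cf (k₀ v) v, fun y => hd y _ (hmem y), fun y z h => hd y z ?_, ?_⟩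
  · have e1 := p₀.eq _ _ (hmem y)
    have e2 := p₀.eq _ _ (hmem z)
    have h' : cf (k₀ y) y = cf (k₀ z) z := h
    rw [h'] at e1
    rw [← e1, e2]
    exact p₀.mem z
  · have e : 4 * r / W = θ / 3 := by
      rw [hWd]; field_simp; norm_num
    rw [e] at w₀ w₁ w₂
    simp only [Set.subset_univ, if_true, Finset.sum_const_zero, zero_add] at w₂
    refine le_trans (Finset.sum_le_sum fun i _ => ?_) (w₀.trans (by linarith))
    by_cases h : bl G ℓ (x i) r ⊆ k₀ (x i)
    · have h' : ∀ y ∈ bl G ℓ (x i) r, cf (k₀ y) y = cf (k₀ (x i)) (x i) := by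
        intro y hy
        rw [p₀.eq _ _ (h hy)]
        exact (hcf _ (x i) (p₀.mem _)).2 y (h hy)
      rw [if_pos h', if_pos h]
    · rw [if_neg h]
      split_ifs
      · exact hω i
      · exact le_rfl

end Crest.Agent.N206.PL
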