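import Crest.Agent.N206.PL.Basic2
import Crest.Agent.N206.PL.Neck
import Crest.Agent.N206.PL.Defs
import Crest.Agent.N206.Dual.Opt

-- ▼ part N206/PL/Noise
section

/-!
# Row 206, S0317: one scale noise `noise : KPRStmt → NoiseStmt` (helper62)
-/

set_option autoImplicit false

noncomputable section

open scoped Classical

namespace Crest.Agent.N206.PL

open Crest.GeometryTopology.GraphMetric Crest.Agent.R206.Iface534 SimpleGraph

/-- truncated distance to the other cells -/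
theorem exists_depth {V κ : Type} [Fintype V] {G : SimpleGraph V} {ℓ : Sym2 V → ℝ} {δ : ℝ}
    (hw : WG G ℓ δ) (c : V → κ) {r : ℝ} (hr : 0 ≤ r) :
    ∃ h : V → ℝ, (∀ v, 0 ≤ h v) ∧ (∀ v, h v ≤ r) ∧ (∀ v z, c z ≠ c v → h v ≤ wdist G ℓ v z) ∧
      (∀ x y, c x = c y → h x ≤ h y + wdist G ℓ x y) ∧
      ∀ v, (∀ y ∈ bl G ℓ v r, c y = c v) → h v = r := by
  have key : ∀ v, ∃ a : ℝ, a ≤ r ∧ (∀ z, c z ≠ c v → a ≤ wdist G ℓ v z) ∧
      (a = r ∨ ∃ z, c z ≠ c v ∧ a = wdist G ℓ v z) := by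
    intro v
    by_cases h : ∃ z, c z ≠ c v ∧ wdist G ℓ v z ≤ r
    · obtain ⟨z₀, hz₀⟩ := h
      obtain ⟨z, hz, hmin⟩ := Finset.exists_min_image (Finset.univ.filter fun z => c z ≠ c v)
        (fun z => wdist G ℓ v z) ⟨z₀, by simpa using hz₀.1⟩
      exact ⟨wdist G ℓ v z, (hmin z₀ (by simpa using hz₀.1)).trans hz₀.2,
        fun y hy => hmin y (by simpa using hy), Or.inr ⟨z, by simpa using hz, rfl⟩⟩
    · push Not at h
      exact ⟨r, le_rfl, fun z hz => (h z hz).le, Or.inl rfl⟩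
  choose h h1 h2 h3 using key
  refine ⟨h, fun v => ?_, h1, h2, fun x y hxy => ?_, fun v hv => ?_⟩
  · rcases h3 v with e | ⟨z, -, e⟩ <;> rw [e]
    · exact hr
    · exact hw.nonneg _ _
  · rcases h3 y with e | ⟨z, hz, e⟩ <;> rw [e]
    · linarith [h1 x, hw.nonneg x y]
    · linarith [h2 x z (hxy ▸ hz), hw.tri x y z]
  · rcases h3 v with e | ⟨z, hz, e⟩
    · exact e
    · exact absurd (hv z (show wdist G ℓ v z ≤ r from e ▸ h1 v)) hz

theorem noise (kpr : KPRStmt) : NoiseStmt := by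
  obtain ⟨Δ, hΔ, kpr⟩ := kpr
  refine ⟨1 / (8 * Δ), 1 / (4 * Δ), by positivity, by positivity, ?_⟩
  intro V _ G ℓ δ hw hm D hD hδ χ hχ hlip ι _ a b ω hω hab
  set r : ℝ := 1 / (4 * Δ) * D with hr
  have hr0 : 0 < r := by positivity
  have hrD : 1 / (4 * Δ) ≤ 1 := by rw [div_le_one (by positivity)]; linarith
  obtain ⟨c, -, hc, hpad⟩ := kpr V G ℓ δ hw hm r (1 / 2) hr0 (by norm_num) (by norm_num) hδ ι a
    (fun i => ω i * min D (χ (a i))) fun i => mul_nonneg (hω i) (le_min hD.le (hχ _))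
  have hdiam : Δ * r / (1 / 2) = D / 2 := by rw [hr]; field_simp; norm_num
  rw [hdiam] at hc
  obtain ⟨h, h0, -, h2, h3, h4⟩ := exists_depth hw c hr0.le
  set g : V → ℝ := fun v => min (χ v) (h v) with hg
  have g0 : ∀ v, 0 ≤ g v := fun v => le_min (hχ v) (h0 v)
  refine ⟨_, IsCut.cells c g, fun x y hxy => ?_, fun x y hx hy => ?_, ?_⟩
  · have e1 := hw.edge hxy
    have e2 := hw.comm x y
    have e3 := hw.adj_pos hxy
    split_ifs with hcxy
    · have a1 := h3 x y hcxy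
      have a2 := h3 y x hcxy.symm
      have a3 := abs_le.1 (hlip x y hxy)
      have : |g x - g y| ≤ ℓ s(x, y) := by
        simp only [hg, min_def]
        rw [abs_le]
        split_ifs <;> constructor <;> linarith
      linarith
    · have a1 := h2 x y (Ne.symm hcxy)
      have a2 := h2 y x hcxy
      rw [abs_of_nonneg (g0 x), abs_of_nonneg (g0 y)]
      linarith [min_le_right (χ x) (h x), min_le_right (χ y) (h y)]
  · have a1 : g x = 0 := le_antisymm (hx ▸ min_le_left _ _) (g0 x)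
    have a2 : g y = 0 := le_antisymm (hy ▸ min_le_left _ _) (g0 y)
    simp [a1, a2]
  · have key : ∀ i, 1 / (4 * Δ) * (ω i * min D (χ (a i)) -
        if ∀ y ∈ bl G ℓ (a i) r, c y = c (a i) then 0 else ω i * min D (χ (a i))) ≤
        ω i * if c (a i) = c (b i) then |g (a i) - g (b i)| else |g (a i)| + |g (b i)| := by
      intro i
      have hne : c (a i) ≠ c (b i) := fun e => by linarith [hc _ _ e, hab i]
      rw [if_neg hne, abs_of_nonneg (g0 _), abs_of_nonneg (g0 _)]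
      split_ifs with hp
      · have a1 : 1 / (4 * Δ) * min D (χ (a i)) ≤ g (a i) := by
          refine le_min ?_ ?_
          · exact (mul_le_of_le_one_left (le_min hD.le (hχ _)) hrD).trans (min_le_right _ _)
          · rw [h4 _ hp, hr]
            exact mul_le_mul_of_nonneg_left (min_le_left _ _) (by positivity)
        have := mul_le_mul_of_nonneg_left (a1.trans (le_add_of_nonneg_right (g0 (b i)))) (hω i)
        linarith
      · simpa using mul_nonneg (hω i) (add_nonneg (g0 _) (g0 _))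
    refine le_trans ?_ (Finset.sum_le_sum fun i _ => key i)
    rw [← Finset.mul_sum, Finset.sum_sub_distrib]
    have e : 1 / (8 * Δ) = 1 / (4 * Δ) * (1 / 2) := by field_simp; norm_num
    rw [e, mul_assoc]
    exact mul_le_mul_of_nonneg_left (by linarith) (by positivity)

end Crest.Agent.N206.PL
end
end

-- ▼ part N206/PL/NeckIneq
section

/-!
# Row 206, S0317: bonds and the neck inequality (helper40)
-/

set_option autoImplicit false

noncomputable section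

open scoped Classical

namespace Crest.Agent.N206.PL

open Crest.GeometryTopology.GraphMetric Crest.Agent.R206.Iface534 SimpleGraph

namespace Nk

variable {V : Type} {G : SimpleGraph V} {ℓ : Sym2 V → ℝ} {δ : ℝ}

/-- the cut semimetric of a set -/
def ind (B : Set V) (x y : V) : ℝ := if (x ∈ B ↔ y ∈ B) then 0 else 1

theorem ind_nonneg (B : Set V) (x y : V) : 0 ≤ ind B x y := by unfold ind; split_ifs <;> norm_num
theorem ind_le (B : Set V) (x y : V) : ind B x y ≤ 1 := by unfold ind; split_ifs <;> norm_num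
theorem ind_compl (B : Set V) (x y : V) : ind Bᶜ x y = ind B x y := by simp [ind, not_iff_not]
theorem ind_symm (B : Set V) (x y : V) : ind B x y = ind B y x := by simp only [ind, iff_comm]
theorem ind_tri (B : Set V) (x y z : V) : ind B x z ≤ ind B x y + ind B y z := by
  by_cases hx : x ∈ B <;> by_cases hy : y ∈ B <;> by_cases hz : z ∈ B <;> simp [ind, hx, hy, hz]

theorem ind_walk (B : Set V) {a b u : V} (q : G.Walk a b) (hu : u ∈ q.support) :
    ind B a u ≤ (q.darts.map fun d => ind B d.fst d.snd).sum := by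
  induction q with
  | nil =>
    simp only [Walk.support_nil, List.mem_singleton] at hu
    simp [hu, ind]
  | @cons a c b h q ih =>
    simp only [Walk.darts_cons, List.map_cons, List.sum_cons]
    have h0 : 0 ≤ (q.darts.map fun d => ind B d.fst d.snd).sum :=
      List.sum_nonneg fun t ht => by
        obtain ⟨d, -, rfl⟩ := List.mem_map.1 ht
        exact ind_nonneg _ _ _
    simp only [Walk.support_cons, List.mem_cons] at hu
    rcases hu with rfl | hu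
    · have : ind B u u = 0 := by simp [ind]
      linarith [ind_nonneg B u c]
    · linarith [ind_tri B a c u, ih hu]

theorem sum_le_of_unique {α : Type} (s : Finset α) (r : α → Prop) [DecidablePred r] {c : ℝ}
    (hc : 0 ≤ c)
    (h : ∀ a b, r a → r b → a = b) : ∑ a ∈ s, (if r a then c else 0) ≤ c := by
  by_cases he : ∃ a, r a
  · obtain ⟨a, ha⟩ := he
    have : ∀ b ∈ s, (if r b then c else 0) = if b = a then c else 0 := fun b _ => by
      by_cases hb : b = a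
      · simp [hb, ha]
      · rw [if_neg hb, if_neg fun h' => hb (h _ _ h' ha)]
    rw [Finset.sum_congr rfl this, Finset.sum_ite_eq']
    split_ifs <;> simp [hc]
  · push Not at he
    simp [he, hc]

section bonds
variable [Fintype V]

/-- the components of `U` -/
def comps (G : SimpleGraph V) (U : Set V) : Finset (Set V) :=
  (Finset.univ.filter (· ∈ U)).image (cmp G U)

theorem mem_comps {U A : Set V} : A ∈ comps G U ↔ ∃ z ∈ U, cmp G U z = A := by simp [comps]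

theorem comps_ge (U : Set V) (x y : V) : ind U x y ≤ ∑ A ∈ comps G U, ind A x y := by
  have key : ∀ x y, x ∈ U → y ∉ U → 1 ≤ ∑ A ∈ comps G U, ind A x y := fun x y hx hy => by
    refine le_trans ?_ (Finset.single_le_sum (f := fun A => ind A x y)
      (fun A _ => ind_nonneg A x y) (mem_comps.2 ⟨x, hx, rfl⟩))
    have : y ∉ cmp G U x := fun h => hy (cmp_sub _ _ h)
    simp [ind, this, mem_cmp_self hx]
  have h0 : 0 ≤ ∑ A ∈ comps G U, ind A x y := Finset.sum_nonneg fun A _ => ind_nonneg A x y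
  by_cases hx : x ∈ U <;> by_cases hy : y ∈ U
  · simpa [ind, hx, hy] using h0
  · exact (ind_le _ _ _).trans (key x y hx hy)
  · simp only [ind_symm _ x y]
    exact (ind_le _ _ _).trans (key y x hy hx)
  · simpa [ind, hx, hy] using h0

theorem comps_adj (U : Set V) {x y : V} (h : G.Adj x y) :
    ∑ A ∈ comps G U, ind A x y = ind U x y := by
  refine le_antisymm ?_ (comps_ge U x y)
  have key : ∀ x y, x ∈ U → y ∉ U → ∑ A ∈ comps G U, ind A x y ≤ ind U x y := fun x y hx hy => by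
    have h1 : ind U x y = 1 := by simp [ind, hx, hy]
    rw [h1]
    refine le_trans (Finset.sum_le_sum fun A hA => ?_)
      (sum_le_of_unique (comps G U) (fun A => A = cmp G U x) zero_le_one fun a b ha hb =>
        ha.trans hb.symm)
    obtain ⟨z, -, rfl⟩ := mem_comps.1 hA
    have hy' : y ∉ cmp G U z := fun h => hy (cmp_sub _ _ h)
    split_ifs with h2
    · exact ind_le _ _ _
    · have : x ∉ cmp G U z := fun h => h2 (cmp_eq h).symm
      simp [ind, this, hy']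
  by_cases hx : x ∈ U <;> by_cases hy : y ∈ U
  · refine (Finset.sum_eq_zero fun A hA => ?_).le.trans (ind_nonneg _ _ _)
    obtain ⟨z, -, rfl⟩ := mem_comps.1 hA
    exact if_pos ⟨fun h' => cmp_adj h' h hy, fun h' => cmp_adj h' h.symm hx⟩
  · exact key x y hx hy
  · simp only [ind_symm _ x y]
    exact key y x hy hx
  · refine (Finset.sum_eq_zero fun A hA => ?_).le.trans (ind_nonneg _ _ _)
    obtain ⟨z, -, rfl⟩ := mem_comps.1 hA
    exact if_pos ⟨fun h' => absurd (cmp_sub _ _ h') hx, fun h' => absurd (cmp_sub _ _ h') hy⟩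

omit [Fintype V] in
theorem cn_compl (hG : G.Connected) {A : Set V} (hA : Cn G A) (y : V) : Cn G (cmp G Aᶜ y)ᶜ := by
  obtain ⟨a, ha⟩ := hA.1
  have hAB : A ⊆ (cmp G Aᶜ y)ᶜ := fun v hv h => cmp_sub _ _ h hv
  refine Cn.of_root (hAB ha) fun v hv => ?_
  by_cases hvA : v ∈ A
  · exact hA.sub_cmp hAB ha hvA
  · obtain ⟨q⟩ := hG.preconnected v a
    obtain ⟨b, a', hba, q₁, q₂, -, ha', h1⟩ := first_exit q A hvA ⟨a, q.end_mem_support, ha⟩
    have h2 : ∀ u ∈ q₁.support, u ∈ (cmp G Aᶜ y)ᶜ := fun u hu h' =>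
      hv (cmp_trans h' (cmp_symm (support_sub_cmp q₁ h1 u hu)))
    exact cmp_trans (cmp_adj (hA.sub_cmp hAB ha ha') hba.symm (h2 b q₁.end_mem_support))
      (cmp_symm ⟨q₁, h2⟩)

theorem bondify (hG : G.Connected) {ρ : V → V → ℝ} (hρ : IsCut ρ) :
    ∃ (ι : Type) (s : Finset ι) (c : ι → ℝ) (B : ι → Set V), (∀ i ∈ s, 0 ≤ c i) ∧
      (∀ i ∈ s, Cn G (B i) ∧ Cn G (B i)ᶜ) ∧ (∀ x y, ρ x y ≤ ∑ i ∈ s, c i * ind (B i) x y) ∧
      ∀ x y, G.Adj x y → ∑ i ∈ s, c i * ind (B i) x y = ρ x y := by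
  obtain ⟨w, hw, e⟩ := hρ
  have e' : ∀ x y, ρ x y = ∑ U : Finset V, w U * ind (U : Set V) x y := fun x y => by
    rw [e, cutw]
    simp only [ind, Finset.mem_coe]
  refine ⟨Σ _ : Finset V, Σ _ : Set V, Set V,
    Finset.univ.sigma fun U => (comps G (U : Set V)).sigma fun A => comps G Aᶜ,
    fun t => w t.1, fun t => t.2.2, fun t _ => hw _, fun t ht => ?_, fun x y => ?_,
    fun x y h => ?_⟩
  · simp only [Finset.mem_sigma, Finset.mem_univ, true_and, mem_comps] at ht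
    obtain ⟨⟨z, hz, h1⟩, y, hy, h2⟩ := ht
    dsimp only
    rw [← h2]
    exact ⟨cn_cmp hy, cn_compl hG (h1 ▸ cn_cmp hz) y⟩
  · simp only [e', Finset.sum_sigma, ← Finset.mul_sum]
    refine Finset.sum_le_sum fun U _ => mul_le_mul_of_nonneg_left ?_ (hw U)
    refine (comps_ge (G := G) _ x y).trans (Finset.sum_le_sum fun A _ => ?_)
    rw [← ind_compl]
    exact comps_ge _ x y
  · simp only [e', Finset.sum_sigma, ← Finset.mul_sum, comps_adj _ h, ind_compl]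

end bonds

theorem cons_succ {P : Finset ℕ} {p a b : ℕ} (ha : Cons P p a) (hb : Cons P p b) : a = b :=
  le_antisymm (ha.2.2.2 b hb.2.1 hb.2.2.1) (hb.2.2.2 a ha.2.1 ha.2.2.1)

theorem cons_pred {P : Finset ℕ} {p a b : ℕ} (ha : Cons P a p) (hb : Cons P b p) : a = b := by
  rcases lt_trichotomy a b with h | h | h
  · exact absurd (ha.2.2.2 b hb.1 h) (not_le.2 hb.2.2.1)
  · exact h
  · exact absurd (hb.2.2.2 a ha.1 h) (not_le.2 ha.2.2.1)

/-- the neck inequality for one bond -/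
theorem bond_ineq (h : WG G ℓ δ) (Q : Geo G ℓ) {η s0 : ℝ} (hη : η ≤ 1 / 2) (S : Splits Q η s0)
    (N : ℕ → Set V) (hN : ∀ p ∈ S.P, p ≠ 0 → p ≠ Q.n →
      N p ⊆ bl G ℓ (Q.v p) (S.D p) ∧ Sep G (N p) (Q.v 0) (Q.v Q.n))
    (ok : ℕ → Prop) {B : Set V} (hB : Cn G B) (h0 : Q.v 0 ∈ B) :
    ∑ p ∈ S.P, ∑ p' ∈ S.P,
        (if Cons S.P p p' ∧ ok p ∧ ok p' then ind B (Q.v p) (Q.v p') else 0) ≤
      ind B (Q.v 0) (Q.v Q.n) +
        2 * ∑ p ∈ S.P, if ok p ∧ ∃ u ∈ N p, ind B (Q.v p) u = 1 then (1 : ℝ) else 0 := by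
  set spl : ℕ → Prop := fun p => ∃ u ∈ N p, ind B (Q.v p) u = 1 with hspl
  have core : ∀ a ∈ S.P, ∀ b ∈ S.P, a ≤ b → ¬ spl a → Q.v a ∉ B → Q.v b ∉ B := by
    intro a ha b hb hab hs haB hbB
    rcases hab.eq_or_lt with rfl | hab
    · exact haB hbB
    have hbn := S.le_n b hb
    obtain ⟨h1, h2⟩ := hN a ha (fun e => haB (e ▸ h0)) (by omega)
    obtain ⟨q₁, hq₁⟩ := hB.2 _ h0 _ hbB
    obtain ⟨q₂, -, hq₂⟩ := Q.walk hbn le_rfl
    obtain ⟨u, hu, huN⟩ := h2 (q₁.append q₂)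
    rcases (Walk.mem_support_append_iff _ _).1 hu with hu | hu
    · exact hs ⟨u, huN, by simp [ind, haB, hq₁ u hu]⟩
    · obtain ⟨k, hk1, hk2, rfl⟩ := (hq₂ u).1 hu
      have h3 := h1 huN
      rw [mem_bl, Q.dist a k (by omega) hk2] at h3
      have h4 := S.far a ha b hb hab.ne
      have h5 := Q.pos_lt h hab hbn
      have h6 := Q.pos_mono h hk1 hk2
      rw [abs_sub_comm, abs_of_pos (by linarith)] at h4
      nlinarith
  set s : ℕ → ℝ := fun p => if ok p ∧ spl p then 1 else 0 with hs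
  have s0 : ∀ p, 0 ≤ s p := fun p => by simp only [hs]; split_ifs <;> norm_num
  set J : ℕ × ℕ → Prop := fun t => Cons S.P t.1 t.2 ∧ ¬ spl t.2 ∧ Q.v t.1 ∈ B ∧ Q.v t.2 ∉ B with hJ
  have h1 : ∀ p ∈ S.P, ∀ p' ∈ S.P,
      (if Cons S.P p p' ∧ ok p ∧ ok p' then ind B (Q.v p) (Q.v p') else 0) ≤
        (if J (p, p') then ind B (Q.v 0) (Q.v Q.n) else 0) + (if Cons S.P p p' then s p else 0) +
          if Cons S.P p p' then s p' else 0 := by
    intro p hp p' hp'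
    have a1 : 0 ≤ if J (p, p') then ind B (Q.v 0) (Q.v Q.n) else 0 := by
      split_ifs; exacts [ind_nonneg _ _ _, le_rfl]
    by_cases hc : Cons S.P p p' ∧ ok p ∧ ok p'
    · rw [if_pos hc, if_pos hc.1, if_pos hc.1]
      have a2 := ind_le B (Q.v p) (Q.v p')
      by_cases s1 : spl p
      · have : s p = 1 := if_pos ⟨hc.2.1, s1⟩
        linarith [s0 p']
      by_cases s2 : spl p'
      · have : s p' = 1 := if_pos ⟨hc.2.2, s2⟩
        linarith [s0 p]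
      by_cases b1 : Q.v p ∈ B
      · by_cases b2 : Q.v p' ∈ B
        · have : ind B (Q.v p) (Q.v p') = 0 := by simp [ind, b1, b2]
          linarith [s0 p, s0 p']
        · have hn := core p' hp' _ S.n_mem (S.le_n _ hp') s2 b2
          have : ind B (Q.v 0) (Q.v Q.n) = 1 := by simp [ind, h0, hn]
          rw [if_pos (show J (p, p') from ⟨hc.1, s2, b1, b2⟩)]
          linarith [s0 p, s0 p']
      · have b2 := core p hp p' hp' hc.1.2.2.1.le s1 b1
        have : ind B (Q.v p) (Q.v p') = 0 := by simp [ind, b1, b2]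
        linarith [s0 p, s0 p']
    · rw [if_neg hc]
      have a2 : 0 ≤ if Cons S.P p p' then s p else 0 := by split_ifs; exacts [s0 _, le_rfl]
      have a3 : 0 ≤ if Cons S.P p p' then s p' else 0 := by split_ifs; exacts [s0 _, le_rfl]
      linarith
  refine (Finset.sum_le_sum fun p hp => Finset.sum_le_sum fun p' hp' => h1 p hp p' hp').trans ?_
  simp only [Finset.sum_add_distrib]
  have b1 : ∑ p ∈ S.P, ∑ p' ∈ S.P, (if J (p, p') then ind B (Q.v 0) (Q.v Q.n) else 0) ≤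
      ind B (Q.v 0) (Q.v Q.n) := by
    rw [← Finset.sum_product (f := fun t => if J t then ind B (Q.v 0) (Q.v Q.n) else 0)]
    refine sum_le_of_unique _ J (ind_nonneg _ _ _) ?_
    have lt : ∀ a b, J a → J b → ¬ a.1 < b.1 := fun a b ha hb hlt =>
      core a.2 ha.1.2.1 b.1 hb.1.1 (ha.1.2.2.2 _ hb.1.1 hlt) ha.2.1 ha.2.2.2 hb.2.2.1
    rintro ⟨a, a'⟩ ⟨b, b'⟩ ha hb
    obtain rfl : a = b := le_antisymm (not_lt.1 (lt _ _ hb ha)) (not_lt.1 (lt _ _ ha hb))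
    exact Prod.ext rfl (cons_succ ha.1 hb.1)
  have b2 : ∑ p ∈ S.P, ∑ p' ∈ S.P, (if Cons S.P p p' then s p else 0) ≤ ∑ p ∈ S.P, s p :=
    Finset.sum_le_sum fun p _ => sum_le_of_unique _ _ (s0 p) fun _ _ => cons_succ
  have b3 : ∑ p ∈ S.P, ∑ p' ∈ S.P, (if Cons S.P p p' then s p' else 0) ≤ ∑ p ∈ S.P, s p := by
    rw [Finset.sum_comm]
    exact Finset.sum_le_sum fun p _ => sum_le_of_unique _ _ (s0 p) fun _ _ => cons_pred
  linarith

theorem darts_sum {ι : Type} (s : Finset ι) (c : ι → ℝ) (B : ι → Set V) {ρ : V → V → ℝ}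
    (e : ∀ x y, G.Adj x y → ∑ i ∈ s, c i * ind (B i) x y = ρ x y) {K : ℝ} {a b : V}
    (q : G.Walk a b) (hK : ∀ x ∈ q.support, ∀ y ∈ q.support, G.Adj x y → ρ x y ≤ K * ℓ s(x, y)) :
    ∑ i ∈ s, c i * (q.darts.map fun d => ind (B i) d.fst d.snd).sum ≤ K * wl ℓ q := by
  induction q with
  | nil => simp
  | @cons a c' b h q ih =>
    simp only [Walk.darts_cons, List.map_cons, List.sum_cons, mul_add, Finset.sum_add_distrib,
      wl_cons, e _ _ h]
    exact add_le_add (hK a (by simp) c' (by simp) h)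
      (ih fun x hx y hy => hK x (by simp [hx]) y (by simp [hy]))

end Nk

open Nk in
theorem neckIneq (hN : NeckStmt) : NeckIneqStmt := by
  intro V _ G ℓ δ h hM ρ hρ
  obtain ⟨ι, s, c, B, hc, hB, hge, hadj⟩ := bondify h.conn hρ
  refine ⟨fun x y => ∑ i ∈ s, c i * ind (B i) x y,
    IsCut.sum s _ fun i hi => (IsCut.one (B i)).smul (hc i hi), hadj, ?_⟩
  intro Q η s0 hη hη2 hs0 S K Dm hot hK hDm hρK hcold
  have hneck : ∀ p, ∃ (a b : V) (P₁ : G.Walk (Q.v p) a) (P₂ : G.Walk (Q.v p) b), p ∈ S.P →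
      wl ℓ P₁ ≤ S.D p ∧ wl ℓ P₂ ≤ S.D p ∧ (p ≠ 0 → p ≠ Q.n →
        Sep G {v | v ∈ P₁.support ∨ v ∈ P₂.support} (Q.v 0) (Q.v Q.n)) := by
    intro p
    by_cases hp : p ∈ S.P ∧ p ≠ 0 ∧ p ≠ Q.n
    · obtain ⟨hp, h0, hn⟩ := hp
      have h1 := S.size p hp h0 hn
      have h2 := S.far p hp 0 S.zero_mem h0
      have h3 := S.far p hp _ S.n_mem hn
      rw [← Q.d_abs h (S.le_n p hp) (Nat.zero_le _)] at h2
      rw [← Q.d_abs h (S.le_n p hp) le_rfl] at h3
      have h4 := h.nonneg (Q.v p) (Q.v 0)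
      have h5 := h.nonneg (Q.v p) (Q.v Q.n)
      obtain ⟨a, b, P₁, P₂, e1, e2, e3⟩ := hN V G ℓ δ h hM (Q.v p) (Q.v 0) (Q.v Q.n) (S.D p)
        (by linarith) (by nlinarith) (by nlinarith) (S.sep p hp h0 hn)
      exact ⟨a, b, P₁, P₂, fun _ => ⟨e1, e2, fun _ _ => e3⟩⟩
    · refine ⟨_, _, Walk.nil, Walk.nil, fun hp' => ?_⟩
      have : S.D p = 0 := by
        by_cases h0 : p = 0
        · rw [h0, S.D_zero]
        · by_cases hn : p = Q.n
          · rw [hn, S.D_n]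
          · exact absurd ⟨hp', h0, hn⟩ hp
      exact ⟨by simp [this], by simp [this], fun h0 hn => absurd ⟨hp', h0, hn⟩ hp⟩
  choose a b P₁ P₂ hP using hneck
  set N : ℕ → Set V := fun p => {v | v ∈ (P₁ p).support ∨ v ∈ (P₂ p).support} with hNd
  have hball : ∀ p ∈ S.P, N p ⊆ bl G ℓ (Q.v p) (S.D p) := fun p hp v hv => by
    rcases hv with hv | hv
    · exact (h.mem_left _ hv).trans (hP p hp).1
    · exact (h.mem_left _ hv).trans (hP p hp).2.1
  have key : ∀ i ∈ s, ∑ p ∈ S.P, ∑ p' ∈ S.P,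
      (if Cons S.P p p' ∧ S.D p ≤ Dm ∧ S.D p' ≤ Dm then ind (B i) (Q.v p) (Q.v p') else 0) ≤
      ind (B i) (Q.v 0) (Q.v Q.n) + 2 * ∑ p ∈ S.P,
        if S.D p ≤ Dm ∧ ∃ u ∈ N p, ind (B i) (Q.v p) u = 1 then (1 : ℝ) else 0 := by
    intro i hi
    by_cases h0 : Q.v 0 ∈ B i
    · convert bond_ineq h Q hη2 S N (fun p hp h0 hn => ⟨hball p hp, (hP p hp).2.2 h0 hn⟩)
          (fun p => S.D p ≤ Dm) (hB i hi).1 h0
    · simpa only [ind_compl] using
        bond_ineq h Q hη2 S N (fun p hp h0 hn => ⟨hball p hp, (hP p hp).2.2 h0 hn⟩)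
          (fun p => S.D p ≤ Dm) (hB i hi).2 h0
  have hspl : ∀ p ∈ S.P, ∑ i ∈ s, c i *
      (if S.D p ≤ Dm ∧ ∃ u ∈ N p, ind (B i) (Q.v p) u = 1 then (1 : ℝ) else 0) ≤
      2 * K * if S.D p ≤ Dm ∧ hot p then S.D p else 0 := by
    intro p hp
    by_cases hD : S.D p ≤ Dm
    swap
    · simp [hD]
    have nn : ∀ i {x y : V} (q : G.Walk x y),
        0 ≤ (q.darts.map fun d => ind (B i) d.fst d.snd).sum := fun i _ _ q =>
      List.sum_nonneg fun t ht => by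
        obtain ⟨d, -, rfl⟩ := List.mem_map.1 ht
        exact ind_nonneg _ _ _
    have h1 : ∑ i ∈ s, c i *
        (if S.D p ≤ Dm ∧ ∃ u ∈ N p, ind (B i) (Q.v p) u = 1 then (1 : ℝ) else 0) ≤
        ∑ i ∈ s, c i * ((P₁ p).darts.map fun d => ind (B i) d.fst d.snd).sum +
          ∑ i ∈ s, c i * ((P₂ p).darts.map fun d => ind (B i) d.fst d.snd).sum := by
      rw [← Finset.sum_add_distrib]
      refine Finset.sum_le_sum fun i hi => ?_
      rw [← mul_add]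
      refine mul_le_mul_of_nonneg_left ?_ (hc i hi)
      have n1 := nn i (P₁ p)
      have n2 := nn i (P₂ p)
      split_ifs with h2
      · obtain ⟨-, u, hu | hu, h3⟩ := h2
        · linarith [ind_walk (B i) _ hu]
        · linarith [ind_walk (B i) _ hu]
      · linarith
    refine h1.trans ?_
    by_cases hh : hot p
    · rw [if_pos ⟨hD, hh⟩]
      have d1 := darts_sum (ℓ := ℓ) s c B hadj (P₁ p) fun x _ y _ => hρK x y
      have d2 := darts_sum (ℓ := ℓ) s c B hadj (P₂ p) fun x _ y _ => hρK x y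
      nlinarith [mul_le_mul_of_nonneg_left (hP p hp).1 hK,
        mul_le_mul_of_nonneg_left (hP p hp).2.1 hK]
    · rw [if_neg fun h' => hh h'.2]
      have d1 := darts_sum (ℓ := ℓ) (K := 0) s c B hadj (P₁ p) fun x hx y hy hxy => by
        rw [hcold p hp hD hh x (hball p hp (Or.inl hx)) y (hball p hp (Or.inl hy)) hxy]; simp
      have d2 := darts_sum (ℓ := ℓ) (K := 0) s c B hadj (P₂ p) fun x hx y hy hxy => by
        rw [hcold p hp hD hh x (hball p hp (Or.inr hx)) y (hball p hp (Or.inr hy)) hxy]; simp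
      linarith
  calc _ ≤ ∑ p ∈ S.P, ∑ p' ∈ S.P, ∑ i ∈ s, c i *
        (if Cons S.P p p' ∧ S.D p ≤ Dm ∧ S.D p' ≤ Dm then ind (B i) (Q.v p) (Q.v p') else 0) := by
        refine Finset.sum_le_sum fun p _ => Finset.sum_le_sum fun p' _ => ?_
        split_ifs
        · exact hge _ _
        · simp
    _ = ∑ i ∈ s, c i * ∑ p ∈ S.P, ∑ p' ∈ S.P,
        (if Cons S.P p p' ∧ S.D p ≤ Dm ∧ S.D p' ≤ Dm then ind (B i) (Q.v p) (Q.v p') else 0) := by
        simp only [Finset.mul_sum]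
        exact (Finset.sum_congr rfl fun p _ => Finset.sum_comm).trans Finset.sum_comm
    _ ≤ ∑ i ∈ s, c i * (ind (B i) (Q.v 0) (Q.v Q.n) + 2 * ∑ p ∈ S.P,
        if S.D p ≤ Dm ∧ ∃ u ∈ N p, ind (B i) (Q.v p) u = 1 then (1 : ℝ) else 0) :=
        Finset.sum_le_sum fun i hi => mul_le_mul_of_nonneg_left (key i hi) (hc i hi)
    _ = ∑ i ∈ s, c i * ind (B i) (Q.v 0) (Q.v Q.n) + 2 * ∑ p ∈ S.P, ∑ i ∈ s, c i *
        (if S.D p ≤ Dm ∧ ∃ u ∈ N p, ind (B i) (Q.v p) u = 1 then (1 : ℝ) else 0) := by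
        simp only [mul_add, Finset.sum_add_distrib]
        congr 1
        rw [Finset.sum_comm, Finset.mul_sum]
        refine Finset.sum_congr rfl fun i _ => ?_
        rw [← Finset.mul_sum]; ring
    _ ≤ _ := by
        have := Finset.sum_le_sum hspl
        rw [← Finset.mul_sum] at this
        linarith

end Crest.Agent.N206.PL
end
end

-- ▼ part N206/PL/Split
section

/-! Row 206: existence of split points (greedy choice by increasing size). -/

set_option autoImplicit false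

open scoped Classical

namespace Crest.Agent.N206.PL

theorem exists_greedy {α : Type} (D : α → ℝ) (d : α → α → ℝ) (hd : ∀ a b, d a b = d b a)
    (T : Finset α) : ∃ P ⊆ T, (∀ p ∈ P, ∀ p' ∈ P, p ≠ p' → D p ≤ d p p') ∧
      ∀ i ∈ T, i ∉ P → ∃ p ∈ P, d p i < D i := by
  induction T using Finset.induction_on_max_value D with
  | empty => exact ⟨∅, by simp⟩
  | insert a s _ hmax ih =>
    obtain ⟨P, h1, h2, h3⟩ := ih
    by_cases h : ∃ p ∈ P, d p a < D a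
    · refine ⟨P, h1.trans (Finset.subset_insert _ _), h2, fun i hi hiP => ?_⟩
      rcases Finset.mem_insert.1 hi with rfl | hi
      exacts [h, h3 i hi hiP]
    · push Not at h
      refine ⟨insert a P, Finset.insert_subset_insert _ h1, fun p hp p' hp' hne => ?_,
        fun i hi hiP => ?_⟩
      · rcases Finset.mem_insert.1 hp with rfl | g <;> rcases Finset.mem_insert.1 hp' with rfl | g'
        exacts [absurd rfl hne, hd p' p ▸ h p' g', (hmax p (h1 g)).trans (h p g), h2 p g p' g' hne]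
      · rw [Finset.mem_insert, not_or] at hiP
        obtain ⟨p, hp, h4⟩ := h3 i ((Finset.mem_insert.1 hi).resolve_left hiP.1) hiP.2
        exact ⟨p, Finset.mem_insert_of_mem hp, h4⟩

theorem split : SplitStmt := by
  intro V _ G ℓ δ _ Q η s0 hη hs0
  set A : ℕ → Set ℝ := fun i => {r | s0 ≤ r ∧ Sep G (bl G ℓ (Q.v i) r) (Q.v 0) (Q.v Q.n)}
  have hm : ∀ i, ∃ m, (A i).Nonempty → m ∈ A i ∧ ∀ r ∈ A i, m ≤ 2 * r := fun i => by
    by_cases h : (A i).Nonempty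
    · have hb : BddBelow (A i) := ⟨s0, fun _ hr => hr.1⟩
      have h1 : s0 ≤ sInf (A i) := le_csInf h fun _ hr => hr.1
      obtain ⟨m, hm, h2⟩ := exists_lt_of_csInf_lt h (show sInf (A i) < 2 * sInf (A i) by linarith)
      exact ⟨m, fun _ => ⟨hm, fun r hr => by linarith [csInf_le hb hr]⟩⟩
    · exact ⟨0, fun h' => absurd h' h⟩
  choose m hm using hm
  obtain ⟨P, h1, h2, h3⟩ := exists_greedy (fun i => if i = 0 ∨ i = Q.n then 0 else m i)
    (fun p p' => η * |Q.pos p - Q.pos p'|) (fun a b => by rw [abs_sub_comm])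
    ((Finset.range (Q.n + 1)).filter fun i => (i = 0 ∨ i = Q.n) ∨ (A i).Nonempty)
  have hend : ∀ i, i = 0 ∨ i = Q.n → i ∈ P := fun i hi => by
    by_contra hP
    obtain ⟨p, -, hp⟩ := h3 i (Finset.mem_filter.2 ⟨Finset.mem_range.2 (by omega), Or.inl hi⟩) hP
    rw [if_pos hi] at hp
    exact absurd hp (not_lt.2 (by positivity))
  have hin : ∀ p ∈ P, p ≠ 0 → p ≠ Q.n → (if p = 0 ∨ p = Q.n then 0 else m p) ∈ A p :=
    fun p hp a b => by
      rw [if_neg (not_or.2 ⟨a, b⟩)]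
      exact (hm p ((Finset.mem_filter.1 (h1 hp)).2.resolve_left (not_or.2 ⟨a, b⟩))).1
  refine ⟨⟨P, _, fun p hp => Nat.lt_succ_iff.1 (Finset.mem_range.1 (Finset.mem_filter.1 (h1 hp)).1),
    hend 0 (Or.inl rfl), hend _ (Or.inr rfl), by simp, by simp, fun p hp a b => (hin p hp a b).1,
    fun p hp a b => (hin p hp a b).2, h2, fun i hi r hr hf hs => ?_⟩⟩
  by_cases hP : i ∈ P
  · have := hf i hP
    rw [sub_self, abs_zero, mul_zero] at this
    linarith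
  · obtain ⟨p, hp, h4⟩ := h3 i
      (Finset.mem_filter.2 ⟨Finset.mem_range.2 (by omega), Or.inr ⟨r, hr, hs⟩⟩) hP
    rw [if_neg fun h => hP (hend i h)] at h4
    linarith [hf p hp, (hm i ⟨r, hr, hs⟩).2 r ⟨hr, hs⟩]

end Crest.Agent.N206.PL
end

-- ▼ part N206/PL/Portal1
section

/-! # Row 206, S0317: portal lemma, part 1: walks inside a set, covers, cop decomposition (helper20) -/

set_option autoImplicit false

noncomputable section

open scoped Classical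

namespace Crest.Agent.N206.PL.Port

open Crest.GeometryTopology.GraphMetric Crest.Agent.R206.Iface534 SimpleGraph

variable {V : Type} {G : SimpleGraph V} {ℓ : Sym2 V → ℝ} {δ : ℝ}

/-- a walk from `x` to `y` inside `C` of length at most `r` -/
def In (G : SimpleGraph V) (ℓ : Sym2 V → ℝ) (C : Set V) (x y : V) (r : ℝ) : Prop :=
  ∃ p : G.Walk x y, (∀ v ∈ p.support, v ∈ C) ∧ wl ℓ p ≤ r

theorem wl_nil (x : V) : wl ℓ (Walk.nil : G.Walk x x) = 0 := by simp [wl]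

theorem wl_cons {x y z : V} (h : G.Adj x y) (p : G.Walk y z) :
    wl ℓ (Walk.cons h p) = ℓ s(x, y) + wl ℓ p := by simp [wl]

theorem wl_nn (h : WG G ℓ δ) {x y : V} (p : G.Walk x y) : 0 ≤ wl ℓ p := edges_sum_nonneg h.pos p


theorem In.refl {C : Set V} {x : V} (hx : x ∈ C) {r : ℝ} (hr : 0 ≤ r) : In G ℓ C x x r :=
  ⟨.nil, by simpa using hx, by rwa [wl_nil]⟩

theorem In.adj {C : Set V} {x y : V} (hx : x ∈ C) (hy : y ∈ C) (e : G.Adj x y) :
    In G ℓ C x y (ℓ s(x, y)) := ⟨.cons e .nil, by simp [hx, hy], by simp [wl]⟩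

theorem In.trans {C : Set V} {x y z : V} {r r' : ℝ} (h : In G ℓ C x y r) (h' : In G ℓ C y z r') :
    In G ℓ C x z (r + r') := by
  obtain ⟨p, h1, h2⟩ := h
  obtain ⟨q, h3, h4⟩ := h'
  refine ⟨p.append q, fun v hv => ?_, ?_⟩
  · rcases (Walk.mem_support_append_iff _ _).1 hv with hv | hv
    exacts [h1 v hv, h3 v hv]
  · simp only [wl, Walk.edges_append, List.map_append, List.sum_append] at h2 h4 ⊢
    linarith

theorem In.symm {C : Set V} {x y : V} {r : ℝ} (h : In G ℓ C x y r) : In G ℓ C y x r := by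
  obtain ⟨p, h1, h2⟩ := h
  refine ⟨p.reverse, fun v hv => h1 v (by simpa using hv), ?_⟩
  simpa only [wl, Walk.edges_reverse, List.map_reverse, List.sum_reverse] using h2

theorem In.mono {C C' : Set V} {x y : V} {r r' : ℝ} (h : In G ℓ C x y r) (hC : C ⊆ C')
    (hr : r ≤ r') : In G ℓ C' x y r' :=
  let ⟨p, h1, h2⟩ := h
  ⟨p, fun v hv => hC (h1 v hv), h2.trans hr⟩

theorem In.left {C : Set V} {x y : V} {r : ℝ} (h : In G ℓ C x y r) : x ∈ C :=
  let ⟨p, h1, _⟩ := h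
  h1 x p.start_mem_support

theorem In.right {C : Set V} {x y : V} {r : ℝ} (h : In G ℓ C x y r) : y ∈ C := h.symm.left

/-- a set closed under adjacency inside `C` -/
theorem In.closed {C U : Set V} (hU : ∀ y ∈ U, ∀ z ∈ C, G.Adj y z → z ∈ U) {x y : V} {r : ℝ}
    (h : In G ℓ C x y r) (hx : x ∈ U) : y ∈ U := by
  obtain ⟨p, h1, -⟩ := h
  induction p with
  | nil => exact hx
  | cons e p ih => exact ih (hU _ hx _ (h1 _ (by simp)) e) fun v hv => h1 v (by simp [hv])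

theorem in_support (h : WG G ℓ δ) {x y : V} (p : G.Walk x y) :
    ∀ z ∈ p.support, In G ℓ {v | v ∈ p.support} x z (wl ℓ p) := by
  induction p with
  | nil => intro z hz; obtain rfl : z = _ := by simpa using hz
           exact In.refl (by simp) (wl_nil _).ge
  | cons e p ih =>
    intro z hz
    rcases List.mem_cons.1 ((Walk.support_cons _ _) ▸ hz) with rfl | hz
    · exact In.refl (by simp) (wl_nn h _)
    · exact ((In.adj (by simp) (by simp) e).trans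
        ((ih z hz).mono (fun v hv => by simp [show v ∈ p.support from hv]) le_rfl)).mono subset_rfl
        (wl_cons _ _).ge

theorem In.dist (h : WG G ℓ δ) {C : Set V} {x y : V} {r : ℝ} (hi : In G ℓ C x y r) :
    wdist G ℓ x y ≤ r :=
  let ⟨p, _, h2⟩ := hi
  (wdist_le_walk h.pos p).trans h2

theorem exit (h : WG G ℓ δ) {C : Set V} {x a : V} (p : G.Walk x a) (hx : x ∈ C) (ha : a ∉ C) :
    ∃ y ∈ p.support, y ∉ C ∧ (∃ y' ∈ C, G.Adj y' y) ∧ In G ℓ (insert y C) x y (wl ℓ p) := by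
  induction p with
  | nil => exact absurd hx ha
  | @cons x x' a e p ih =>
    by_cases hx' : x' ∈ C
    · obtain ⟨y, h1, h2, h3, h4⟩ := ih hx' ha
      exact ⟨y, by simp [h1], h2, h3, ((In.adj (Set.mem_insert_of_mem _ hx)
        (Set.mem_insert_of_mem _ hx') e).trans h4).mono subset_rfl (wl_cons _ _).ge⟩
    · refine ⟨x', by simp, hx', ⟨x, hx, e⟩,
        (In.adj (Set.mem_insert_of_mem _ hx) (Set.mem_insert _ _) e).mono subset_rfl ?_⟩
      rw [wl_cons]; linarith [wl_nn h p]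

theorem In.least [Fintype V] (h : WG G ℓ δ) {C : Set V} {x y : V} {r : ℝ} (hi : In G ℓ C x y r) :
    ∃ r₀, IsLeast {r | In G ℓ C x y r} r₀ := by
  have key : ∀ r, In G ℓ C x y r → ∃ p : G.Path x y, (∀ v ∈ p.1.support, v ∈ C) ∧ wl ℓ p.1 ≤ r := by
    rintro r ⟨p, h1, h2⟩
    refine ⟨p.toPath, fun v hv => h1 v (p.support_toPath_subset_support hv), le_trans ?_ h2⟩
    refine (p.edges_bypass_sublist_edges.map ℓ).sum_le_sum fun a ha => ?_
    obtain ⟨e, he, rfl⟩ := List.mem_map.1 ha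
    exact (h.pos e (p.edges_subset_edgeSet he)).le
  obtain ⟨p, h1, -⟩ := key r hi
  obtain ⟨q, hq, hmin⟩ := Finset.exists_min_image
    (Finset.univ.filter fun p : G.Path x y => ∀ v ∈ p.1.support, v ∈ C) (fun p => wl ℓ p.1)
    ⟨p, by simpa using h1⟩
  refine ⟨wl ℓ q.1, ⟨q.1, by simpa using hq, le_rfl⟩, fun r hr => ?_⟩
  obtain ⟨p, h1, h2⟩ := key r hr
  exact (hmin p (by simpa using h1)).trans h2

/-- geodesics stay in the ball -/
theorem in_ball [Fintype V] (h : WG G ℓ δ) {x y : V} {D : ℝ} (hD : wdist G ℓ x y ≤ D) :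
    In G ℓ (bl G ℓ x D) x y D := by
  obtain ⟨p⟩ := h.conn.preconnected x y
  obtain ⟨r, ⟨q, -, h2⟩, h3⟩ := In.least h (C := Set.univ) ⟨p, by simp, le_rfl⟩
  have h4 : wl ℓ q ≤ D :=
    h2.trans ((le_wdist h.conn fun p => h3 ⟨p, by simp, le_rfl⟩).trans hD)
  exact ⟨q, fun v hv => ((in_support h q v hv).dist h).trans h4, h4⟩

/-- `R` is covered by `k` balls of radius `ε` -/
def Cov (G : SimpleGraph V) (ℓ : Sym2 V → ℝ) (R : Set V) (k : ℕ) (ε : ℝ) : Prop :=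
  ∃ H : Finset V, H.card ≤ k ∧ ∀ z ∈ R, ∃ g ∈ H, wdist G ℓ z g ≤ ε

theorem Cov.mono {R R' : Set V} {k k' : ℕ} {ε : ℝ} (h : Cov G ℓ R k ε) (hR : R' ⊆ R) (hk : k ≤ k') :
    Cov G ℓ R' k' ε :=
  let ⟨H, h1, h2⟩ := h
  ⟨H, h1.trans hk, fun z hz => h2 z (hR hz)⟩

theorem cov_biUnion {ι : Type} (I : Finset ι) (R : ι → Set V) {k : ℕ} {ε : ℝ}
    (h : ∀ i ∈ I, Cov G ℓ (R i) k ε) : Cov G ℓ {z | ∃ i ∈ I, z ∈ R i} (I.card * k) ε := by
  choose! H h1 h2 using h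
  refine ⟨I.biUnion H, Finset.card_biUnion_le_card_mul _ _ _ h1, ?_⟩
  rintro z ⟨i, hi, hz⟩
  obtain ⟨g, hg, h3⟩ := h2 i hi z hz
  exact ⟨g, Finset.mem_biUnion.2 ⟨i, hi, hg⟩, h3⟩

theorem cov_of_fun {R : Set V} (f : V → ℝ) {a L ε : ℝ} {N : ℕ} (hε : 0 < ε) (hN : L ≤ N * ε)
    (hf : ∀ z ∈ R, a ≤ f z ∧ f z ≤ a + L) (hd : ∀ z ∈ R, ∀ z' ∈ R, wdist G ℓ z z' ≤ |f z - f z'|) :
    Cov G ℓ R (N + 1) ε := by
  have := cov_biUnion (G := G) (ℓ := ℓ) (Finset.range (N + 1))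
    (fun i => {z | z ∈ R ∧ ⌊(f z - a) / ε⌋₊ = i}) (k := 1) (ε := ε) fun i _ => by
      by_cases hne : ∃ g, g ∈ R ∧ ⌊(f g - a) / ε⌋₊ = i
      · obtain ⟨g, hg, hi⟩ := hne
        refine ⟨{g}, by simp, fun z hz => ⟨g, by simp, (hd z hz.1 g hg).trans ?_⟩⟩
        have a1 := Nat.floor_le (div_nonneg (sub_nonneg.2 (hf z hz.1).1) hε.le)
        have a2 := Nat.floor_le (div_nonneg (sub_nonneg.2 (hf g hg).1) hε.le)
        have a3 := Nat.lt_floor_add_one ((f z - a) / ε)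
        have a4 := Nat.lt_floor_add_one ((f g - a) / ε)
        rw [hz.2] at a1 a3
        rw [hi] at a2 a4
        rw [le_div_iff₀ hε] at a1 a2
        rw [div_lt_iff₀ hε] at a3 a4
        rw [abs_le]
        constructor <;> linarith
      · exact ⟨∅, by simp, fun z hz => absurd ⟨z, hz⟩ hne⟩
  refine this.mono (fun z hz => ⟨_, ?_, hz, rfl⟩) (by simp)
  refine Finset.mem_range.2 (Nat.lt_succ_of_le (Nat.floor_le_of_le ?_))
  rw [div_le_iff₀ hε]
  linarith [(hf z hz).2]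

theorem walk_fun (h : WG G ℓ δ) {x y : V} (p : G.Walk x y) : ∃ f : V → ℝ,
    (∀ z ∈ p.support, wdist G ℓ x z ≤ f z ∧ f z ≤ wl ℓ p) ∧
    ∀ z ∈ p.support, ∀ z' ∈ p.support, wdist G ℓ z z' ≤ |f z - f z'| := by
  induction p with
  | nil => exact ⟨fun _ => 0, by simp [wdist_self h.conn h.pos, wl],
      by simp [wdist_self h.conn h.pos]⟩
  | @cons x x' y e p ih =>
    obtain ⟨f, h1, h2⟩ := ih
    have key : ∀ z ∈ (Walk.cons e p).support, z ≠ x → wdist G ℓ x z ≤ ℓ s(x, x') + f z :=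
      fun z hz hne => (wdist_triangle h.conn h.pos x x' z).trans
        (add_le_add (wdist_edge_le h.pos e) (h1 z (by simpa [hne] using hz)).1)
    refine ⟨fun z => if z = x then 0 else ℓ s(x, x') + f z, fun z hz => ?_, fun z hz z' hz' => ?_⟩
    · by_cases hx : z = x
      · simp only [hx, if_true, wdist_self h.conn h.pos, le_rfl, wl_nn h, and_self]
      · simp only [hx, if_false, wl_cons, add_le_add_iff_left]
        exact ⟨key z hz hx, (h1 z (by simpa [hx] using hz)).2⟩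
    · by_cases hx : z = x <;> by_cases hx' : z' = x <;> simp only [hx, hx', if_true, if_false]
      · simp [wdist_self h.conn h.pos]
      · rw [zero_sub, abs_neg]; exact (key z' hz' hx').trans (le_abs_self _)
      · rw [sub_zero, wdist_comm h.conn h.pos]; exact (key z hz hx).trans (le_abs_self _)
      · rw [add_sub_add_left_eq_sub]
        exact h2 z (by simpa [hx] using hz) z' (by simpa [hx'] using hz')

theorem cov_walk (h : WG G ℓ δ) {x y : V} (p : G.Walk x y) {ε : ℝ} {N : ℕ} (hε : 0 < ε)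
    (hN : wl ℓ p ≤ N * ε) : Cov G ℓ {v | v ∈ p.support} (N + 1) ε := by
  obtain ⟨f, h1, h2⟩ := walk_fun h p
  exact cov_of_fun f (a := 0) hε hN
    (fun z hz => ⟨(wdist_nonneg h.conn h.pos _ _).trans (h1 z hz).1, by simpa using (h1 z hz).2⟩) h2

theorem lip_walk {C : Set V} {f : V → ℝ}
    (hf : ∀ x ∈ C, ∀ y ∈ C, G.Adj x y → f y ≤ f x + ℓ s(x, y)) {x y : V} {r : ℝ}
    (hi : In G ℓ C x y r) : f y ≤ f x + r := by
  obtain ⟨p, h1, h2⟩ := hi
  refine le_trans ?_ (add_le_add_right h2 _)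
  clear h2
  induction p with
  | nil => simp [wl]
  | cons e p ih =>
    have a1 := ih fun v hv => h1 v (by simp [hv])
    have a2 := hf _ (h1 _ (by simp)) _ (h1 _ (by simp)) e
    rw [wl_cons]; linarith

theorem tight_walk (h : WG G ℓ δ) {C : Set V} {f : V → ℝ}
    (hf : ∀ x ∈ C, ∀ y ∈ C, G.Adj x y → f y ≤ f x + ℓ s(x, y)) {x y : V} (p : G.Walk x y)
    (hp : ∀ v ∈ p.support, v ∈ C) (ht : f x + wl ℓ p ≤ f y) :
    (∀ z ∈ p.support, wdist G ℓ x z ≤ f z - f x) ∧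
    ∀ z ∈ p.support, ∀ z' ∈ p.support, wdist G ℓ z z' ≤ |f z - f z'| := by
  induction p with
  | nil => simp [wdist_self h.conn h.pos]
  | @cons x x' y e p ih =>
    have hp' : ∀ v ∈ p.support, v ∈ C := fun v hv => hp v (by simp [hv])
    have a1 := lip_walk hf ⟨p, hp', le_rfl⟩
    have a2 := hf _ (hp _ (by simp)) _ (hp _ (by simp)) e
    rw [wl_cons] at ht
    obtain ⟨h1, h2⟩ := ih hp' (by linarith)
    have key : ∀ z ∈ (Walk.cons e p).support, wdist G ℓ x z ≤ f z - f x := fun z hz => by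
      rcases List.mem_cons.1 ((Walk.support_cons _ _) ▸ hz) with rfl | hz
      · simp [wdist_self h.conn h.pos]
      · linarith [wdist_triangle h.conn h.pos x x' z, wdist_edge_le h.pos e, h1 z hz]
    refine ⟨key, fun z hz z' hz' => ?_⟩
    rcases List.mem_cons.1 ((Walk.support_cons _ _) ▸ hz) with rfl | hz1
    · rw [abs_sub_comm]; exact (key z' hz').trans (le_abs_self _)
    rcases List.mem_cons.1 ((Walk.support_cons _ _) ▸ hz') with rfl | hz2
    · rw [wdist_comm h.conn h.pos]; exact (key z hz).trans (le_abs_self _)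
    · exact h2 z hz1 z' hz2

/-- an intrinsic geodesic of `C` is thin -/
theorem exists_geo [Fintype V] (h : WG G ℓ δ) {C : Set V} (hC : Cn G C) {ρ b : V} (hρ : ρ ∈ C)
    (hb : b ∈ C) {r ε : ℝ} {N : ℕ} (hε : 0 < ε) (hN : 2 * r ≤ N * ε) :
    ∃ p : G.Walk ρ b, (∀ v ∈ p.support, v ∈ C) ∧
      ∀ x₀, Cov G ℓ {z | z ∈ p.support ∧ In G ℓ C x₀ z r} (N + 1) ε := by
  have hex : ∀ z ∈ C, ∃ r₀, IsLeast {r | In G ℓ C ρ z r} r₀ := fun z hz =>
    let ⟨p, hp⟩ := hC.2 ρ hρ z hz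
    In.least h ⟨p, hp, le_rfl⟩
  choose! f hf using hex
  have hl : ∀ x ∈ C, ∀ y ∈ C, G.Adj x y → f y ≤ f x + ℓ s(x, y) := fun x hx y hy e =>
    (hf y hy).2 ((hf x hx).1.trans (In.adj hx hy e))
  obtain ⟨p, h1, h2⟩ := (hf b hb).1
  have h0 : f ρ ≤ 0 := (hf ρ hρ).2 (In.refl hρ le_rfl)
  refine ⟨p, h1, fun x₀ => cov_of_fun f (a := f x₀ - r) hε hN (fun z hz => ?_)
    fun z hz z' hz' => (tight_walk h hl p h1 (by linarith)).2 z hz.1 z' hz'.1⟩
  constructor <;> linarith [lip_walk hl hz.2, lip_walk hl hz.2.symm]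

theorem cn_of_in {C : Set V} {ρ : V} (hρ : ρ ∈ C) (h : ∀ z ∈ C, ∃ r, In G ℓ C ρ z r) : Cn G C :=
  ⟨⟨ρ, hρ⟩, fun x hx y hy =>
    let ⟨_, h1⟩ := h x hx
    let ⟨_, h2⟩ := h y hy
    let ⟨p, hp, _⟩ := h1.symm.trans h2
    ⟨p, hp⟩⟩

theorem clique_le (hM : MF G) (𝒳 : Finset (Set V)) (h1 : ∀ X ∈ 𝒳, Cn G X)
    (h2 : ∀ X ∈ 𝒳, ∀ Y ∈ 𝒳, X ≠ Y → Disjoint X Y ∧ Tch G X Y) : 𝒳.card ≤ 4 := by
  by_contra hc
  obtain ⟨f, hf⟩ := Function.Embedding.exists_of_card_le_finset (α := Fin 5) (s := 𝒳)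
    (by simp; omega)
  have hm : ∀ i, f i ∈ 𝒳 := fun i => hf ⟨i, rfl⟩
  exact hM.k5 f (fun i => h1 _ (hm i)) (fun i j e => (h2 _ (hm i) _ (hm j) (f.injective.ne e)).1)
    fun i j e => (h2 _ (hm i) _ (hm j) (f.injective.ne e)).2

theorem Tch_symm {A B : Set V} (h : Tch G A B) : Tch G B A :=
  let ⟨a, ha, b, hb, e⟩ := h
  ⟨b, hb, a, ha, e.symm⟩

/-- component of `y` in `S` -/
def cp (G : SimpleGraph V) (ℓ : Sym2 V → ℝ) (S : Set V) (y : V) : Set V := {z | ∃ r, In G ℓ S y z r}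

theorem cp_sub {S : Set V} {y : V} : cp G ℓ S y ⊆ S := fun _ ⟨_, h⟩ => h.right

theorem mem_cp {S : Set V} {y : V} (hy : y ∈ S) : y ∈ cp G ℓ S y := ⟨0, In.refl hy le_rfl⟩

theorem cp_adj {S : Set V} {y z z' : V} (hz : z ∈ cp G ℓ S y) (hz' : z' ∈ S) (e : G.Adj z z') :
    z' ∈ cp G ℓ S y :=
  let ⟨_, h⟩ := hz
  ⟨_, h.trans (In.adj h.right hz' e)⟩

theorem cp_eq {S : Set V} {y z : V} (hz : z ∈ cp G ℓ S y) : cp G ℓ S z = cp G ℓ S y :=
  let ⟨_, h⟩ := hz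
  Set.ext fun _ => ⟨fun ⟨_, h'⟩ => ⟨_, h.trans h'⟩, fun ⟨_, h'⟩ => ⟨_, h.symm.trans h'⟩⟩

theorem cn_cp (h : WG G ℓ δ) {S : Set V} {y : V} (hy : y ∈ S) : Cn G (cp G ℓ S y) :=
  cn_of_in (ℓ := ℓ) (mem_cp hy) fun _ ⟨_, p, h1, _⟩ => ⟨_, p, fun v hv =>
    ⟨_, (in_support h p v hv).mono h1 le_rfl⟩, le_rfl⟩

end Crest.Agent.N206.PL.Port
end
end

-- ▼ part N206/PL/Portal
section

/-! # Row 206, S0317: the deterministic portal lemma (helper20; proof of helper55's note) -/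

set_option autoImplicit false

noncomputable section

open scoped Classical

namespace Crest.Agent.N206.PL.Port

open Crest.GeometryTopology.GraphMetric Crest.Agent.R206.Iface534 SimpleGraph

variable {V : Type} {G : SimpleGraph V} {ℓ : Sym2 V → ℝ} {δ : ℝ}

/-- the points of `K` reached through `C` within length `r` are covered by few balls -/
def Thin (G : SimpleGraph V) (ℓ : Sym2 V → ℝ) (r ε : ℝ) (N : ℕ) (C K : Set V) : Prop :=
  ∀ x₀, Cov G ℓ {z | z ∈ K ∧ In G ℓ (insert z C) x₀ z r} N ε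

theorem Thin.mono {r ε : ℝ} {N : ℕ} {C K C' K' : Set V} (h : Thin G ℓ r ε N C K) (hC : C' ⊆ C)
    (hK : K' ⊆ K) : Thin G ℓ r ε N C' K' := fun x₀ => (h x₀).mono
  (fun _ hz => ⟨hK hz.1, hz.2.mono (Set.insert_subset_insert hC) le_rfl⟩) le_rfl

/-- properties of the cop decomposition of `C` at `y` -/
structure Good (G : SimpleGraph V) (ℓ : Sym2 V → ℝ) (r ε : ℝ) (N : ℕ) (C : Set V) (dom : V → Set V)
    (y : V) : Prop where
  mem : y ∈ dom y
  sub : dom y ⊆ C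
  nest : ∀ y' ∈ dom y, dom y' ⊆ dom y
  up : ∀ y' ∈ dom y, ∀ z ∈ C, G.Adj y' z → z ∉ dom y → dom y ⊂ dom z
  out : ∀ x₀, Cov G ℓ {z | z ∉ dom y ∧ (∃ y' ∈ dom y, G.Adj y' z) ∧
    In G ℓ (insert z (dom y)) x₀ z r} (3 * (4 * (N + 1))) ε
  node : Thin G ℓ r ε (4 * (N + 1)) (dom y) {z | z ∈ C ∧ dom z = dom y}

theorem decomp [Fintype V] (h : WG G ℓ δ) (hM : MF G) {r ε : ℝ} {N : ℕ} (hε : 0 < ε)
    (hN : 2 * r ≤ N * ε) (n : ℕ) : ∀ C : Set V, C.ncard < n → Cn G C → ∀ 𝒦 : Finset (Set V),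
    (∀ K ∈ 𝒦, Cn G K ∧ Disjoint K C ∧ Tch G K C ∧ Thin G ℓ r ε (4 * (N + 1)) C K) →
    (∀ K ∈ 𝒦, ∀ K' ∈ 𝒦, K ≠ K' → Disjoint K K' ∧ Tch G K K') →
    (∀ y ∈ C, ∀ z, G.Adj y z → z ∉ C → ∃ K ∈ 𝒦, z ∈ K) →
    ∃ dom : V → Set V, ∀ y ∈ C, Good G ℓ r ε N C dom y := by
  induction n with
  | zero => intro C hC; omega
  | succ n ih =>
  intro C hn hC 𝒦 h1 h2 h3
  obtain ⟨ρ, hρ⟩ := hC.1
  have hcard : 𝒦.card ≤ 3 := by
    have hnot : C ∉ 𝒦 := fun hm => Set.disjoint_left.1 (h1 C hm).2.1 hρ hρ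
    have := clique_le hM (insert C 𝒦) (fun X hX => by
      rcases Finset.mem_insert.1 hX with rfl | hX
      exacts [hC, (h1 X hX).1]) fun X hX Y hY hne => by
        rcases Finset.mem_insert.1 hX with rfl | hX' <;>
          rcases Finset.mem_insert.1 hY with rfl | hY'
        · exact absurd rfl hne
        · exact ⟨(h1 Y hY').2.1.symm, Tch_symm (h1 Y hY').2.2.1⟩
        · exact ⟨(h1 X hX').2.1, (h1 X hX').2.2.1⟩
        · exact h2 X hX' Y hY' hne
    rw [Finset.card_insert_of_notMem hnot] at this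
    omega
  have hb : ∀ K ∈ 𝒦, ∃ b ∈ C, ∃ a ∈ K, G.Adj a b := fun K hK =>
    let ⟨a, ha, b, hb, e⟩ := (h1 K hK).2.2.1
    ⟨b, hb, a, ha, e⟩
  have : Nonempty V := ⟨ρ⟩
  choose! b hbC hbK using hb
  set B : Finset V := insert ρ (𝒦.image b) with hB
  have hBC : ∀ x ∈ B, x ∈ C := fun x hx => by
    rcases Finset.mem_insert.1 hx with rfl | hx
    · exact hρ
    · obtain ⟨K, hK, rfl⟩ := Finset.mem_image.1 hx
      exact hbC K hK
  have hB4 : B.card ≤ 4 :=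
    (Finset.card_insert_le _ _).trans (by linarith [Finset.card_image_le (s := 𝒦) (f := b)])
  have hgeo : ∀ x ∈ B, ∃ P : Set V, P ⊆ C ∧ x ∈ P ∧ (∀ z ∈ P, ∃ s, In G ℓ P ρ z s) ∧
      ∀ x₀, Cov G ℓ {z | z ∈ P ∧ In G ℓ C x₀ z r} (N + 1) ε := fun x hx =>
    let ⟨p, g1, g2⟩ := exists_geo h hC hρ (hBC x hx) hε hN
    ⟨{v | v ∈ p.support}, g1, p.end_mem_support, fun z hz => ⟨_, in_support h p z hz⟩, g2⟩
  choose! P hP1 hP2 hP3 hP4 using hgeo
  set η : Set V := {z | ∃ x ∈ B, z ∈ P x} with hη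
  have hηC : η ⊆ C := fun z ⟨x, hx, hz⟩ => hP1 x hx hz
  have hρη : ρ ∈ η := ⟨ρ, Finset.mem_insert_self _ _, hP2 ρ (Finset.mem_insert_self _ _)⟩
  have hηcn : Cn G η := cn_of_in (ℓ := ℓ) hρη fun z ⟨x, hx, hz⟩ =>
    let ⟨s, hs⟩ := hP3 x hx z hz
    ⟨s, hs.mono (fun v hv => ⟨x, hx, hv⟩) le_rfl⟩
  have hηthin : Thin G ℓ r ε (4 * (N + 1)) C η := fun x₀ =>
    (cov_biUnion B _ fun x hx => hP4 x hx x₀).mono (fun z ⟨⟨x, hx, hz⟩, hi⟩ =>
      ⟨x, hx, hz, by rwa [Set.insert_eq_of_mem (hP1 x hx hz)] at hi⟩) (Nat.mul_le_mul_right _ hB4)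
  have hrec : ∀ C' : Set V, (∃ y ∈ C \ η, C' = cp G ℓ (C \ η) y) →
      ∃ dom : V → Set V, ∀ y ∈ C', Good G ℓ r ε N C' dom y := by
    rintro _ ⟨y, hy, rfl⟩
    have hsub : cp G ℓ (C \ η) y ⊆ C := cp_sub.trans Set.sdiff_subset
    have hmem : ∀ K ∈ (insert η 𝒦).filter fun K => Tch G K (cp G ℓ (C \ η) y),
        (K = η ∨ K ∈ 𝒦) ∧ Tch G K (cp G ℓ (C \ η) y) := fun K hK =>
      ⟨Finset.mem_insert.1 (Finset.mem_filter.1 hK).1, (Finset.mem_filter.1 hK).2⟩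
    have hηK : ∀ K ∈ 𝒦, Disjoint K η ∧ Tch G K η := fun K hK =>
      ⟨(h1 K hK).2.1.mono_right hηC,
        let ⟨a, ha, e⟩ := hbK K hK
        have hx := Finset.mem_insert_of_mem (b := ρ) (Finset.mem_image_of_mem b hK)
        ⟨a, ha, b K, ⟨b K, hx, hP2 _ hx⟩, e⟩⟩
    refine ih _ ?_ (cn_cp h hy) ((insert η 𝒦).filter fun K => Tch G K (cp G ℓ (C \ η) y))
      (fun K hK => ?_) (fun K hK K' hK' hne => ?_) fun y' hy' z e hz => ?_
    · have := Set.ncard_lt_ncard (s := cp G ℓ (C \ η) y) (t := C)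
        ⟨hsub, fun hh => (cp_sub (hh hρ)).2 hρη⟩
      omega
    · obtain ⟨rfl | hK', ht⟩ := hmem K hK
      · exact ⟨hηcn, Set.disjoint_left.2 fun z hz hz' => (cp_sub hz').2 hz, ht,
          hηthin.mono hsub subset_rfl⟩
      · exact ⟨(h1 K hK').1, (h1 K hK').2.1.mono_right hsub, ht,
          (h1 K hK').2.2.2.mono hsub subset_rfl⟩
    · obtain ⟨rfl | hK1, -⟩ := hmem K hK <;> obtain ⟨rfl | hK2, -⟩ := hmem K' hK'
      · exact absurd rfl hne
      · exact ⟨(hηK K' hK2).1.symm, Tch_symm (hηK K' hK2).2⟩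
      · exact hηK K hK1
      · exact h2 K hK1 K' hK2 hne
    · by_cases hzC : z ∈ C
      · have hzη : z ∈ η := by
          by_contra hh
          exact hz (cp_adj hy' ⟨hzC, hh⟩ e)
        exact ⟨η, Finset.mem_filter.2 ⟨Finset.mem_insert_self _ _, z, hzη, y', hy', e.symm⟩, hzη⟩
      · obtain ⟨K, hK, hzK⟩ := h3 y' (hsub hy') z e hzC
        exact ⟨K, Finset.mem_filter.2 ⟨Finset.mem_insert_of_mem hK, z, hzK, y', hy', e.symm⟩, hzK⟩
  choose! dd hdd using hrec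
  set dom : V → Set V := fun y => if y ∈ η then C else dd (cp G ℓ (C \ η) y) y with hdom
  have d1 : ∀ y ∈ η, dom y = C := fun y hy => if_pos hy
  have d2 : ∀ y ∈ C \ η, ∀ z ∈ cp G ℓ (C \ η) y, dom z = dd (cp G ℓ (C \ η) y) z :=
    fun y _ z hz => by rw [← cp_eq hz]; exact if_neg (cp_sub hz).2
  have d3 : ∀ y ∈ C \ η, Good G ℓ r ε N (cp G ℓ (C \ η) y) (dd (cp G ℓ (C \ η) y)) y :=
    fun y hy => hdd _ ⟨y, hy, rfl⟩ y (mem_cp hy)
  have d4 : ∀ y ∈ C \ η, y ∈ dom y ∧ dom y ⊆ cp G ℓ (C \ η) y := fun y hy => by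
    rw [d2 y hy y (mem_cp hy)]; exact ⟨(d3 y hy).mem, (d3 y hy).sub⟩
  have d5 : ∀ y ∈ C \ η, dom y ⊂ C := fun y hy =>
    ⟨(d4 y hy).2.trans (cp_sub.trans Set.sdiff_subset), fun hh => (cp_sub ((d4 y hy).2 (hh hρ))).2 hρη⟩
  refine ⟨dom, fun y hy => ?_⟩
  by_cases hyη : y ∈ η
  · have e := d1 y hyη
    refine ⟨e ▸ hy, e.le, fun y' hy' => ?_, fun _ _ z hz _ hz' => absurd (e ▸ hz) hz',
      fun x₀ => ?_, ?_⟩
    · rw [e] at hy' ⊢
      by_cases hh : y' ∈ η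
      exacts [(d1 y' hh).le, (d5 y' ⟨hy', hh⟩).le]
    · rw [e]
      exact (cov_biUnion 𝒦 _ fun K hK => (h1 K hK).2.2.2 x₀).mono
        (fun z ⟨g1, ⟨y', g2, g3⟩, g4⟩ =>
          let ⟨K, hK, hz⟩ := h3 y' g2 z g3 g1
          ⟨K, hK, hz, g4⟩) (Nat.mul_le_mul_right _ hcard)
    · rw [e]
      refine hηthin.mono subset_rfl fun z hz => ?_
      by_contra hh
      exact (d5 z ⟨hz.1, hh⟩).ne hz.2
  · have hy' : y ∈ C \ η := ⟨hy, hyη⟩
    have g := d3 y hy'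
    have e := d2 y hy' y (mem_cp hy')
    refine ⟨(d4 y hy').1, (d5 y hy').le, fun y' h' => ?_, fun y' h' z hz a hz' => ?_, ?_, ?_⟩
    · rw [d2 y hy' y' ((d4 y hy').2 h'), e]
      exact g.nest y' (e ▸ h')
    · by_cases hh : z ∈ η
      · rw [d1 z hh]; exact d5 y hy'
      · have hz2 := cp_adj ((d4 y hy').2 h') ⟨hz, hh⟩ a
        rw [d2 y hy' z hz2, e]
        exact g.up y' (e ▸ h') z hz2 a (e ▸ hz')
    · rw [e]; exact g.out
    · rw [e]
      refine g.node.mono subset_rfl fun z hz => ?_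
      have hh : z ∉ η := fun hh => (d5 y hy').ne (e.trans (hz.2.symm.trans (d1 z hh)))
      have hz2 : z ∈ cp G ℓ (C \ η) y := g.sub (hz.2 ▸ (d4 z ⟨hz.1, hh⟩).1)
      exact ⟨hz2, (d2 y hy' z hz2).symm.trans hz.2⟩

/-- size of the hitting sets -/
def hitM (k : ℕ) : ℕ → ℕ
  | 0 => 0
  | s + 1 => k + k + k * hitM k s

/-- the induction on cores -/
theorem hit (h : WG G ℓ δ) {ι : Type} (v : ι → V) (C R Γ : ι → Set V) (rk : ι → ℕ) {k : ℕ} {ε : ℝ}
    (hε : 0 ≤ ε) (h0 : ∀ I, ∀ z ∈ R I, z ∉ C I) (h1 : ∀ I, Cov G ℓ (R I) k ε)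
    (h2 : ∀ I, Cov G ℓ (Γ I) k ε)
    (h3 : ∀ I, ∀ y ∈ Γ I, bl G ℓ y (6 * ε) ⊆ C I ∨ wdist G ℓ (v I) y ≤ 12 * ε)
    (h4 : ∀ I₀, ∃ H : Finset V, H.card ≤ k ∧ ∀ I, rk I₀ ≤ rk I →
      (∃ g ∈ H, wdist G ℓ (v I) g ≤ 24 * ε) ∨ ∃ y ∈ Γ I₀, y ∈ R I) (s : ℕ) :
    ∀ W : Finset V, W.card + s = k + 1 → (∀ w ∈ W, ∀ w' ∈ W, w ≠ w' → 4 * ε < wdist G ℓ w w') →
    ∀ F : Set ι, (∀ I ∈ F, ∀ w ∈ W, ∃ z ∈ R I, wdist G ℓ z w ≤ ε) →
    ∃ H : Finset V, H.card ≤ hitM k s ∧ ∀ I ∈ F, ∃ g ∈ H, wdist G ℓ (v I) g ≤ 24 * ε := by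
  have tri := wdist_triangle h.conn h.pos
  have com := wdist_comm h.conn h.pos
  induction s with
  | zero =>
    intro W hW hsep F hF
    refine ⟨∅, le_rfl, fun I hI => absurd hW ?_⟩
    obtain ⟨H, g1, g2⟩ := h1 I
    have hex : ∀ w ∈ W, ∃ g ∈ H, wdist G ℓ w g ≤ 2 * ε := fun w hw => by
      obtain ⟨z, hz, a1⟩ := hF I hI w hw
      obtain ⟨g, hg, a2⟩ := g2 z hz
      exact ⟨g, hg, by linarith [tri w z g, com w z]⟩
    have : Nonempty V := ⟨v I⟩
    choose! g hg hg' using hex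
    have := Finset.card_le_card_of_injOn g hg fun w hw w' hw' e => by
      by_contra hne
      have a1 := hg' w hw
      rw [e] at a1
      linarith [hsep w hw w' hw' hne, tri w (g w') w', com (g w') w', hg' w' hw']
    omega
  | succ s ih =>
    intro W hW hsep F hF
    set F' : Set ι := {I | I ∈ F ∧ ∀ w ∈ W, 24 * ε < wdist G ℓ (v I) w} with hF'
    have hdrop : ∀ I ∈ F, I ∉ F' → ∃ g ∈ W, wdist G ℓ (v I) g ≤ 24 * ε := fun I hI hI' => by
      by_contra hh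
      push Not at hh
      exact hI' ⟨hI, hh⟩
    rcases F'.eq_empty_or_nonempty with he | hne
    · exact ⟨W, by rw [hitM]; omega, fun I hI => hdrop I hI (by simp [he])⟩
    obtain ⟨I₀, hI₀, hmin⟩ := (measure rk).wf.has_min F' hne
    obtain ⟨H₀, a1, a2⟩ := h4 I₀
    obtain ⟨G₀, b1, b2⟩ := h2 I₀
    have hex : ∀ g, ∃ H : Finset V, H.card ≤ hitM k s ∧ ∀ I ∈ F',
        (∃ y ∈ Γ I₀, y ∈ R I ∧ wdist G ℓ y g ≤ ε) → ∃ g ∈ H, wdist G ℓ (v I) g ≤ 24 * ε := by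
      intro g
      by_cases hy : ∃ y ∈ Γ I₀, wdist G ℓ y g ≤ ε
      · obtain ⟨y, hy, hyg⟩ := hy
        have hfar : ∀ w ∈ W, 4 * ε < wdist G ℓ g w := fun w hw => by
          rcases h3 I₀ y hy with c | c
          · obtain ⟨z, hz, c1⟩ := hF I₀ hI₀.1 w hw
            have c2 : 6 * ε < wdist G ℓ y z := not_le.1 fun c2 => h0 I₀ z hz (c c2)
            linarith [tri y g z, tri g w z, com w z]
          · linarith [hI₀.2 w hw, tri (v I₀) y w, tri y g w]
        have hgW : g ∉ W := fun hg => by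
          linarith [hfar g hg, wdist_self h.conn h.pos g]
        obtain ⟨H, c1, c2⟩ := ih (insert g W) (by rw [Finset.card_insert_of_notMem hgW]; omega)
          (fun w hw w' hw' hne => by
            rcases Finset.mem_insert.1 hw with rfl | hw1 <;>
              rcases Finset.mem_insert.1 hw' with rfl | hw2
            · exact absurd rfl hne
            · exact hfar w' hw2
            · rw [com]; exact hfar w hw1
            · exact hsep w hw1 w' hw2 hne)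
          {I | I ∈ F' ∧ ∃ y ∈ Γ I₀, y ∈ R I ∧ wdist G ℓ y g ≤ ε} fun I hI w hw => by
            rcases Finset.mem_insert.1 hw with rfl | hw
            · obtain ⟨y, -, c⟩ := hI.2
              exact ⟨y, c⟩
            · exact hF I hI.1.1 w hw
        exact ⟨H, c1, fun I hI hI' => c2 I ⟨hI, hI'⟩⟩
      · exact ⟨∅, Nat.zero_le _, fun I _ ⟨y, c1, _, c2⟩ => absurd ⟨y, c1, c2⟩ hy⟩
    choose H c1 c2 using hex
    refine ⟨W ∪ H₀ ∪ G₀.biUnion H, ?_, fun I hI => ?_⟩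
    · have e1 := Finset.card_union_le (W ∪ H₀) (G₀.biUnion H)
      have e2 := Finset.card_union_le W H₀
      have e3 := Finset.card_biUnion_le_card_mul G₀ H _ fun g _ => c1 g
      have e4 := Nat.mul_le_mul_right (hitM k s) b1
      rw [hitM]; omega
    by_cases hI' : I ∈ F'
    · rcases a2 I (not_lt.1 (hmin I hI')) with ⟨g, hg, c⟩ | ⟨y, hy, hyR⟩
      · exact ⟨g, by simp [hg], c⟩
      · obtain ⟨g, hg, c⟩ := b2 y hy
        obtain ⟨g', hg', c'⟩ := c2 g I hI' ⟨y, hy, hyR, c⟩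
        exact ⟨g', Finset.mem_union_right _ (Finset.mem_biUnion.2 ⟨g, hg, hg'⟩), c'⟩
    · obtain ⟨g, hg, c⟩ := hdrop I hI hI'
      exact ⟨g, by simp [hg], c⟩

theorem geo_in (Q : Geo G ℓ) {i j : ℕ} (hj : j ≤ Q.n) {a b : ℕ} (ha : i ≤ a) (hab : a ≤ b)
    (hb : b ≤ j) : In G ℓ {y | ∃ k, i ≤ k ∧ k ≤ j ∧ y = Q.v k} (Q.v a) (Q.v b) (Q.pos b - Q.pos a) := by
  induction b, hab using Nat.le_induction with
  | base => exact In.refl (by exact ⟨a, ha, hb, rfl⟩) (by simp)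
  | succ b hab ih =>
    refine ((ih (by omega)).trans (In.adj (by exact ⟨b, by omega, by omega, rfl⟩)
      (by exact ⟨b + 1, by omega, hb, rfl⟩) (Q.adj b (by omega)))).mono subset_rfl ?_
    rw [Q.step b (by omega)]; linarith

theorem geo_in' (h : WG G ℓ δ) (Q : Geo G ℓ) {i j : ℕ} (hj : j ≤ Q.n) {a b : ℕ} (ha : i ≤ a)
    (ha' : a ≤ j) (hb : i ≤ b) (hb' : b ≤ j) :
    In G ℓ {y | ∃ k, i ≤ k ∧ k ≤ j ∧ y = Q.v k} (Q.v a) (Q.v b) (Q.pos j - Q.pos i) := by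
  have mono : ∀ a b, a ≤ b → b ≤ j → Q.pos a ≤ Q.pos b := fun a b h1 h2 => by
    linarith [Q.dist a b h1 (h2.trans hj), wdist_nonneg h.conn h.pos (Q.v a) (Q.v b)]
  rcases le_total a b with hab | hab
  · exact (geo_in Q hj ha hab hb').mono subset_rfl (by linarith [mono i a ha ha', mono b j hb' le_rfl])
  · exact (geo_in Q hj hb hab ha').symm.mono subset_rfl
      (by linarith [mono i b hb hb', mono a j ha' le_rfl])

end Port

open Port Crest.GeometryTopology.GraphMetric Crest.Agent.R206.Iface534 in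
theorem portal : PortalStmt := by
  intro A
  obtain ⟨N, hN⟩ := exists_nat_ge (24 * (|A| + 2))
  refine ⟨hitM (3 * (4 * (N + 1))) (3 * (4 * (N + 1)) + 1), fun V _ G ℓ δ h hM D hD => ?_⟩
  have tri := wdist_triangle h.conn h.pos
  have com := wdist_comm h.conn h.pos
  have self := wdist_self h.conn h.pos
  have hε : 0 < D / 12 := by positivity
  have hA := abs_nonneg A
  have hN' : 2 * ((|A| + 2) * D) ≤ N * (D / 12) := by nlinarith
  obtain ⟨dom, hdom⟩ := decomp h hM hε hN' (Set.ncard (Set.univ : Set V) + 1) Set.univ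
    (Nat.lt_succ_self _) ⟨h.conn.nonempty.elim fun x => ⟨x, trivial⟩, fun x _ y _ =>
      (h.conn.preconnected x y).elim fun p => ⟨p, fun _ _ => trivial⟩⟩ ∅ (by simp) (by simp)
    (by simp)
  replace hdom := fun y => hdom y trivial
  have hex : ∀ y, ∃ a, wdist G ℓ y a ≤ D ∧ ∀ z, wdist G ℓ y z ≤ D → (dom z).ncard ≤ (dom a).ncard :=
    fun y => by
      obtain ⟨a, ha, hmax⟩ := Finset.exists_max_image (Finset.univ.filter fun z => wdist G ℓ y z ≤ D)
        (fun z => (dom z).ncard) ⟨y, by simp [self, hD.le]⟩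
      exact ⟨a, by simpa using ha, by simpa using hmax⟩
  choose a ha hmax using hex
  have hle : ∀ S : Set V, S.ncard ≤ Fintype.card V := fun S => by
    simpa [Set.ncard_univ] using Set.ncard_le_ncard (Set.subset_univ S)
  refine ⟨fun y => Fintype.card V - (dom (a y)).ncard, fun x₀ => ?_⟩
  let ι := {x : Geo G ℓ × ℕ × ℕ × ℕ × ℕ // x.2.1 ≤ x.2.2.2.1 ∧ x.2.2.2.1 ≤ x.2.2.1 ∧
    x.2.1 ≤ x.2.2.2.2 ∧ x.2.2.2.2 ≤ x.2.2.1 ∧ x.2.2.1 ≤ x.1.n ∧
    x.1.pos x.2.2.1 - x.1.pos x.2.1 ≤ A * D ∧ wdist G ℓ x₀ (x.1.v x.2.2.2.1) ≤ D / 2 ∧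
    ∀ k', x.2.1 ≤ k' → k' ≤ x.2.2.1 → Fintype.card V - (dom (a (x.1.v x.2.2.2.2))).ncard ≤
      Fintype.card V - (dom (a (x.1.v k'))).ncard}
  let v : ι → V := fun I => I.1.1.v I.1.2.2.2.2
  have key : ∀ I : ι, ∃ p : G.Walk x₀ (a (v I)), wl ℓ p ≤ (|A| + 2) * D ∧
      ∀ y ∈ p.support, y ∈ dom (a (v I)) ∧
        (bl G ℓ y (6 * (D / 12)) ⊆ dom (a (v I)) ∨ wdist G ℓ (v I) y ≤ 12 * (D / 12)) := by
    rintro ⟨⟨Q, i, j, k, m⟩, g1, g2, g3, g4, g5, g6, g7, g8⟩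
    dsimp only at g1 g2 g3 g4 g5 g6 g7 g8
    dsimp only [v]
    have hq : ∀ {b c}, i ≤ b → b ≤ j → i ≤ c → c ≤ j →
        In G ℓ {y | ∃ k, i ≤ k ∧ k ≤ j ∧ y = Q.v k} (Q.v b) (Q.v c) (|A| * D) :=
      fun b1 b2 c1 c2 => (geo_in' h Q g5 b1 b2 c1 c2).mono subset_rfl
        (g6.trans (by gcongr; exact le_abs_self A))
    have hin : ∀ k', i ≤ k' → k' ≤ j → bl G ℓ (Q.v k') D ⊆ dom (a (Q.v m)) := fun k' c1 c2 y hy => by
      have hS : ∀ k'', i ≤ k'' → k'' ≤ j →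
          bl G ℓ (Q.v k'') D ⊆ {z | (dom z).ncard ≤ (dom (a (Q.v m))).ncard} := fun k'' d1 d2 z hz => by
        have e1 := hmax _ z hz
        have e2 : Fintype.card V - (dom (a (Q.v m))).ncard ≤
          Fintype.card V - (dom (a (Q.v k''))).ncard := g8 k'' d1 d2
        have e3 := hle (dom (a (Q.v k'')))
        have e4 := hle (dom (a (Q.v m)))
        show (dom z).ncard ≤ _
        omega
      have w := (((in_ball h (ha (Q.v m))).symm.mono (hS m g3 g4) le_rfl).trans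
        ((hq g3 g4 c1 c2).mono (fun z ⟨k'', d1, d2, e⟩ => hS k'' d1 d2
          (show wdist G ℓ _ _ ≤ D by rw [e, self]; exact hD.le)) le_rfl)).trans
        ((in_ball h hy).mono (hS k' c1 c2) le_rfl)
      refine w.closed (fun y' hy' z hz e => ?_) (hdom _).mem
      by_contra hh
      exact absurd (Set.ncard_lt_ncard ((hdom _).up y' hy' z trivial e hh)) (not_lt.2 hz)
    have hb : ∀ k', i ≤ k' → k' ≤ j → bl G ℓ (Q.v k') (D / 2) ⊆ {y | y ∈ dom (a (Q.v m)) ∧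
        (bl G ℓ y (6 * (D / 12)) ⊆ dom (a (Q.v m)) ∨ wdist G ℓ (Q.v m) y ≤ 12 * (D / 12))} :=
      fun k' c1 c2 y (hy : wdist G ℓ _ _ ≤ _) =>
        ⟨hin k' c1 c2 (show wdist G ℓ _ _ ≤ D by linarith),
          Or.inl fun z (hz : wdist G ℓ _ _ ≤ _) => hin k' c1 c2
            (show wdist G ℓ _ _ ≤ D by linarith [tri (Q.v k') y z])⟩
    obtain ⟨p, c1, c2⟩ := (((in_ball h (com x₀ _ ▸ g7)).symm.mono (hb k g1 g2) le_rfl).trans
      ((hq g1 g2 g3 g4).mono (fun z ⟨k'', d1, d2, e⟩ => hb k'' d1 d2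
        (show wdist G ℓ _ _ ≤ D / 2 by rw [e, self]; positivity)) le_rfl)).trans
      ((in_ball h (ha (Q.v m))).mono (fun z (hz : wdist G ℓ _ _ ≤ _) =>
        ⟨hin m g3 g4 hz, Or.inr (by linarith)⟩) le_rfl)
    exact ⟨p, by linarith, c1⟩
  choose p hp1 hp2 using key
  obtain ⟨H, c1, c2⟩ := hit h v (fun I => dom (a (v I)))
    (fun I => {z | z ∉ dom (a (v I)) ∧ (∃ y' ∈ dom (a (v I)), G.Adj y' z) ∧
      In G ℓ (insert z (dom (a (v I)))) x₀ z ((|A| + 2) * D)})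
    (fun I => {y | y ∈ (p I).support}) (fun I => Fintype.card V - (dom (a (v I))).ncard) hε.le
    (fun _ _ hz => hz.1) (fun I => (hdom _).out x₀)
    (fun I => (cov_walk h (p I) hε (N := N) (by nlinarith [hp1 I])).mono subset_rfl (by omega))
    (fun I y hy => (hp2 I y hy).2)
    (fun I₀ => by
      obtain ⟨H, c1, c2⟩ := (hdom (a (v I₀))).node x₀
      refine ⟨H, by omega, fun I hI => ?_⟩
      by_cases hm : a (v I₀) ∈ dom (a (v I))
      · have e : dom (a (v I₀)) = dom (a (v I)) := by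
          have := hle (dom (a (v I)))
          exact Set.eq_of_subset_of_ncard_le ((hdom _).nest _ hm) (by omega)
        obtain ⟨g, hg, c⟩ := c2 (a (v I)) ⟨⟨trivial, e.symm⟩, p I,
          fun y hy => Set.mem_insert_of_mem _ (e ▸ (hp2 I y hy).1), hp1 I⟩
        exact Or.inl ⟨g, hg, by linarith [tri (v I) (a (v I)) g, ha (v I)]⟩
      · obtain ⟨y, d1, d2, d3, d4⟩ := exit h (p I₀) (hp2 I x₀ (p I).start_mem_support).1 hm
        exact Or.inr ⟨y, d1, d2, d3, d4.mono subset_rfl (hp1 I₀)⟩)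
    _ ∅ (zero_add _) (by simp) Set.univ (by simp)
  refine ⟨H, c1, fun Q i j k m g1 g2 g3 g4 g5 g6 g7 g8 => ?_⟩
  obtain ⟨g, hg, c⟩ := c2 ⟨⟨Q, i, j, k, m⟩, g1, g2, g3, g4, g5, g6, g7, g8⟩ trivial
  exact ⟨g, hg, c.trans_eq (by ring)⟩

end Crest.Agent.N206.PL
end
private theorem rz_09be0d99b7 : type_of% @_root_.Crest.Agent.N206.PL.Port.hitM.eq_def := @_root_.Crest.Agent.N206.PL.Port.hitM.eq_def -- L168
private theorem rz_1368507c20 : type_of% @_root_.Crest.Agent.N206.PL.Port.hitM.eq_1 := @_root_.Crest.Agent.N206.PL.Port.hitM.eq_1 -- L168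
end

-- ▼ part N206/PL/LemB
section

/-! # Row 206, S0317: Lemma B (helper6) -/

set_option autoImplicit false

open Finset SimpleGraph
open Crest.GeometryTopology.GraphMetric Crest.Agent.R206.Iface534 Crest.Agent.N206.Dual

namespace Crest.Agent.N206.PL

theorem lemB' : LemBStmt := by
  intro V _ G ℓ δ hG z T L e hT he hL ι _ en p m hm hen hp
  classical
  have : Nonempty (Σ τ : T, G.Path z τ) := by
    obtain ⟨τ, hτ⟩ := hT
    obtain ⟨q⟩ := hG.conn.preconnected z τ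
    exact ⟨⟨⟨τ, hτ⟩, q.toPath⟩⟩
  have h0 := ext0_nonneg hG.pos
  obtain ⟨x, μ, θ, x1, x2, h1, h2, -, h3, h4, h5, h6, h7⟩ := exists_opt (P := Unit)
    (Γ := fun _ => Σ τ : T, G.Path z τ) (fun _ g => cnt g.2.1) (fun _ => ∑ i, m i)
    (fun _ => sum_nonneg fun i _ => hm i) (fun ed => ∑ i, m i * cnt (p i) ed) (ext0 G ℓ)
    (fun ed => 2 * ext0 G ℓ ed) fun ed => by linarith [h0 ed]
  simp only [dot_cnt, Fintype.sum_unique] at h1 h2 h5 h6 h7
  have hx : ∀ ed ∈ G.edgeSet, ℓ ed ≤ x ed ∧ x ed ≤ 2 * ℓ ed := fun ed hed => by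
    rw [← ext0_eq ℓ ed hed]; exact ⟨x1 ed, x2 ed⟩
  have hxp : ∀ ed ∈ G.edgeSet, 0 < x ed := fun ed hed => (hG.pos ed hed).trans_le (hx ed hed).1
  have hw : ∀ τ ∈ T, ∀ q : G.Walk z τ, μ () ≤ wl x q := fun τ hτ q =>
    (h1 () ⟨⟨τ, hτ⟩, q.toPath⟩).trans (wl_toPath_le (fun ed hed => (hxp ed hed).le) q)
  have hlam : ∀ τ ∈ T, μ () ≤ wdist G x z τ := fun τ hτ => le_wdist hG.conn (hw τ hτ)
  refine ⟨x, μ (), hx, hlam, ?_, ?_⟩
  · obtain ⟨g, hg⟩ := h2 ()
    exact ⟨g.1, g.1.2, le_antisymm ((wdist_le_walk hxp g.2.1).trans_eq hg) (hlam _ g.1.2)⟩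
  set f : Sym2 V → ℝ := fun ed => ∑ i, m i * cnt (p i) ed with hf
  set f₁ : Sym2 V → ℝ := fun ed => ∑ g : Σ τ : T, G.Path z τ, θ () g * cnt g.2.1 ed with hf₁
  have hdot : ∀ y : Sym2 V → ℝ, y ⬝ᵥ f = ∑ i, m i * wl y (p i) := fun y => by
    simp only [hf, ← dot_cnt, dotProduct, mul_sum]
    rw [sum_comm]
    simp only [mul_left_comm]
  have hdot₁ : ∀ y : Sym2 V → ℝ, y ⬝ᵥ f₁ = ∑ g : Σ τ : T, G.Path z τ, θ () g * wl y g.2.1 :=
    fun y => by
      simp only [hf₁, ← dot_cnt, dotProduct, mul_sum]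
      rw [sum_comm]
      simp only [mul_left_comm]
  have e1 : x ⬝ᵥ f₁ ≤ x ⬝ᵥ f := by
    rw [hdot, hdot₁]
    calc _ = ∑ g : Σ τ : T, G.Path z τ, θ () g * μ () := sum_congr rfl fun g _ => by
          by_cases h : θ () g = 0
          · simp [h]
          · rw [h5 () g h]
      _ = ∑ i, m i * μ () := by rw [← sum_mul, h4, sum_mul]
      _ ≤ _ := sum_le_sum fun i _ => mul_le_mul_of_nonneg_left (hw _ (hen i) (p i)) (hm i)
  have e2 : ext0 G ℓ ⬝ᵥ f ≤ (∑ i, m i) * (L + e) := by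
    rw [hdot, sum_mul]
    exact sum_le_sum fun i _ => mul_le_mul_of_nonneg_left
      ((wl_congr (ext0_eq ℓ) _).trans_le (hp i)) (hm i)
  have e3 : (∑ i, m i) * L ≤ ext0 G ℓ ⬝ᵥ f₁ := by
    rw [hdot₁, ← h4 (), sum_mul]
    exact sum_le_sum fun g _ => mul_le_mul_of_nonneg_left (((hL _ g.1.2).trans
      (wdist_le_walk hG.pos g.2.1)).trans_eq (wl_congr (ext0_eq ℓ) _).symm) (h3 () g)
  have hf0 : ∀ ed, 0 ≤ f ed := fun ed => sum_nonneg fun i _ => mul_nonneg (hm i) (cnt_nonneg _ _)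
  have key : ∀ ed, (if ∀ v ∈ ed, ∃ τ ∈ T, wdist G x z v + wdist G x v τ ≤ μ () then 0
      else ext0 G ℓ ed) * f ed ≤ (x ed - 2 * ext0 G ℓ ed) * (f₁ ed - f ed) := by
    intro ed
    split_ifs with h
    · rw [zero_mul]
      rcases (x2 ed).eq_or_lt with h' | h'
      · rw [h', sub_self, zero_mul]
      · exact mul_nonneg_of_nonpos_of_nonpos (by linarith) (by linarith [h6 ed h'])
    · have : f₁ ed = 0 := by
        by_contra hne
        obtain ⟨g, -, hg⟩ := exists_ne_zero_of_sum_ne_zero hne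
        refine h fun v hv => ⟨g.1, g.1.2, ?_⟩
        have hv' : v ∈ g.2.1.support := by
          have := mem_of_cnt (right_ne_zero_of_mul hg)
          induction ed using Sym2.ind with
          | h a b =>
            rcases Sym2.mem_iff.1 hv with rfl | rfl
            exacts [g.2.1.fst_mem_support_of_mem_edges this, g.2.1.snd_mem_support_of_mem_edges this]
        rw [← h5 () g (left_ne_zero_of_mul hg), ← wl_split x g.2.1 hv']
        exact add_le_add (wdist_le_walk hxp _) (wdist_le_walk hxp _)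
      rcases (x1 ed).eq_or_lt with h' | h'
      · rw [this, ← h']; exact le_of_eq (by ring)
      · rw [this, show f ed = 0 from le_antisymm ((h7 ed h').trans_eq this) (hf0 ed)]; simp
  have e4 := sum_le_sum fun ed (_ : ed ∈ univ) => key ed
  have e5 : ∑ ed, (x ed - 2 * ext0 G ℓ ed) * (f₁ ed - f ed) =
      x ⬝ᵥ f₁ - x ⬝ᵥ f - 2 * (ext0 G ℓ ⬝ᵥ f₁) + 2 * (ext0 G ℓ ⬝ᵥ f) := by
    simp only [dotProduct, mul_sum, ← sum_sub_distrib, ← sum_add_distrib]
    exact sum_congr rfl fun ed _ => by ring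
  refine le_of_eq_of_le ?_ (e4.trans (by rw [e5]; linarith))
  refine Eq.trans ?_ (hdot _).symm
  refine sum_congr rfl fun i _ => congrArg _ (wl_congr (fun ed hed => ?_) _)
  rw [ext0_eq ℓ ed hed]


end Crest.Agent.N206.PL
end

-- ▼ part N206/PL/Protect/Line
section

/-!
# Row 206, S0317, `protect`: volumes on one line, segments, lexicographic argmin (helper39)
-/

set_option autoImplicit false

noncomputable section

open scoped Classical

namespace Crest.Agent.N206.PL.Prot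

open Crest.GeometryTopology.GraphMetric Crest.Agent.R206.Iface534 SimpleGraph Finset

variable {V : Type} {G : SimpleGraph V} {ℓ : Sym2 V → ℝ} {δ : ℝ}

/-- volume of a set of positions of one line -/
def lv (Q : Geo G ℓ) (A : ℕ → Prop) : ℝ := ∑ i ∈ range Q.n, if A i then Q.el i else 0

theorem vol_eq {ι : Type} [Fintype ι] (Q : ι → Geo G ℓ) (f : ι → ℝ) (A : ι → ℕ → Prop) :
    vol Q f A = ∑ q, f q * lv (Q q) (A q) := rfl

theorem lv_eq (Q : Geo G ℓ) (A : ℕ → Prop) [DecidablePred A] :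
    lv Q A = ∑ i ∈ range Q.n, if A i then Q.el i else 0 :=
  sum_congr rfl fun i _ => by by_cases h : A i <;> simp [h]

theorem lv_mono (h : WG G ℓ δ) (Q : Geo G ℓ) {A B : ℕ → Prop} (hAB : ∀ i < Q.n, A i → B i) :
    lv Q A ≤ lv Q B := by
  refine sum_le_sum fun i hi => ?_
  have hi' := mem_range.1 hi
  have := (Q.el_pos h hi').le
  by_cases hA : A i
  · simp [hA, hAB i hi' hA]
  · by_cases hB : B i <;> simp [hA, hB, this]

theorem lv_nonneg (h : WG G ℓ δ) (Q : Geo G ℓ) (A : ℕ → Prop) : 0 ≤ lv Q A :=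
  sum_nonneg fun i hi => by
    have := (Q.el_pos h (mem_range.1 hi)).le
    split_ifs <;> simp [this]

theorem lv_or (h : WG G ℓ δ) (Q : Geo G ℓ) {A B C : ℕ → Prop}
    (hABC : ∀ i < Q.n, A i → B i ∨ C i) : lv Q A ≤ lv Q B + lv Q C := by
  unfold lv
  rw [← sum_add_distrib]
  refine sum_le_sum fun i hi => ?_
  have hi' := mem_range.1 hi
  have := (Q.el_pos h hi').le
  have h1 := hABC i hi'
  by_cases hA : A i <;> by_cases hB : B i <;> by_cases hC : C i <;> simp_all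

theorem lv_empty (Q : Geo G ℓ) {A : ℕ → Prop} (hA : ∀ i < Q.n, ¬ A i) : lv Q A = 0 :=
  sum_eq_zero fun i hi => by simp [hA i (mem_range.1 hi)]

theorem lv_Ico (Q : Geo G ℓ) {i j : ℕ} (hij : i ≤ j) (hj : j ≤ Q.n) :
    lv Q (fun k => i ≤ k ∧ k < j) = Q.pos j - Q.pos i := by
  rw [← Q.sum_el hij, lv_eq, ← sum_filter]
  refine sum_congr ?_ fun _ _ => rfl
  ext k
  simp only [mem_filter, mem_range, mem_Ico]
  omega

theorem le_of_pos (h : WG G ℓ δ) (Q : Geo G ℓ) {i j : ℕ} (hi : i ≤ Q.n)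
    (hij : Q.pos i ≤ Q.pos j) : i ≤ j := by
  by_contra hc
  linarith [Q.pos_lt h (not_le.1 hc) hi]

theorem lt_of_pos (h : WG G ℓ δ) (Q : Geo G ℓ) {i j : ℕ} (hi : i ≤ Q.n)
    (hij : Q.pos i < Q.pos j) : i < j := by
  by_contra hc
  linarith [Q.pos_mono h (not_lt.1 hc) hi]

/-- upper bound for the volume of an interval -/
theorem lv_le (h : WG G ℓ δ) (hδ : 0 ≤ δ) (Q : Geo G ℓ) {A : ℕ → Prop} {a b : ℝ} (hab : a ≤ b)
    (hA : ∀ i < Q.n, A i → a ≤ Q.pos i ∧ Q.pos i ≤ b) : lv Q A ≤ b - a + δ := by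
  by_cases hne : ((range Q.n).filter A).Nonempty
  · obtain ⟨i, hi, himin⟩ := exists_min_image _ id hne
    obtain ⟨j, hj, hjmax⟩ := exists_max_image _ id hne
    simp only [mem_filter, mem_range, id] at hi hj himin hjmax
    have hij : i ≤ j := himin j hj
    have h1 : lv Q A ≤ lv Q fun k => i ≤ k ∧ k < j + 1 :=
      lv_mono h Q fun k hk hAk => ⟨himin k ⟨hk, hAk⟩, Nat.lt_succ_of_le (hjmax k ⟨hk, hAk⟩)⟩
    rw [lv_Ico Q (by omega) (by omega)] at h1
    have h2 := Q.el_le h hj.1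
    unfold Geo.el at h2
    linarith [(hA i hi.1 hi.2).1, (hA j hj.1 hj.2).2]
  · rw [lv_empty Q fun i hi hAi => hne ⟨i, by simp [hi, hAi]⟩]
    linarith

/-- the first index at distance at least `L` to the right -/
theorem exists_right (h : WG G ℓ δ) (hδ : 0 ≤ δ) (Q : Geo G ℓ) {a : ℕ} (ha : a ≤ Q.n) {L : ℝ}
    (hL : 0 ≤ L) (hn : Q.pos a + L ≤ Q.pos Q.n) :
    ∃ e, a ≤ e ∧ e ≤ Q.n ∧ Q.pos a + L ≤ Q.pos e ∧ Q.pos e ≤ Q.pos a + L + δ ∧
      ∀ k, a ≤ k → k < e → Q.pos k < Q.pos a + L := by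
  have hex : ∃ e, a ≤ e ∧ Q.pos a + L ≤ Q.pos e := ⟨Q.n, ha, hn⟩
  have hmin : ∀ k, a ≤ k → k < Nat.find hex → Q.pos k < Q.pos a + L := fun k hk hk' => by
    have := Nat.find_min hex hk'
    by_contra hc
    exact this ⟨hk, not_lt.1 hc⟩
  have he := Nat.find_spec hex
  have hle : Nat.find hex ≤ Q.n := Nat.find_min' hex ⟨ha, hn⟩
  refine ⟨Nat.find hex, he.1, hle, he.2, ?_, hmin⟩
  rcases he.1.eq_or_lt with h1 | h1
  · rw [← h1]; linarith
  · obtain ⟨k, hk⟩ : ∃ k, Nat.find hex = k + 1 := ⟨Nat.find hex - 1, by omega⟩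
    have h2 := hmin k (by omega) (by omega)
    have h3 := Q.el_le h (show k < Q.n by omega)
    unfold Geo.el at h3
    rw [hk]; linarith

/-- the first index at distance at least `L` to the left -/
theorem exists_left (h : WG G ℓ δ) (hδ : 0 ≤ δ) (Q : Geo G ℓ) {a : ℕ} (ha : a ≤ Q.n) {L : ℝ}
    (hL : 0 ≤ L) (hn : Q.pos 0 + L ≤ Q.pos a) :
    ∃ e, e ≤ a ∧ Q.pos e + L ≤ Q.pos a ∧ Q.pos a ≤ Q.pos e + L + δ := by
  obtain ⟨e, h1, h2, h3, h4, -⟩ := exists_right h hδ (Q.rev h) (a := Q.n - a) (Nat.sub_le _ _) hL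
    (by simp only [Geo.rev, Nat.sub_sub_self ha, Nat.sub_self]; linarith)
  simp only [Geo.rev, Nat.sub_sub_self ha] at h1 h2 h3 h4
  exact ⟨Q.n - e, by omega, by linarith, by linarith⟩

/-- lower bound for the volume of an interval -/
theorem le_lv (h : WG G ℓ δ) (hδ : 0 ≤ δ) (Q : Geo G ℓ) {a : ℕ} (ha : a ≤ Q.n) {L : ℝ}
    (hL : 0 ≤ L) (hn : Q.pos a + L ≤ Q.pos Q.n) :
    L ≤ lv Q fun k => Q.pos a ≤ Q.pos k ∧ Q.pos k ≤ Q.pos a + L := by
  obtain ⟨e, h1, h2, h3, -, h5⟩ := exists_right h hδ Q ha hL hn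
  have h6 := lv_mono h Q (A := fun k => a ≤ k ∧ k < e)
    (B := fun k => Q.pos a ≤ Q.pos k ∧ Q.pos k ≤ Q.pos a + L)
    fun k hk hk' => ⟨Q.pos_mono h hk'.1 hk.le, (h5 k hk'.1 hk'.2).le⟩
  rw [lv_Ico Q h1 h2] at h6
  linarith

/-- double counting -/
theorem lv_dc (h : WG G ℓ δ) (Q : Geo G ℓ) {A : ℕ → Prop} (W : ℕ → ℕ → Prop) {a : ℝ}
    (b : ℕ → ℝ) (hW : ∀ i < Q.n, A i → a ≤ lv Q (W i))
    (hb : ∀ k < Q.n, lv Q (fun i => A i ∧ W i k) ≤ b k) :
    a * lv Q A ≤ ∑ k ∈ range Q.n, Q.el k * b k := by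
  have h1 : a * lv Q A ≤ ∑ i ∈ range Q.n, ∑ k ∈ range Q.n,
      Q.el k * (if A i ∧ W i k then Q.el i else 0) := by
    rw [lv, mul_sum]
    refine sum_le_sum fun i hi => ?_
    have hi' := mem_range.1 hi
    by_cases hA : A i
    · have h2 := mul_le_mul_of_nonneg_right (hW i hi' hA) (Q.el_pos h hi').le
      rw [lv, sum_mul] at h2
      simp only [hA, if_true, true_and]
      refine h2.trans (le_of_eq (sum_congr rfl fun k _ => ?_))
      split_ifs <;> simp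
    · simp [hA]
  rw [sum_comm] at h1
  refine h1.trans (sum_le_sum fun k hk => ?_)
  rw [← mul_sum, ← lv_eq Q fun i => A i ∧ W i k]
  exact mul_le_mul_of_nonneg_left (hb k (mem_range.1 hk)) (Q.el_pos h (mem_range.1 hk)).le

/-- a set whose points at distance at most `ρ` are at distance at most `2 γ` is sparse -/
theorem lv_sparse (h : WG G ℓ δ) (hδ : 0 ≤ δ) (Q : Geo G ℓ) {A N : ℕ → Prop} {γ ρ : ℝ}
    (hρ : 0 ≤ ρ) (hγ : δ ≤ γ) (hroom : ∀ i < Q.n, A i → Q.pos i + ρ ≤ Q.pos Q.n)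
    (hN : ∀ i < Q.n, A i → ∀ k < Q.n, |Q.pos k - Q.pos i| ≤ ρ → N k)
    (hA : ∀ i < Q.n, ∀ j < Q.n, A i → A j → |Q.pos i - Q.pos j| ≤ ρ →
      |Q.pos i - Q.pos j| ≤ 2 * γ) :
    ρ * lv Q A ≤ 5 * γ * lv Q N := by
  have h1 := lv_dc h Q (A := A) (fun i k => Q.pos i ≤ Q.pos k ∧ Q.pos k ≤ Q.pos i + ρ) (a := ρ)
    (fun k => if N k then 5 * γ else 0)
    (fun i hi hAi => le_lv h hδ Q hi.le hρ (hroom i hi hAi)) fun k hk => by
      by_cases hex : ∃ i < Q.n, A i ∧ Q.pos i ≤ Q.pos k ∧ Q.pos k ≤ Q.pos i + ρ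
      · obtain ⟨i, hi, hAi, h2, h3⟩ := hex
        have hNk : N k := hN i hi hAi k hk (abs_le.2 ⟨by linarith, by linarith⟩)
        simp only [hNk, if_true]
        have := lv_le h hδ Q (A := fun j => A j ∧ Q.pos j ≤ Q.pos k ∧ Q.pos k ≤ Q.pos j + ρ)
          (a := Q.pos i - 2 * γ) (b := Q.pos i + 2 * γ) (by linarith) fun j hj hj' => by
            have := abs_le.1 (hA i hi j hj hAi hj'.1
              (abs_le.2 ⟨by linarith [hj'.2.1], by linarith [hj'.2.2]⟩))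
            constructor <;> linarith [this.1, this.2]
        linarith
      · rw [lv_empty Q fun i hi hi' => hex ⟨i, hi, hi'⟩]
        split_ifs <;> linarith
  refine h1.trans (le_of_eq ?_)
  rw [lv, mul_sum]
  refine sum_congr rfl fun k _ => ?_
  split_ifs <;> ring

/-! ### segments as walks -/

theorem seg_le (Q : Geo G ℓ) {i j : ℕ} (hij : i ≤ j) (hj : j ≤ Q.n) :
    ∃ p : G.Walk (Q.v i) (Q.v j), (∀ g : Sym2 V → ℝ,
      wl g p = ∑ k ∈ Ico i j, g s(Q.v k, Q.v (k + 1))) ∧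
      ∀ x ∈ p.support, ∃ k, i ≤ k ∧ k ≤ j ∧ Q.v k = x := by
  induction j, hij using Nat.le_induction with
  | base => exact ⟨Walk.nil, by simp, fun x hx => ⟨i, le_rfl, le_rfl, by simpa [eq_comm] using hx⟩⟩
  | succ j hij ih =>
    obtain ⟨p, hp, hs⟩ := ih (Nat.le_of_succ_le hj)
    refine ⟨p.concat (Q.adj j hj), fun g => by rw [wl_concat, hp, sum_Ico_succ_top hij],
      fun x hx => ?_⟩
    rw [Walk.support_concat, List.mem_append, List.mem_singleton] at hx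
    rcases hx with hx | rfl
    · obtain ⟨k, h1, h2, h3⟩ := hs x hx
      exact ⟨k, h1, h2.trans (Nat.le_succ j), h3⟩
    · exact ⟨j + 1, hij.trans (Nat.le_succ j), le_rfl, rfl⟩

/-- the segment between two positions, in either direction -/
theorem seg (Q : Geo G ℓ) {i j : ℕ} (hi : i ≤ Q.n) (hj : j ≤ Q.n) :
    ∃ p : G.Walk (Q.v i) (Q.v j), (∀ g : Sym2 V → ℝ,
      wl g p = ∑ k ∈ Ico (min i j) (max i j), g s(Q.v k, Q.v (k + 1))) ∧
      ∀ x ∈ p.support, ∃ k, min i j ≤ k ∧ k ≤ max i j ∧ Q.v k = x := by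
  rcases le_total i j with hij | hij
  · rw [min_eq_left hij, max_eq_right hij]
    exact seg_le Q hij hj
  · rw [min_eq_right hij, max_eq_left hij]
    obtain ⟨p, hp, hs⟩ := seg_le Q hij hi
    exact ⟨p.reverse, fun g => by rw [wl_reverse, hp], fun x hx => hs x (by simpa using hx)⟩

theorem sum_len (h : WG G ℓ δ) (Q : Geo G ℓ) {i j : ℕ} (hi : i ≤ Q.n) (hj : j ≤ Q.n) :
    ∑ k ∈ Ico (min i j) (max i j), ℓ s(Q.v k, Q.v (k + 1)) = |Q.pos i - Q.pos j| := by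
  have key : ∀ a b, a ≤ b → b ≤ Q.n →
      ∑ k ∈ Ico a b, ℓ s(Q.v k, Q.v (k + 1)) = Q.pos b - Q.pos a := fun a b hab hb => by
    rw [← Q.sum_el hab]
    exact sum_congr rfl fun k hk => (Q.el_eq (by have := (mem_Ico.1 hk).2; omega)).symm
  rcases le_total i j with hij | hij
  · rw [min_eq_left hij, max_eq_right hij, key i j hij hj, abs_sub_comm,
      abs_of_nonneg (by linarith [Q.pos_mono h hij hj])]
  · rw [min_eq_right hij, max_eq_left hij, key j i hij hi,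
      abs_of_nonneg (by linarith [Q.pos_mono h hij hi])]

/-! ### lexicographic argmin on a window -/

/-- `m` minimises `(φ, index)` among the positions within `r` of `c` -/
def IsArg (Q : Geo G ℓ) (φ : V → ℕ) (c : ℕ) (r : ℝ) (m : ℕ) : Prop :=
  m ≤ Q.n ∧ |Q.pos m - Q.pos c| ≤ r ∧ ∀ k ≤ Q.n, |Q.pos k - Q.pos c| ≤ r →
    toLex (φ (Q.v m), m) ≤ toLex (φ (Q.v k), k)

theorem exists_arg (Q : Geo G ℓ) (φ : V → ℕ) (c : ℕ) (r : ℝ) :
    ∃ m, c ≤ Q.n → 0 ≤ r → IsArg Q φ c r m := by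
  by_cases hc : c ≤ Q.n ∧ 0 ≤ r
  · obtain ⟨m, hm, hmin⟩ := exists_min_image
      ((range (Q.n + 1)).filter fun k => |Q.pos k - Q.pos c| ≤ r)
      (fun k => toLex (φ (Q.v k), k)) ⟨c, by simp [hc.1, hc.2]⟩
    simp only [mem_filter, mem_range, Nat.lt_succ_iff] at hm hmin
    exact ⟨m, fun _ _ => ⟨hm.1, hm.2, fun k hk hk' => hmin k ⟨hk, hk'⟩⟩⟩
  · exact ⟨0, fun h1 h2 => absurd ⟨h1, h2⟩ hc⟩

theorem IsArg.uniq {Q : Geo G ℓ} {φ : V → ℕ} {c c' m m' : ℕ} {r : ℝ} (h : IsArg Q φ c r m)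
    (h' : IsArg Q φ c' r m') (h1 : |Q.pos m - Q.pos c'| ≤ r) (h2 : |Q.pos m' - Q.pos c| ≤ r) :
    m = m' := by
  have := le_antisymm (h.2.2 m' h'.1 h2) (h'.2.2 m h.1 h1)
  exact (Prod.ext_iff.1 (toLex.injective this)).2

/-- the form of the portal property on windows -/
theorem IsArg.portal (hw : WG G ℓ δ) {Q : Geo G ℓ} {φ : V → ℕ} {c m k : ℕ} {r B : ℝ}
    (h : IsArg Q φ c r m) (hk : k ≤ Q.n) (hkc : |Q.pos k - Q.pos c| ≤ r) (hB : 2 * r ≤ B) :
    ∃ i j, i ≤ k ∧ k ≤ j ∧ i ≤ m ∧ m ≤ j ∧ j ≤ Q.n ∧ Q.pos j - Q.pos i ≤ B ∧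
      ∀ k', i ≤ k' → k' ≤ j → φ (Q.v m) ≤ φ (Q.v k') := by
  have hm := abs_le.1 h.2.1
  have hk' := abs_le.1 hkc
  have key : ∀ k', min k m ≤ k' → k' ≤ max k m → k' ≤ Q.n ∧ |Q.pos k' - Q.pos c| ≤ r := by
    intro k' h1 h2
    have hn : k' ≤ Q.n := h2.trans (max_le hk h.1)
    refine ⟨hn, abs_le.2 ⟨?_, ?_⟩⟩
    · rcases min_le_iff.1 h1 with h3 | h3
      · linarith [Q.pos_mono hw h3 hn]
      · linarith [Q.pos_mono hw h3 hn]
    · rcases le_max_iff.1 h2 with h3 | h3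
      · linarith [Q.pos_mono hw h3 hk]
      · linarith [Q.pos_mono hw h3 h.1]
  refine ⟨min k m, max k m, min_le_left _ _, le_max_left _ _, min_le_right _ _, le_max_right _ _,
    max_le hk h.1, ?_, fun k' h1 h2 => ?_⟩
  · have a1 := abs_le.1 (key _ le_rfl min_le_max).2
    have a2 := abs_le.1 (key _ min_le_max le_rfl).2
    linarith [a1.1, a2.2]
  · have := h.2.2 k' (key k' h1 h2).1 (key k' h1 h2).2
    rcases Prod.Lex.le_iff.1 this with h3 | h3
    · exact le_of_lt h3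
    · exact le_of_eq h3.1

/-- sums over all positions of a family of lines -/
theorem sum_sig {ι : Type} [Fintype ι] (n : ι → ℕ) (F : ι → ℕ → ℝ) :
    ∑ s : (q : ι) × Fin (n q), F s.1 s.2 = ∑ q, ∑ i ∈ range (n q), F q i := by
  rw [Fintype.sum_sigma]
  exact sum_congr rfl fun q _ => Fin.sum_univ_eq_sum_range (F q) (n q)

end Crest.Agent.N206.PL.Prot
end
end

-- ▼ part N206/PL/Protect/Arm
section

/-!
# Row 206, S0317, `protect`: the geometry of a good centre and of one type (helper39)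
-/

set_option autoImplicit false

noncomputable section

open scoped Classical

namespace Crest.Agent.N206.PL.Prot

open Crest.GeometryTopology.GraphMetric Crest.Agent.R206.Iface534 SimpleGraph Finset

variable {V : Type} {G : SimpleGraph V} {ℓ : Sym2 V → ℝ} {δ : ℝ}

/-- `k` is at most `β` to the left of the centre `c` -/
def Nr (Q : Geo G ℓ) (β : ℝ) (k c : ℕ) : Prop := Q.pos k ≤ Q.pos c ∧ Q.pos c ≤ Q.pos k + β

theorem ends (h : WG G ℓ δ) (Q : Geo G ℓ) {k : ℕ} (hk : k ≤ Q.n) {X : ℝ}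
    (hs : ¬ Sep G (bl G ℓ (Q.v k) X) (Q.v 0) (Q.v Q.n)) :
    Q.pos 0 + X < Q.pos k ∧ Q.pos k + X < Q.pos Q.n := by
  rw [not_sep_iff] at hs
  have h1 := cmp_sub _ _ hs
  have h2 := cmp_sub _ _ (cmp_symm hs)
  simp only [Set.mem_compl_iff, mem_bl, not_le] at h1 h2
  rw [Q.dist k Q.n hk le_rfl] at h1
  rw [h.comm, Q.dist 0 k (Nat.zero_le _) hk] at h2
  constructor <;> linarith

/-- choice of the direction -/
theorem dir (h : WG G ℓ δ) (hδ : 0 ≤ δ) (Q : Geo G ℓ) {c m : ℕ} {β ρ : ℝ}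
    (hm : m ≤ Q.n) (hβ : 0 ≤ β) (h0 : Q.pos 0 + 6 * ρ ≤ Q.pos c)
    (hn : Q.pos c + 6 * ρ ≤ Q.pos Q.n) (h1 : |Q.pos m - Q.pos c| ≤ 2 * ρ)
    (h2 : 2 * β < |Q.pos m - Q.pos c|) :
    ∃ e E E', e ≤ Q.n ∧ (E = 0 ∨ E = Q.n) ∧ (E' = 0 ∨ E' = Q.n) ∧
      |Q.pos m - Q.pos e| ≤ 4 * ρ + δ ∧
      (∀ k, min e E ≤ k → k ≤ max e E → 4 * ρ ≤ |Q.pos k - Q.pos m|) ∧
      (∀ k < Q.n, Nr Q β k c → min m e ≤ k ∧ k < max m e) ∧
      ∀ k', min m E' ≤ k' → k' ≤ max m E' → ∀ k, Nr Q β k c → β ≤ |Q.pos k - Q.pos k'| := by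
  have h1' := abs_le.1 h1
  rcases lt_abs.1 h2 with h3 | h3
  · obtain ⟨e, a1, a2, a3⟩ := exists_left h hδ Q hm (L := 4 * ρ) (by linarith) (by linarith [h1'.1])
    refine ⟨e, 0, Q.n, a1.trans hm, Or.inl rfl, Or.inr rfl, abs_le.2 ⟨by linarith, by linarith⟩,
      fun k _ hk => ?_, fun k hk hkc => ?_, fun k' hk _ k hkc => ?_⟩
    · have := Q.pos_mono h (show k ≤ e by simpa using hk) (a1.trans hm)
      exact le_abs.2 (Or.inr (by linarith))
    · rw [min_eq_right a1, max_eq_left a1]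
      exact ⟨le_of_pos h Q (a1.trans hm) (by linarith [hkc.2, h1'.2]),
        lt_of_pos h Q hk.le (by linarith [hkc.1])⟩
    · rename_i hk'
      rw [max_eq_right hm] at hk'
      have := Q.pos_mono h (show m ≤ k' by rwa [min_eq_left hm] at hk) hk'
      exact le_abs.2 (Or.inr (by linarith [hkc.1]))
  · obtain ⟨e, a1, a2, a3, a4, -⟩ := exists_right h hδ Q hm (L := 4 * ρ) (by linarith)
      (by linarith [h1'.2])
    refine ⟨e, Q.n, 0, a2, Or.inr rfl, Or.inl rfl, abs_le.2 ⟨by linarith, by linarith⟩,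
      fun k hk hk' => ?_, fun k hk hkc => ?_, fun k' _ hk k hkc => ?_⟩
    · rw [min_eq_left a2] at hk
      rw [max_eq_right a2] at hk'
      have := Q.pos_mono h hk hk'
      exact le_abs.2 (Or.inl (by linarith))
    · rw [min_eq_left a1, max_eq_right a1]
      exact ⟨le_of_pos h Q hm (by linarith [hkc.2]),
        lt_of_pos h Q hk.le (by linarith [hkc.1, h1'.1])⟩
    · have := Q.pos_mono h (show k' ≤ m by simpa using hk) hm
      exact le_abs.2 (Or.inl (by linarith [hkc.2]))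

/-- what one centre provides for its type -/
def Arm (G : SimpleGraph V) (ℓ : Sym2 V → ℝ) (z : V) (Z : Set V) (L e W : ℝ)
    (u : (Sym2 V → ℝ) → ℝ) (Pt : Set V) : Prop :=
  ∃ (en : V) (p : G.Walk z en) (Tl : Set V), en ∈ Tl ∧ Cn G Tl ∧ (Z ∩ Tl).Nonempty ∧
    (∀ y ∈ Tl, L ≤ wdist G ℓ z y) ∧ wl ℓ p ≤ L + e ∧
    (∀ g : Sym2 V → ℝ, (∀ ed ∈ G.edgeSet, 0 ≤ g ed) → u g ≤ wl g p) ∧
    ∀ x ∈ Pt, wdist G ℓ z x + W ≤ L ∧
      ∃ τ ∈ Z, ∃ p₀ : G.Walk z τ, ∀ v ∈ p₀.support, W ≤ wdist G ℓ x v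

theorem Arm.mono {z : V} {Z : Set V} {L e W : ℝ} {u : (Sym2 V → ℝ) → ℝ} {Pt Pt' : Set V}
    (h : Arm G ℓ z Z L e W u Pt) (hP : Pt' ⊆ Pt) : Arm G ℓ z Z L e W u Pt' := by
  obtain ⟨en, p, Tl, h1, h2, h3, h4, h5, h6, h7⟩ := h
  exact ⟨en, p, Tl, h1, h2, h3, h4, h5, h6, fun x hx => h7 x (hP hx)⟩

/-- the length of the edges near a centre -/
def un (Q : Geo G ℓ) (β : ℝ) (c : ℕ) (g : Sym2 V → ℝ) : ℝ :=
  ∑ k ∈ range Q.n, if Nr Q β k c then g s(Q.v k, Q.v (k + 1)) else 0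

theorem arm [Fintype V] (h : WG G ℓ δ) (hδ : 0 ≤ δ) (Q : Geo G ℓ) {z : V} {k₀ c m m₂ : ℕ}
    {Ds β ρ W X : ℝ} (hk₀ : k₀ ≤ Q.n) (hm : m ≤ Q.n) (hm₂ : m₂ ≤ Q.n)
    (hkc : Nr Q β k₀ c) (hs : ¬ Sep G (bl G ℓ (Q.v k₀) X) (Q.v 0) (Q.v Q.n))
    (h1 : |Q.pos m - Q.pos c| ≤ 2 * ρ) (h2 : 2 * β < |Q.pos m - Q.pos c|)
    (h3 : 8 * ρ < |Q.pos m₂ - Q.pos c|) (hz : wdist G ℓ (Q.v m) z ≤ Ds) (hDs : δ ≤ Ds)
    (hW : 0 ≤ W) (hβ : Ds + W ≤ β) (hρ : 2 * β ≤ ρ) (hX : β + 6 * ρ + Ds ≤ X) :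
    6 * ρ - Ds < wdist G ℓ z (Q.v m₂) ∧
    Arm G ℓ z (cmp G (bl G ℓ z (4 * ρ))ᶜ (Q.v m₂)) (4 * ρ - Ds) (3 * Ds) W (un Q β c)
      {x | ∃ k ≤ Q.n, Nr Q β k c ∧ Q.v k = x} := by
  have hDs0 : 0 ≤ Ds := hδ.trans hDs
  have hβ0 : 0 ≤ β := by linarith
  obtain ⟨e0, en⟩ := ends h Q hk₀ hs
  have far : ∀ k ≤ Q.n, |Q.pos k - Q.pos m| - Ds ≤ wdist G ℓ z (Q.v k) := fun k hk => by
    have := h.tri (Q.v m) z (Q.v k)
    rw [Q.d_abs h hm hk, abs_sub_comm] at this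
    linarith
  have near : ∀ k ≤ Q.n, wdist G ℓ z (Q.v k) ≤ |Q.pos k - Q.pos m| + Ds := fun k hk => by
    have := h.tri z (Q.v m) (Q.v k)
    rw [Q.d_abs h hm hk, abs_sub_comm, h.comm z (Q.v m)] at this
    linarith
  have far8 : ∀ k ≤ Q.n, 8 * ρ < |Q.pos k - Q.pos c| → 6 * ρ - Ds < wdist G ℓ z (Q.v k) :=
    fun k hk hk' => by
      have := abs_sub_le (Q.pos k) (Q.pos m) (Q.pos c)
      linarith [far k hk]
  refine ⟨far8 m₂ hm₂ h3, ?_⟩
  set S := (bl G ℓ z (4 * ρ))ᶜ with hS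
  have hsub : (bl G ℓ (Q.v k₀) X)ᶜ ⊆ S := by
    refine Set.compl_subset_compl.2 fun y hy => ?_
    rw [mem_bl] at hy ⊢
    have a1 := h.tri (Q.v k₀) z y
    have a2 := near k₀ hk₀
    have a3 := abs_sub_le (Q.pos k₀) (Q.pos c) (Q.pos m)
    have a4 : |Q.pos k₀ - Q.pos c| ≤ β := abs_le.2 ⟨by linarith [hkc.2], by linarith [hkc.1]⟩
    rw [h.comm (Q.v k₀) z] at a1
    rw [abs_sub_comm (Q.pos c)] at a3
    linarith
  have h0n : Q.v Q.n ∈ cmp G S (Q.v 0) := cmp_mono hsub _ (not_sep_iff.1 hs)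
  have hend : ∀ E, E = 0 ∨ E = Q.n → Q.v E ∈ cmp G S (Q.v m₂) := by
    have key : Q.v 0 ∈ cmp G S (Q.v m₂) ∨ Q.v Q.n ∈ cmp G S (Q.v m₂) := by
      rcases lt_abs.1 h3 with h4 | h4
      · obtain ⟨p, -, hp⟩ := seg_le Q hm₂ le_rfl
        refine Or.inr ⟨p, fun x hx => ?_⟩
        obtain ⟨k, b1, b2, rfl⟩ := hp x hx
        have := far8 k b2 (lt_abs.2 (Or.inl (by linarith [Q.pos_mono h b1 b2])))
        simp only [hS, Set.mem_compl_iff, mem_bl, not_le]
        linarith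
      · obtain ⟨p, -, hp⟩ := seg_le Q (Nat.zero_le m₂) hm₂
        refine Or.inl (cmp_symm ⟨p, fun x hx => ?_⟩)
        obtain ⟨k, -, b2, rfl⟩ := hp x hx
        have := far8 k (b2.trans hm₂) (lt_abs.2 (Or.inr (by linarith [Q.pos_mono h b2 hm₂])))
        simp only [hS, Set.mem_compl_iff, mem_bl, not_le]
        linarith
    rintro E (rfl | rfl)
    · exact key.elim id fun h' => cmp_trans h' (cmp_symm h0n)
    · exact key.elim (fun h' => cmp_trans h' h0n) id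
  obtain ⟨e, E, E', he, hE, hE', d1, d2, d3, d4⟩ := dir h hδ Q hm hβ0
    (by linarith [hkc.1]) (by linarith [hkc.2]) h1 h2
  have hEn : E ≤ Q.n := by rcases hE with rfl | rfl <;> simp
  have hEn' : E' ≤ Q.n := by rcases hE' with rfl | rfl <;> simp
  obtain ⟨p₁, -, hp₁⟩ := h.exists_geo z (Q.v m)
  rw [h.comm] at hp₁
  obtain ⟨p₂, hp₂, -⟩ := seg Q hm he
  obtain ⟨p₃, -, hp₃⟩ := seg Q he hEn
  obtain ⟨p₄, -, hp₄⟩ := seg Q hm hEn'
  refine ⟨Q.v e, p₁.append p₂, {v | v ∈ p₃.support}, p₃.start_mem_support, Cn.support p₃,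
    ⟨Q.v E, hend E hE, p₃.end_mem_support⟩, fun y hy => ?_, ?_, fun g hg => ?_, ?_⟩
  · obtain ⟨k, b1, b2, rfl⟩ := hp₃ y hy
    linarith [far k (b2.trans (max_le he hEn)), d2 k b1 b2]
  · rw [wl_append, hp₂, sum_len h Q hm he]
    linarith
  · rw [wl_append, hp₂, un, ← sum_filter]
    have b1 := wl_nonneg' hg p₁
    have b2 : ∑ k ∈ (range Q.n).filter (fun k => Nr Q β k c), g s(Q.v k, Q.v (k + 1)) ≤
        ∑ k ∈ Ico (min m e) (max m e), g s(Q.v k, Q.v (k + 1)) := by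
      refine sum_le_sum_of_subset_of_nonneg (fun k hk => ?_) fun k hk _ => ?_
      · rw [mem_filter, mem_range] at hk
        exact mem_Ico.2 (d3 k hk.1 hk.2)
      · exact hg _ (Q.adj k ((mem_Ico.1 hk).2.trans_le (max_le hm he)))
    linarith
  · rintro x ⟨k, hk, hkc', rfl⟩
    have b0 : |Q.pos k - Q.pos c| ≤ β := abs_le.2 ⟨by linarith [hkc'.2], by linarith [hkc'.1]⟩
    have b1 := abs_sub_le (Q.pos k) (Q.pos c) (Q.pos m)
    rw [abs_sub_comm (Q.pos c)] at b1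
    refine ⟨by linarith [near k hk], Q.v E', hend E' hE', p₁.append p₄, fun v hv => ?_⟩
    rw [Walk.mem_support_append_iff] at hv
    rcases hv with hv | hv
    · have b2 := h.mem_right p₁ hv
      have b3 := h.tri (Q.v k) v (Q.v m)
      rw [Q.d_abs h hk hm] at b3
      linarith [d4 m (min_le_left _ _) (le_max_left _ _) k hkc']
    · obtain ⟨k', c1, c2, rfl⟩ := hp₄ v hv
      rw [Q.d_abs h hk (c2.trans (max_le hm hEn'))]
      linarith [d4 k' c1 c2 k hkc']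

theorem lemB' (lemB : LemBStmt) [Fintype V] (h : WG G ℓ δ) (z : V) (T : Set V) (L e : ℝ)
    (hT : T.Nonempty) (he : 0 ≤ e) (hL : ∀ τ ∈ T, L ≤ wdist G ℓ z τ) (ι : Type) [Fintype ι]
    (en : ι → V) (p : ∀ i, G.Walk z (en i)) (m : ι → ℝ) (hm : ∀ i, 0 ≤ m i) (hen : ∀ i, en i ∈ T)
    (hp : ∀ i, wl ℓ (p i) ≤ L + e) :
    ∃ (ℓ' : Sym2 V → ℝ) (lam : ℝ) (g : Sym2 V → ℝ),
      (∀ ed ∈ G.edgeSet, ℓ ed ≤ ℓ' ed ∧ ℓ' ed ≤ 2 * ℓ ed) ∧ (∀ τ ∈ T, lam ≤ wdist G ℓ' z τ) ∧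
      (∀ ed ∈ G.edgeSet, 0 ≤ g ed) ∧
      (∀ x y, (¬ ∃ τ ∈ T, wdist G ℓ' z x + wdist G ℓ' x τ ≤ lam) → g s(x, y) = ℓ s(x, y)) ∧
      ∑ i, m i * wl g (p i) ≤ 2 * e * ∑ i, m i := by
  obtain ⟨ℓ', lam, b1, b2, -, b4⟩ := lemB V G ℓ δ h z T L e hT he hL ι en p m hm hen hp
  refine ⟨ℓ', lam, _, b1, b2, fun ed hed => ?_, fun x y hx => ?_, b4⟩
  · split_ifs
    · exact le_rfl
    · exact h.nn ed hed
  · rw [if_neg]
    exact fun hc => hx (hc x (Sym2.mem_mk_left x y))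

/-- one type -/
theorem one_type (lemB : LemBStmt) [Fintype V] (h : WG G ℓ δ) (z : V) (Z : Set V)
    {L e R Λ : ℝ} (he : 0 ≤ e) {ι : Type} [Fintype ι] (P : ι → Prop)
    (u : ι → (Sym2 V → ℝ) → ℝ) (Pt : ι → Set V) (m : ι → ℝ) (hm : ∀ i, 0 ≤ m i)
    (hZ : ∀ i, P i → Cn G Z ∧ ∀ y ∈ Z, L ≤ wdist G ℓ z y)
    (hP : ∀ i, P i → Arm G ℓ z Z L e (Λ * R) (u i) (Pt i)) :
    ∃ (ℓ' : Sym2 V → ℝ) (T : Set V) (lam : ℝ) (S : Set V) (g : Sym2 V → ℝ),
      TypeOK G ℓ ℓ' z T lam R Λ S ∧ (∀ x ∈ S, ∃ i, P i ∧ x ∈ Pt i) ∧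
      (∀ ed ∈ G.edgeSet, 0 ≤ g ed) ∧
      (∀ i, P i → ∀ x ∈ Pt i, x ∉ S → ∀ y, g s(x, y) = ℓ s(x, y)) ∧
      ∑ i, (if P i then m i * u i g else 0) ≤ 2 * e * ∑ i, if P i then m i else 0 := by
  by_cases hex : ∃ i, P i
  swap
  · push Not at hex
    refine ⟨ℓ, {z}, 0, ∅, ℓ, ⟨fun ed hed => ⟨le_rfl, by linarith [h.pos ed hed]⟩, Cn.single z,
      fun τ _ => h.nonneg _ _, by simp, by simp, by simp⟩, by simp, h.nn,
      fun i hi => absurd hi (hex i), by simp [hex]⟩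
  obtain ⟨i₀, hi₀⟩ := hex
  obtain ⟨hZc, hZd⟩ := hZ i₀ hi₀
  choose en p Tl hen hTl hZT hTd hp hu hPt using fun i : {i // P i} => hP i.1 i.2
  have hTL : ∀ τ ∈ Z ∪ ⋃ i, Tl i, L ≤ wdist G ℓ z τ := by
    rintro τ (hτ | hτ)
    · exact hZd τ hτ
    · obtain ⟨i, hi⟩ := Set.mem_iUnion.1 hτ
      exact hTd i τ hi
  obtain ⟨ℓ', lam, g, b1, b2, hg0, hg, b4⟩ := lemB' lemB h z (Z ∪ ⋃ i, Tl i) L e
    (hZc.1.mono Set.subset_union_left) he hTL {i // P i} en p (fun i => m i.1) (fun i => hm i.1)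
    (fun i => Or.inr (Set.mem_iUnion.2 ⟨i, hen i⟩)) hp
  set T := Z ∪ ⋃ i, Tl i with hT
  refine ⟨ℓ', T, lam, {x | (∃ τ ∈ T, wdist G ℓ' z x + wdist G ℓ' x τ ≤ lam) ∧
    ∃ i, P i ∧ x ∈ Pt i}, g, ⟨b1, hZc.attach Tl hTl fun i => Or.inl (hZT i), b2,
      fun x hx => hx.1, ?_, ?_⟩, fun x hx => hx.2, hg0, fun i hi x hx hxS y => ?_, ?_⟩
  · rintro x ⟨⟨τ, hτ, h1⟩, i, hi, hx⟩
    have c1 := (hPt ⟨i, hi⟩ x hx).1
    have c2 := (h.two_le b1 x τ).1
    linarith [hTL τ hτ, h.tri z x τ]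
  · rintro x ⟨-, i, hi, hx⟩
    obtain ⟨τ, hτ, p₀, hp₀⟩ := (hPt ⟨i, hi⟩ x hx).2
    exact ⟨τ, Or.inl hτ, p₀, hp₀⟩
  · exact hg x y fun hc => hxS ⟨hc, i, hi, hx⟩
  · rw [← sum_filter, ← sum_filter, sum_subtype _ (p := P) (by simp),
      sum_subtype (univ.filter P) (p := P) (by simp)]
    exact le_trans (sum_le_sum fun i _ => mul_le_mul_of_nonneg_left (hu i g hg0) (hm i.1)) b4

end Crest.Agent.N206.PL.Prot
end
end

-- ▼ part N206/PL/Protect/Main
section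

/-!
# Row 206, S0317: `protect : KPRStmt → PortalStmt → LemBStmt → ProtectStmt` (helper39)

Every position `c` at most `β` to the right of an active position is a centre.  A centre is good
when the two window minimisers of the portal function are far from it and the first one is padded.
Good centres are sorted into types; Lemma B is applied once per type; all volume estimates are
double counts.
-/

set_option autoImplicit false

noncomputable section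

open scoped Classical

namespace Crest.Agent.N206.PL

open Crest.GeometryTopology.GraphMetric Crest.Agent.R206.Iface534 SimpleGraph Finset

namespace Prot

variable {V : Type} {G : SimpleGraph V} {ℓ : Sym2 V → ℝ} {δ : ℝ}

theorem sum_ty {T ι : Type} [Fintype T] [Fintype ι] (P' : T → ι → Prop) (P : ι → Prop)
    (ty : ι → T) (hP : ∀ τ s, P' τ s ↔ P s ∧ ty s = τ) (F : ι → T → ℝ) :
    ∑ τ, ∑ s, (if P' τ s then F s τ else 0) = ∑ s, if P s then F s (ty s) else 0 := by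
  rw [sum_comm]
  refine sum_congr rfl fun s _ => ?_
  rw [sum_eq_single (ty s)]
  · by_cases h : P s <;> simp [hP, h]
  · intro τ _ hτ
    simp [hP, hτ.symm]
  · simp

/-- centres whose window minimiser is close are sparse -/
theorem bad_sparse (h : WG G ℓ δ) (hδ : 0 ≤ δ) (Q : Geo G ℓ) (φ : V → ℕ) (act : ℕ → Prop)
    {β γ ρ X : ℝ} (m : ℕ → ℕ) (hβ : 0 ≤ β) (hγ : δ ≤ γ) (hγρ : γ ≤ ρ) (hX : β + ρ ≤ X)
    (hm : ∀ c ≤ Q.n, IsArg Q φ c (2 * ρ) (m c))
    (hact : ∀ i, act i → Q.pos i + X < Q.pos Q.n) :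
    ρ * lv Q (fun c => (∃ k, act k ∧ Nr Q β k c) ∧ |Q.pos (m c) - Q.pos c| ≤ γ) ≤
      5 * γ * lv Q fun i => ∃ i', act i' ∧ |Q.pos i - Q.pos i'| ≤ X := by
  refine lv_sparse h hδ Q (by linarith) hγ ?_ ?_ ?_
  · rintro i - ⟨⟨k, hk, hki⟩, -⟩
    linarith [hact k hk, hki.2]
  · rintro i - ⟨⟨k, hk, hki⟩, -⟩ j - hj
    have := abs_le.1 hj
    exact ⟨k, hk, abs_le.2 ⟨by linarith [hki.1, this.1], by linarith [hki.2, this.2]⟩⟩
  · rintro i hi j hj ⟨-, h1⟩ ⟨-, h2⟩ hij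
    have a1 := abs_le.1 h1
    have a2 := abs_le.1 h2
    have a3 := abs_le.1 hij
    have := (hm i hi.le).uniq (hm j hj.le)
      (abs_le.2 ⟨by linarith [a1.1, a3.1], by linarith [a1.2, a3.2]⟩)
      (abs_le.2 ⟨by linarith [a2.1, a3.2], by linarith [a2.2, a3.1]⟩)
    rw [this] at a1
    exact abs_le.2 ⟨by linarith [a1.2, a2.1], by linarith [a1.1, a2.2]⟩

/-- the main double count on one line -/
theorem line_bound (h : WG G ℓ δ) (hδ : 0 ≤ δ) (Q : Geo G ℓ) (U cen good : ℕ → Prop)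
    (g : ℕ → Sym2 V → ℝ) {β : ℝ} (hβ : δ ≤ β)
    (hroom : ∀ i < Q.n, U i → Q.pos i + β ≤ Q.pos Q.n)
    (hcen : ∀ i c, U i → Nr Q β i c → cen c) (hg0 : ∀ c, ∀ ed ∈ G.edgeSet, 0 ≤ g c ed)
    (hg : ∀ c < Q.n, good c → ∀ i, U i → Nr Q β i c → ∀ y, g c s(Q.v i, y) = ℓ s(Q.v i, y)) :
    β * lv Q U ≤ ∑ c ∈ range Q.n, (if good c then Q.el c * un Q β c (g c) else 0) +
      2 * β * lv Q fun c => cen c ∧ ¬ good c := by
  have hβ0 : 0 ≤ β := hδ.trans hβ
  have h1 := lv_dc h Q (A := U) (Nr Q β) (a := β)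
    (fun c => if good c then un Q β c (g c) else if cen c then 2 * β else 0)
    (fun i hi hU => le_lv h hδ Q hi.le hβ0 (hroom i hi hU)) fun c hc => by
      by_cases hgc : good c
      · simp only [hgc, if_true]
        refine sum_le_sum fun i hi => ?_
        have hi' := mem_range.1 hi
        by_cases hU : U i ∧ Nr Q β i c
        · rw [if_pos hU, if_pos hU.2, hg c hc hgc i hU.1 hU.2, Q.el_eq hi']
        · rw [if_neg hU]
          split_ifs
          · exact hg0 c _ (Q.adj i hi')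
          · exact le_rfl
      · by_cases hcc : cen c
        · simp only [hgc, hcc, if_true, if_false]
          have := lv_le h hδ Q (A := fun i => U i ∧ Nr Q β i c) (a := Q.pos c - β) (b := Q.pos c)
            (by linarith) fun i _ hi => ⟨by linarith [hi.2.2], hi.2.1⟩
          linarith
        · simp only [hgc, hcc, if_false]
          exact (lv_empty Q fun i _ hi => hcc (hcen i c hi.1 hi.2)).le
  refine h1.trans (le_of_eq ?_)
  rw [lv, mul_sum, ← sum_add_distrib]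
  refine sum_congr rfl fun c _ => ?_
  by_cases hgc : good c <;> by_cases hcc : cen c <;> simp [hgc, hcc, mul_comm]

theorem core (lemB : LemBStmt) [Fintype V] (h : WG G ℓ δ) (hδ : 0 ≤ δ)
    {R Λ θ Ds β ρ ρ₂ X : ℝ} (M : ℕ) (φ : V → ℕ)
    (hφ : ∀ x₀ : V, ∃ H : Finset V, H.card ≤ M ∧
      ∀ (Q : Geo G ℓ) (i j k m : ℕ), i ≤ k → k ≤ j → i ≤ m → m ≤ j → j ≤ Q.n →
        Q.pos j - Q.pos i ≤ 4 * ρ₂ → wdist G ℓ x₀ (Q.v k) ≤ R / 2 →
        (∀ k', i ≤ k' → k' ≤ j → φ (Q.v m) ≤ φ (Q.v k')) →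
        ∃ h ∈ H, wdist G ℓ (Q.v m) h ≤ 2 * R)
    (kpr : ∀ (ι : Type) [Fintype ι] (x : ι → V) (ω : ι → ℝ), (∀ i, 0 ≤ ω i) →
      ∃ c : V → V, (∀ y, wdist G ℓ y (c y) ≤ Ds) ∧
        ∑ i, (if ∀ y ∈ bl G ℓ (x i) (2 * R), c y = c (x i) then 0 else ω i) ≤ θ * ∑ i, ω i)
    (hR : 0 < R) (hΛ : 1 ≤ Λ) (hθ : 0 < θ) (hDs : δ ≤ Ds) (h1 : Ds + Λ * R ≤ β)
    (h2 : 2 * β ≤ ρ) (h3 : 8 * ρ ≤ ρ₂) (h4 : 2 * ρ₂ ≤ X) (t1 : Ds ≤ θ * β) (t2 : β ≤ θ * ρ)
    (t3 : ρ ≤ θ * ρ₂) (ι : Type) [Fintype ι] (Q : ι → Geo G ℓ) (f : ι → ℝ) (act : ι → ℕ → Prop)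
    (hf : ∀ q, 0 ≤ f q) (hact : ∀ q i, act q i → i < (Q q).n ∧
        ¬ Sep G (bl G ℓ ((Q q).v i) X) ((Q q).v 0) ((Q q).v (Q q).n)) :
    ∃ (ℓ' : V × Set V → Sym2 V → ℝ) (T : V × Set V → Set V)
      (lam : V × Set V → ℝ) (S : V × Set V → Set V),
      (∀ τ, TypeOK G ℓ (ℓ' τ) τ.1 (T τ) (lam τ) R Λ (S τ)) ∧
      (∀ x₀, (Finset.univ.filter fun τ => ∃ x ∈ S τ, wdist G ℓ x₀ x ≤ R / 2).card ≤ M * M) ∧
      (∀ τ, ∀ x ∈ S τ, ∃ q i, act q i ∧ (Q q).v i = x) ∧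
      vol Q f (fun q i => act q i ∧ ∀ τ, (Q q).v i ∉ S τ) ≤
        108 * θ * vol Q f (fun q i => ∃ i', act q i' ∧ |(Q q).pos i - (Q q).pos i'| ≤ X) := by
  have hDs0 : 0 ≤ Ds := hδ.trans hDs
  have hΛR : R ≤ Λ * R := by nlinarith
  have hβ0 : 0 < β := by linarith
  choose m₁ hm₁ using fun q c => exists_arg (Q q) φ c (2 * ρ)
  choose m₂ hm₂ using fun q c => exists_arg (Q q) φ c (2 * ρ₂)
  replace hm₁ := fun q c hc => hm₁ q c hc (by linarith)
  replace hm₂ := fun q c hc => hm₂ q c hc (by linarith)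
  obtain ⟨cen, hcen⟩ : ∃ cen : ι → ℕ → Prop, ∀ q c, cen q c ↔ ∃ k, act q k ∧ Nr (Q q) β k c :=
    ⟨_, fun _ _ => Iff.rfl⟩
  obtain ⟨cc, hcc, hpad⟩ := kpr ((q : ι) × Fin (Q q).n) (fun s => (Q s.1).v (m₁ s.1 s.2))
    (fun s => f s.1 * if cen s.1 s.2 then (Q s.1).el s.2 else 0) fun s => by
      have := ((Q s.1).el_pos h s.2.2).le
      refine mul_nonneg (hf _) ?_
      split_ifs
      · exact this
      · exact le_rfl
  obtain ⟨pad, hpd⟩ : ∃ pad : ι → ℕ → Prop, ∀ q c, pad q c ↔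
      ∀ y ∈ bl G ℓ ((Q q).v (m₁ q c)) (2 * R), cc y = cc ((Q q).v (m₁ q c)) :=
    ⟨_, fun _ _ => Iff.rfl⟩
  obtain ⟨good, hgood⟩ : ∃ good : ι → ℕ → Prop, ∀ q c, good q c ↔ cen q c ∧
      2 * β < |(Q q).pos (m₁ q c) - (Q q).pos c| ∧ 8 * ρ < |(Q q).pos (m₂ q c) - (Q q).pos c| ∧
      pad q c := ⟨_, fun _ _ => Iff.rfl⟩
  obtain ⟨ty, hty⟩ : ∃ ty : ι → ℕ → V × Set V, ∀ q c, ty q c = (cc ((Q q).v (m₁ q c)),
      cmp G (bl G ℓ (cc ((Q q).v (m₁ q c))) (4 * ρ))ᶜ ((Q q).v (m₂ q c))) := ⟨_, fun _ _ => rfl⟩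
  have harm : ∀ q, ∀ c < (Q q).n, good q c →
      6 * ρ - Ds < wdist G ℓ (cc ((Q q).v (m₁ q c))) ((Q q).v (m₂ q c)) ∧
      Arm G ℓ (ty q c).1 (ty q c).2 (4 * ρ - Ds) (3 * Ds) (Λ * R) (un (Q q) β c)
        {x | ∃ k, act q k ∧ Nr (Q q) β k c ∧ (Q q).v k = x} := by
    intro q c hc hg
    obtain ⟨g1, g2, g3, -⟩ := (hgood q c).1 hg
    obtain ⟨k₀, hk₀, hk₀c⟩ := (hcen q c).1 g1
    obtain ⟨a1, a2⟩ := arm h hδ (Q q) (W := Λ * R) (X := X) (hact q k₀ hk₀).1.le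
      (hm₁ q c hc.le).1 (hm₂ q c hc.le).1 hk₀c (hact q k₀ hk₀).2 (hm₁ q c hc.le).2.1 g2 g3
      (hcc _) hDs (by linarith) h1 h2 (by linarith)
    rw [hty]
    exact ⟨a1, a2.mono fun x ⟨k, b1, b2, b3⟩ => ⟨k, (hact q k b1).1.le, b2, b3⟩⟩
  obtain ⟨P, hP⟩ : ∃ P : V × Set V → ((q : ι) × Fin (Q q).n) → Prop,
      ∀ τ s, P τ s ↔ good s.1 s.2 ∧ ty s.1 s.2 = τ := ⟨_, fun _ _ => Iff.rfl⟩
  choose ℓ' T lam S g c1 c2 c3 c4 c5 using fun τ : V × Set V =>
    one_type lemB h τ.1 τ.2 (L := 4 * ρ - Ds) (e := 3 * Ds) (R := R) (Λ := Λ) (by linarith) (P τ)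
      (fun s => un (Q s.1) β s.2) (fun s => {x | ∃ k, act s.1 k ∧ Nr (Q s.1) β k s.2 ∧
        (Q s.1).v k = x}) (fun s => f s.1 * (Q s.1).el s.2)
      (fun s => mul_nonneg (hf _) ((Q s.1).el_pos h s.2.2).le)
      (fun s hs => by
        obtain ⟨hg, rfl⟩ := (hP τ s).1 hs
        have a1 := (harm s.1 s.2 s.2.2 hg).1
        rw [hty]
        refine ⟨cn_cmp ?_, fun y hy => ?_⟩
        · simp only [Set.mem_compl_iff, mem_bl, not_le]
          linarith
        · have := cmp_sub _ _ hy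
          simp only [Set.mem_compl_iff, mem_bl, not_le] at this
          dsimp only
          linarith)
      fun s hs => by
        obtain ⟨hg, rfl⟩ := (hP τ s).1 hs
        exact (harm s.1 s.2 s.2.2 hg).2
  refine ⟨ℓ', T, lam, S, c1, fun x₀ => ?_, fun τ x hx => ?_, ?_⟩
  · obtain ⟨H, hH, hport⟩ := hφ x₀
    refine le_trans (card_le_card (t := (H ×ˢ H).image fun hh =>
      (cc hh.1, cmp G (bl G ℓ (cc hh.1) (4 * ρ))ᶜ hh.2)) fun τ hτ => ?_)
      (card_image_le.trans (by rw [card_product]; exact Nat.mul_le_mul hH hH))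
    obtain ⟨x, hx, hx₀⟩ := (mem_filter.1 hτ).2
    obtain ⟨⟨q, c⟩, hs, k, hk, hkc, rfl⟩ := c2 τ x hx
    obtain ⟨hg, rfl⟩ := (hP τ _).1 hs
    dsimp only at hk hkc hx₀ hg ⊢
    have hkn := (hact q k hk).1.le
    have b0 : |(Q q).pos k - (Q q).pos c| ≤ β :=
      abs_le.2 ⟨by linarith [hkc.2], by linarith [hkc.1]⟩
    obtain ⟨i, j, d1, d2, d3, d4, d5, d6, d7⟩ := (hm₁ q c c.2.le).portal h (B := 4 * ρ₂) hkn
      (by linarith) (by linarith)
    obtain ⟨y₁, hy₁, e₁⟩ := hport (Q q) i j k _ d1 d2 d3 d4 d5 d6 hx₀ d7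
    obtain ⟨i, j, d1, d2, d3, d4, d5, d6, d7⟩ := (hm₂ q c c.2.le).portal h (B := 4 * ρ₂) hkn
      (by linarith) (by linarith)
    obtain ⟨y₂, hy₂, e₂⟩ := hport (Q q) i j k _ d1 d2 d3 d4 d5 d6 hx₀ d7
    have e₃ : cc y₁ = cc ((Q q).v (m₁ q c)) := (hpd q c).1 ((hgood q c).1 hg).2.2.2 y₁ e₁
    refine mem_image.2 ⟨(y₁, y₂), mem_product.2 ⟨hy₁, hy₂⟩, ?_⟩
    rw [hty]
    dsimp only
    rw [e₃]
    refine Prod.ext rfl (cmp_eq ?_)
    obtain ⟨p, -, hp⟩ := h.exists_geo ((Q q).v (m₂ q c)) y₂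
    refine ⟨p, fun v hv => ?_⟩
    have a1 := (harm q c c.2 hg).1
    have a2 := h.mem_left p hv
    have a3 := h.tri (cc ((Q q).v (m₁ q c))) v ((Q q).v (m₂ q c))
    rw [h.comm v] at a3
    simp only [Set.mem_compl_iff, mem_bl, not_le]
    linarith
  · obtain ⟨s, -, k, hk, -, hx⟩ := c2 τ x hx
    exact ⟨s.1, k, hk, hx⟩
  obtain ⟨Nb, hNb⟩ : ∃ Nb : ι → ℕ → Prop, Nb = fun q i =>
      ∃ i', act q i' ∧ |(Q q).pos i - (Q q).pos i'| ≤ X := ⟨_, rfl⟩
  have hend : ∀ q i, act q i → (Q q).pos i + X < (Q q).pos (Q q).n := fun q i hi =>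
    (ends h (Q q) (hact q i hi).1.le (hact q i hi).2).2
  have hcN : ∀ q c, cen q c → Nb q c := fun q c hc => by
    obtain ⟨k, hk, hkc⟩ := (hcen q c).1 hc
    rw [hNb]
    exact ⟨k, hk, abs_le.2 ⟨by linarith [hkc.1], by linarith [hkc.2]⟩⟩
  -- one line
  have hline : ∀ q, β * lv (Q q) (fun i => act q i ∧ ∀ τ, (Q q).v i ∉ S τ) ≤
      ∑ c ∈ range (Q q).n, (if good q c then (Q q).el c * un (Q q) β c (g (ty q c)) else 0) +
        2 * β * (50 * θ * lv (Q q) (Nb q) + lv (Q q) fun c => cen q c ∧ ¬ pad q c) := by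
    intro q
    have a1 := line_bound h hδ (Q q) (fun i => act q i ∧ ∀ τ, (Q q).v i ∉ S τ) (cen q) (good q)
      (fun c => g (ty q c)) (β := β) (by linarith) (fun i _ hi => by linarith [hend q i hi.1])
      (fun i c hi hic => (hcen q c).2 ⟨i, hi.1, hic⟩) (fun c => c3 _)
      fun c hc hg i hi hic y => c4 (ty q c) ⟨q, ⟨c, hc⟩⟩ ((hP _ _).2 ⟨hg, rfl⟩) _
        ⟨i, hi.1, hic, rfl⟩ (hi.2 _) y
    have a2 := bad_sparse h hδ (Q q) φ (act q) (m₁ q) (β := β) (γ := 2 * β) (X := X) hβ0.le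
      (by linarith) h2 (by linarith) (hm₁ q) (hend q)
    have a3 := bad_sparse h hδ (Q q) φ (act q) (m₂ q) (β := β) (γ := 8 * ρ) (X := X) hβ0.le
      (by linarith) h3 (by linarith) (hm₂ q) (hend q)
    have a4 := lv_or h (Q q) (A := fun c => cen q c ∧ ¬ good q c)
      (B := fun c => ((∃ k, act q k ∧ Nr (Q q) β k c) ∧
          |(Q q).pos (m₁ q c) - (Q q).pos c| ≤ 2 * β) ∨ ((∃ k, act q k ∧ Nr (Q q) β k c) ∧
          |(Q q).pos (m₂ q c) - (Q q).pos c| ≤ 8 * ρ))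
      (C := fun c => cen q c ∧ ¬ pad q c) fun c _ hc => by
        have b1 := hc.2
        rw [hgood] at b1
        have b2 := (hcen q c).1 hc.1
        by_contra hcon
        simp only [not_or, not_and, not_le, not_not] at hcon
        exact b1 ⟨hc.1, hcon.1.1 b2, hcon.1.2 b2, hcon.2 hc.1⟩
    have a5 := lv_or h (Q q) (A := fun c => ((∃ k, act q k ∧ Nr (Q q) β k c) ∧
          |(Q q).pos (m₁ q c) - (Q q).pos c| ≤ 2 * β) ∨ ((∃ k, act q k ∧ Nr (Q q) β k c) ∧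
          |(Q q).pos (m₂ q c) - (Q q).pos c| ≤ 8 * ρ)) fun c _ hc => hc
    have hN : lv (Q q) (fun i => ∃ i', act q i' ∧ |(Q q).pos i - (Q q).pos i'| ≤ X) =
        lv (Q q) (Nb q) := by rw [hNb]
    rw [hN] at a2 a3
    have n0 := lv_nonneg h (Q q) (Nb q)
    have hρ0 : 0 < ρ := by linarith
    have hρ2 : 0 < ρ₂ := by linarith
    have a6 := le_of_mul_le_mul_left (a2.trans (show _ ≤ ρ * (10 * θ * lv (Q q) (Nb q)) by
      nlinarith [mul_le_mul_of_nonneg_right t2 n0])) hρ0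
    have a7 := le_of_mul_le_mul_left (a3.trans (show _ ≤ ρ₂ * (40 * θ * lv (Q q) (Nb q)) by
      nlinarith [mul_le_mul_of_nonneg_right t3 n0])) hρ2
    refine a1.trans (add_le_add le_rfl (mul_le_mul_of_nonneg_left ?_ (by linarith)))
    linarith
  -- the three global sums
  have hV0 : 0 ≤ vol Q f Nb := sum_nonneg fun q _ => mul_nonneg (hf q) (lv_nonneg h _ _)
  have hcenV : ∑ q, f q * lv (Q q) (cen q) ≤ vol Q f Nb :=
    sum_le_sum fun q _ => mul_le_mul_of_nonneg_left (lv_mono h _ fun c _ => hcN q c) (hf q)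
  have s1 : ∑ q, f q * lv (Q q) (fun c => cen q c ∧ ¬ pad q c) ≤ θ * vol Q f Nb := by
    refine le_trans (le_of_eq ?_) (hpad.trans (mul_le_mul_of_nonneg_left (le_trans (le_of_eq ?_)
      hcenV) hθ.le))
    · rw [sum_sig (fun q => (Q q).n) fun q c => if ∀ y ∈ bl G ℓ ((Q q).v (m₁ q c)) (2 * R),
        cc y = cc ((Q q).v (m₁ q c)) then 0 else f q * if cen q c then (Q q).el c else 0]
      refine sum_congr rfl fun q _ => ?_
      rw [lv, mul_sum]
      refine sum_congr rfl fun c _ => ?_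
      by_cases hp : pad q c
      · rw [if_pos ((hpd q c).1 hp), if_neg (fun hc => hc.2 hp), mul_zero]
      · rw [if_neg (fun hc => hp ((hpd q c).2 hc))]
        by_cases hc : cen q c <;> simp [hc, hp]
    · rw [sum_sig (fun q => (Q q).n) fun q c => f q * if cen q c then (Q q).el c else 0]
      exact sum_congr rfl fun q _ => by rw [lv, mul_sum]
  have s2 : ∑ q, f q * ∑ c ∈ range (Q q).n,
      (if good q c then (Q q).el c * un (Q q) β c (g (ty q c)) else 0) ≤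
        6 * Ds * vol Q f Nb := by
    have b1 := sum_le_sum fun τ (_ : τ ∈ (univ : Finset (V × Set V))) => c5 τ
    rw [← mul_sum, sum_ty P (fun s => good s.1 s.2) (fun s => ty s.1 s.2) hP,
      sum_ty P (fun s => good s.1 s.2) (fun s => ty s.1 s.2) hP fun s _ => f s.1 * (Q s.1).el s.2,
      sum_sig (fun q => (Q q).n) fun q c => if good q c then f q * (Q q).el c else 0,
      sum_sig (fun q => (Q q).n) fun q c =>
        if good q c then f q * (Q q).el c * un (Q q) β c (g (ty q c)) else 0] at b1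
    refine le_trans (le_of_eq (sum_congr rfl fun q _ => ?_)) (b1.trans ?_)
    · rw [mul_sum]
      exact sum_congr rfl fun c _ => by split_ifs <;> ring
    · rw [show 2 * (3 * Ds) = 6 * Ds by ring]
      refine mul_le_mul_of_nonneg_left (sum_le_sum fun q _ => ?_) (by linarith)
      refine le_trans (le_of_eq ?_) (mul_le_mul_of_nonneg_left (lv_mono h (Q q) (A := good q)
        fun c _ hc => hcN q c ((hgood q c).1 hc).1) (hf q))
      rw [lv, mul_sum]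
      exact sum_congr rfl fun c _ => by split_ifs <;> ring
  have s3 := sum_le_sum fun q (_ : q ∈ (univ : Finset ι)) =>
    mul_le_mul_of_nonneg_left (hline q) (hf q)
  have s4 : β * vol Q f (fun q i => act q i ∧ ∀ τ, (Q q).v i ∉ S τ) ≤
      6 * Ds * vol Q f Nb + 2 * β * (50 * θ * vol Q f Nb + θ * vol Q f Nb) := by
    rw [vol_eq, mul_sum]
    refine le_trans (le_of_eq (sum_congr rfl fun q _ => by ring)) (s3.trans ?_)
    simp only [mul_add, sum_add_distrib]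
    refine add_le_add s2 (add_le_add (le_of_eq ?_) ?_)
    · rw [vol_eq, mul_sum, mul_sum]
      exact sum_congr rfl fun q _ => by ring
    · refine le_trans (le_of_eq ?_) (mul_le_mul_of_nonneg_left s1 (by linarith))
      rw [mul_sum]
      exact sum_congr rfl fun q _ => by ring
  rw [← hNb]
  refine le_of_mul_le_mul_left (s4.trans ?_) hβ0
  nlinarith [mul_le_mul_of_nonneg_right t1 hV0]

end Prot

/-- **Protection** of most of the volume of long neck-free lines -/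
theorem protect (kpr : KPRStmt) (portal : PortalStmt) (lemB : LemBStmt) : ProtectStmt := by
  intro Λ θ hΛ hθ
  obtain ⟨Δ, hΔ, kpr⟩ := kpr
  obtain ⟨t, ht0, ht1, ht2⟩ : ∃ t : ℝ, 0 < t ∧ t ≤ 1 / 108 ∧ 108 * t ≤ θ :=
    ⟨min θ 1 / 108, by positivity, by linarith [min_le_right θ 1], by linarith [min_le_left θ 1]⟩
  have up : ∀ a : ℝ, 0 ≤ a → ∃ b, 108 * a ≤ b ∧ a = t * b := fun a ha =>
    ⟨a / t, by rw [le_div_iff₀ ht0]; nlinarith, by field_simp⟩
  obtain ⟨s, s1, s2⟩ := up (Δ * 2) (by linarith)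
  obtain ⟨b, b1, b2⟩ := up (s + Λ) (by linarith)
  obtain ⟨p, p1, p2⟩ := up b (by linarith)
  obtain ⟨r, r1, r2⟩ := up p (by linarith)
  obtain ⟨M, portal⟩ := portal (4 * r)
  refine ⟨2 * r, 1, M * M, by linarith, one_pos, ?_⟩
  intro V _ G ℓ δ h hMF R hR hδ ι _ Q f act hf hact
  have h' : WG G ℓ R := h.mono (by linarith)
  obtain ⟨φ, hφ⟩ := portal V G ℓ δ h hMF R hR
  have hs : Δ * (2 * R) / t = s * R := by
    rw [div_eq_iff ht0.ne']
    linear_combination R * s2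
  obtain ⟨ℓ', T, lam, S, c1, c2, c3, c4⟩ := Prot.core lemB h' hR.le (R := R) (Λ := Λ) (θ := t)
    (Ds := s * R) (β := b * R) (ρ := p * R) (ρ₂ := r * R) (X := 2 * r * R) M φ
    (fun x₀ => by
      obtain ⟨H, hH, hp⟩ := hφ x₀
      exact ⟨H, hH, fun Q i j k m a1 a2 a3 a4 a5 a6 => hp Q i j k m a1 a2 a3 a4 a5 (by linarith)⟩)
    (fun ι _ x ω hω => by
      obtain ⟨c, d1, -, d3⟩ := kpr V G ℓ R h' hMF (2 * R) t (by linarith) ht0 (by linarith)
        (by linarith) ι x ω hω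
      exact ⟨c, fun y => hs ▸ d1 y, d3⟩)
    hR hΛ ht0 (by nlinarith) (by nlinarith) (by nlinarith) (by nlinarith) (by linarith)
    (by nlinarith) (le_of_eq (by linear_combination R * p2))
    (le_of_eq (by linear_combination R * r2)) ι Q f act hf hact
  refine ⟨V × Set V, inferInstance, ℓ', Prod.fst, T, lam, S, c1, fun x₀ => ?_, fun τ x hx => ?_,
    c4.trans (mul_le_mul_of_nonneg_right ht2 ?_)⟩
  · convert c2 x₀
  · obtain ⟨q, i, hi, rfl⟩ := c3 τ x hx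
    exact ⟨q, i, hi, by rw [h.self]; exact mul_nonneg (by linarith) hR.le⟩
  · exact Finset.sum_nonneg fun q _ => mul_nonneg (hf q) (Prot.lv_nonneg h _ _)

end Crest.Agent.N206.PL
end
end

-- ▼ part N206/PL/Level
section

/-!
# Row 206, S0317: one level of the scheme (helper55)
-/

set_option autoImplicit false

noncomputable section

open scoped Classical

namespace Crest.Agent.N206.PL

open Crest.GeometryTopology.GraphMetric Crest.Agent.R206.Iface534 SimpleGraph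

section vol

variable {V ι : Type} [Fintype ι] {G : SimpleGraph V} {ℓ : Sym2 V → ℝ} {δ : ℝ}



theorem sum_vol {J : Type} (Q : ι → Geo G ℓ) (f : ι → ℝ) (s : Finset J) (B : J → ι → ℕ → Prop) :
    ∑ k ∈ s, vol Q f (B k) = ∑ q, f q * ∑ i ∈ Finset.range (Q q).n,
      ((s.filter fun k => B k q i).card : ℝ) * (Q q).el i := by
  unfold vol
  rw [Finset.sum_comm]
  refine Finset.sum_congr rfl fun q _ => ?_
  rw [← Finset.mul_sum, Finset.sum_comm]
  congr 1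
  refine Finset.sum_congr rfl fun i _ => ?_
  rw [← Finset.sum_filter, Finset.sum_const, nsmul_eq_mul]

theorem vol_le_sum {J : Type} (h : WG G ℓ δ) (Q : ι → Geo G ℓ) {f : ι → ℝ} (hf : ∀ q, 0 ≤ f q)
    (s : Finset J) {A : ι → ℕ → Prop} {B : J → ι → ℕ → Prop}
    (hAB : ∀ q i, i < (Q q).n → A q i → ∃ k ∈ s, B k q i) :
    vol Q f A ≤ ∑ k ∈ s, vol Q f (B k) := by
  rw [sum_vol]
  refine Finset.sum_le_sum fun q _ => mul_le_mul_of_nonneg_left
    (Finset.sum_le_sum fun i hi => ?_) (hf q)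
  have hi' := Finset.mem_range.1 hi
  have h0 := ((Q q).el_pos h hi').le
  split_ifs with hA
  · obtain ⟨k, hk, hB⟩ := hAB q i hi' hA
    have : (1 : ℝ) ≤ (s.filter fun k => B k q i).card := by
      exact_mod_cast Finset.card_pos.2 ⟨k, Finset.mem_filter.2 ⟨hk, hB⟩⟩
    nlinarith
  · positivity

theorem sum_vol_le {J : Type} (h : WG G ℓ δ) (Q : ι → Geo G ℓ) {f : ι → ℝ} (hf : ∀ q, 0 ≤ f q)
    (s : Finset J) {A : ι → ℕ → Prop} {B : J → ι → ℕ → Prop} (m : ℕ)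
    (hAB : ∀ k ∈ s, ∀ q i, i < (Q q).n → B k q i → A q i)
    (hm : ∀ q i, i < (Q q).n → (s.filter fun k => B k q i).card ≤ m) :
    ∑ k ∈ s, vol Q f (B k) ≤ m * vol Q f A := by
  rw [sum_vol, vol, Finset.mul_sum]
  refine Finset.sum_le_sum fun q _ => ?_
  rw [mul_left_comm, Finset.mul_sum (a := (m : ℝ))]
  refine mul_le_mul_of_nonneg_left (Finset.sum_le_sum fun i hi => ?_) (hf q)
  have hi' := Finset.mem_range.1 hi
  have h0 := ((Q q).el_pos h hi').le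
  split_ifs with hA
  · exact mul_le_mul_of_nonneg_right (by exact_mod_cast hm q i hi') h0
  · have : (s.filter fun k => B k q i) = ∅ :=
      Finset.filter_eq_empty_iff.2 fun k hk hB => hA (hAB k hk q i hi' hB)
    simp [this]

end vol

theorem sum_sub_eq {κ : Type} [Fintype κ] (P : κ → Prop) [DecidablePred P] (g : κ → ℝ) :
    ∑ i : {i // P i}, g i.1 = ∑ i, if P i then g i else 0 := by
  rw [← Finset.sum_filter]
  exact (Finset.sum_subtype (Finset.univ.filter P) (by simp) g).symm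

/-- gains of families that cover all the pairs -/
theorem cover_gain {κ J : Type} [Fintype κ] (s : Finset J) (P : J → κ → Prop) (ω d : κ → ℝ)
    (g : J → κ → ℝ) (c : ℝ) (hc : 0 ≤ c) (hω : ∀ i, 0 ≤ ω i) (hd : ∀ i, 0 ≤ d i)
    (hcov : ∀ i, ∃ j ∈ s, P j i)
    (hg : ∀ j ∈ s, c * ∑ i, (if P j i then ω i * d i else 0) ≤
      ∑ i, if P j i then ω i * g j i else 0) :
    c * ∑ i, ω i * d i ≤ ∑ i, ω i * ∑ j ∈ s, if P j i then g j i else 0 := by
  have h1 : ∑ i, ω i * d i ≤ ∑ j ∈ s, ∑ i, if P j i then ω i * d i else 0 := by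
    rw [Finset.sum_comm]
    refine Finset.sum_le_sum fun i _ => ?_
    obtain ⟨j, hj, hP⟩ := hcov i
    have := Finset.single_le_sum (f := fun j => if P j i then ω i * d i else 0)
      (fun j _ => by have := mul_nonneg (hω i) (hd i); split_ifs <;> simp [this]) hj
    simpa [hP] using this
  calc c * ∑ i, ω i * d i ≤ ∑ j ∈ s, c * ∑ i, if P j i then ω i * d i else 0 := by
        rw [← Finset.mul_sum]; exact mul_le_mul_of_nonneg_left h1 hc
    _ ≤ ∑ j ∈ s, ∑ i, if P j i then ω i * g j i else 0 := Finset.sum_le_sum hg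
    _ = _ := by
        rw [Finset.sum_comm]
        refine Finset.sum_congr rfl fun i _ => ?_
        rw [Finset.mul_sum]
        exact Finset.sum_congr rfl fun j _ => by split_ifs <;> simp

theorem exists_class {s T : ℝ} (hs : 0 < s) (hT : s ≤ T) :
    ∃ k : ℕ, s * 2 ^ k ≤ T ∧ T < 2 * (s * 2 ^ k) := by
  obtain ⟨k, h1, h2⟩ := exists_nat_pow_near (x := T / s) (y := 2)
    (by rwa [le_div_iff₀ hs, one_mul]) one_lt_two
  rw [le_div_iff₀ hs] at h1
  rw [div_lt_iff₀ hs, pow_succ] at h2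
  exact ⟨k, by linarith, by linarith⟩

theorem card_class {s T : ℝ} (hs : 0 < s) (S : Finset ℕ)
    (h : ∀ k ∈ S, 3 / 4 * (s * 2 ^ k) ≤ T ∧ T ≤ 9 / 4 * (s * 2 ^ k)) : S.card ≤ 2 := by
  rcases S.eq_empty_or_nonempty with rfl | hne
  · simp
  have hsub : S ⊆ Finset.Ico (S.min' hne) (S.min' hne + 2) := by
    intro k hk
    refine Finset.mem_Ico.2 ⟨S.min'_le k hk, ?_⟩
    have h1 := (h k hk).1
    have h2 := (h _ (S.min'_mem hne)).2
    have h3 : (0 : ℝ) < 2 ^ S.min' hne := by positivity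
    have h4 : (2 : ℝ) ^ k < 2 ^ (S.min' hne + 2) := by
      rw [pow_add]
      by_contra h5
      push Not at h5
      nlinarith [mul_le_mul_of_nonneg_left h5 hs.le, mul_pos hs h3]
    exact (pow_lt_pow_iff_right₀ one_lt_two).1 h4
  simpa using Finset.card_le_card hsub

theorem level (hN : NoiseStmt) (hP : ProtectStmt) (hS : ServeStmt) : LevelStmt := by
  obtain ⟨cN, εN, hcN, hεN, hN⟩ := hN
  obtain ⟨Λ, C, hΛ, hC, hS⟩ := hS
  obtain ⟨XP, εP, M, hXP, hεP, hP⟩ := hP Λ (1 / 8) hΛ (by norm_num)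
  set B : ℝ := 16 * (XP + 1) * C with hB
  have hB32 : 32 ≤ B := by nlinarith
  obtain ⟨KS, cS, εS, hKS, hcS, hεS, hS⟩ := hS B (by linarith)
  have hB0 : 0 < B := by linarith
  refine ⟨B, 4 * C * XP, 2 + M * KS, min (cN / (2 * B)) cS,
    min (min (1 / 2) (εN / (2 * B))) (min εP εS), by linarith, by nlinarith, by positivity,
    by positivity, by positivity, ?_⟩
  intro V _ G ℓ δ h hMF s0 hs0 hδ t ht0 htl ι _ Q f hf
  have hδ1 : δ ≤ 1 / 2 * s0 := hδ.trans (mul_le_mul_of_nonneg_right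
    ((min_le_left _ _).trans (min_le_left _ _)) hs0.le)
  have hδ2 : δ ≤ εN / (2 * B) * s0 := hδ.trans (mul_le_mul_of_nonneg_right
    ((min_le_left _ _).trans (min_le_right _ _)) hs0.le)
  have hδ3 : δ ≤ εP * s0 := hδ.trans (mul_le_mul_of_nonneg_right
    ((min_le_right _ _).trans (min_le_left _ _)) hs0.le)
  have hδ4 : δ ≤ εS * s0 := hδ.trans (mul_le_mul_of_nonneg_right
    ((min_le_right _ _).trans (min_le_right _ _)) hs0.le)
  obtain ⟨τ, hτ⟩ : ∃ τ : ℕ → ℝ, ∀ k, τ k = s0 / 2 * 2 ^ k := ⟨_, fun _ => rfl⟩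
  have hτ0 : ∀ k, s0 / 2 ≤ τ k := fun k => by
    rw [hτ]; exact le_mul_of_one_le_right (by linarith) (one_le_pow₀ one_le_two)
  have hτp : ∀ k, 0 < τ k := fun k => by linarith [hτ0 k]
  obtain ⟨N, hNt⟩ : ∃ N : ℕ, ∀ x, t x < τ N := by
    obtain ⟨N, hN⟩ := pow_unbounded_of_one_lt ((∑ x, t x) / (s0 / 2)) (one_lt_two (α := ℝ))
    rw [div_lt_iff₀ (by linarith)] at hN
    refine ⟨N, fun x => ?_⟩
    have := Finset.single_le_sum (f := t) (fun x _ => ht0 x) (Finset.mem_univ x)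
    rw [hτ]; linarith
  have hcl : ∀ x, s0 / 2 ≤ t x → ∃ k ∈ Finset.range N, τ k ≤ t x ∧ t x < 2 * τ k := by
    intro x hx
    obtain ⟨k, h1, h2⟩ := exists_class (by linarith : 0 < s0 / 2) hx
    refine ⟨k, Finset.mem_range.2 ?_, by rw [hτ]; exact h1, by rw [hτ]; exact h2⟩
    have h3 := (h1.trans_lt (hNt x))
    rw [hτ] at h3
    exact (pow_lt_pow_iff_right₀ one_lt_two).1 (lt_of_mul_lt_mul_left h3 (by linarith))
  -- closeness in the metric controls `t`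
  have hclose : ∀ k x y, wdist G ℓ x y ≤ (XP + 1) * (4 * C * τ k) → |t x - t y| ≤ τ k / 4 := by
    intro k x y hxy
    have h1 := (htl x y).trans hxy
    have h2 : B * |t x - t y| ≤ B * (τ k / 4) := by rw [hB]; linarith
    exact le_of_mul_le_mul_left h2 hB0
  let act : ℕ → ι → ℕ → Prop := fun k q i => i < (Q q).n ∧ τ k ≤ t ((Q q).v i) ∧
    t ((Q q).v i) < 2 * τ k ∧
    ¬ Sep G (bl G ℓ ((Q q).v i) (4 * C * XP * t ((Q q).v i))) ((Q q).v 0) ((Q q).v (Q q).n)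
  have hR : ∀ k, 2 * s0 ≤ 4 * C * τ k := fun k => by nlinarith [hτ0 k]
  have hPk := fun k => hP V G ℓ δ h hMF (4 * C * τ k) (by linarith [hR k])
    (hδ3.trans (mul_le_mul_of_nonneg_left (by linarith [hR k]) hεP.le)) ι Q f (act k) hf
    fun q i hi => ⟨hi.1, fun hs => hi.2.2.2 (hs.mono fun v hv => by
      have h1 : XP * (4 * C * τ k) ≤ 4 * C * XP * t ((Q q).v i) := by
        have := mul_le_mul_of_nonneg_left hi.2.1 (show 0 ≤ 4 * C * XP by positivity)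
        linarith
      exact le_trans hv h1)⟩
  choose 𝒯 inst ℓ' z T lam S hT hM hnear hvol using hPk
  -- the values of `t` near a protected set
  have hSt : ∀ k θ, ∀ x ∈ S k θ, ∀ y, wdist G ℓ x y ≤ 4 * C * τ k →
      3 / 4 * τ k ≤ t y ∧ t y ≤ 9 / 4 * τ k := by
    intro k θ x hx y hy
    obtain ⟨q, i, hi, hd⟩ := hnear k θ x hx
    have h1 := abs_le.1 (hclose k ((Q q).v i) y (by linarith [h.tri ((Q q).v i) x y]))
    constructor <;> linarith [hi.2.1, hi.2.2.1, h1.1, h1.2]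
  refine ⟨{x | ∃ k < N, ∃ θ, x ∈ S k θ}, ?_, ?_⟩
  · have h1 := vol_le_sum h Q hf (Finset.range N)
      (A := fun q i => s0 / 2 ≤ t ((Q q).v i) ∧ (Q q).v i ∉ {x | ∃ k < N, ∃ θ, x ∈ S k θ} ∧
        ¬ Sep G (bl G ℓ ((Q q).v i) (4 * C * XP * t ((Q q).v i))) ((Q q).v 0) ((Q q).v (Q q).n))
      (B := fun k q i => act k q i ∧ ∀ θ, (Q q).v i ∉ S k θ) fun q i hi hA => by
        obtain ⟨k, hk, h1, h2⟩ := hcl _ hA.1
        exact ⟨k, hk, ⟨hi, h1, h2, hA.2.2⟩, fun θ hθ => hA.2.1 ⟨k, Finset.mem_range.1 hk, θ, hθ⟩⟩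
    have h3 : ∀ k q i, i < (Q q).n →
        (∃ i', act k q i' ∧ |(Q q).pos i - (Q q).pos i'| ≤ XP * (4 * C * τ k)) →
        3 / 4 * τ k ≤ t ((Q q).v i) ∧ t ((Q q).v i) ≤ 9 / 4 * τ k := by
      rintro k q i hi ⟨i', hi', hd⟩
      rw [← (Q q).d_abs h hi.le hi'.1.le] at hd
      have h1 := abs_le.1 (hclose k _ _ (hd.trans (by nlinarith [hR k])))
      constructor <;> linarith [hi'.2.1, hi'.2.2.1, h1.1, h1.2]
    have h2 := sum_vol_le h Q hf (Finset.range N) (A := fun q i => s0 / 8 ≤ t ((Q q).v i))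
      (B := fun k q i => ∃ i', act k q i' ∧ |(Q q).pos i - (Q q).pos i'| ≤ XP * (4 * C * τ k)) 2
      (fun k _ q i hi hB => by linarith [(h3 k q i hi hB).1, hτ0 k])
      fun q i hi => card_class (T := t ((Q q).v i)) (by linarith : 0 < s0 / 2) _ fun k hk => by
        rw [← hτ]; exact h3 k q i hi (Finset.mem_filter.1 hk).2
    have h4 := Finset.sum_le_sum fun k (_ : k ∈ Finset.range N) => hvol k
    rw [← Finset.mul_sum] at h4
    push_cast at h2
    linarith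
  intro κ _ a b ω hω hab
  -- noise
  let PN : ℕ → κ → Prop := fun k i =>
    t (a i) < B * wdist G ℓ (a i) (b i) ∧ τ k ≤ t (a i) ∧ t (a i) < 2 * τ k
  let χ : ℕ → V → ℝ := fun k x => max 0 (min (B * t x - B * (3 / 4 * τ k)) (B * (3 * τ k) - B * t x))
  have hNk := fun k => hN V G ℓ δ h hMF (τ k / B) (div_pos (hτp k) hB0)
    (hδ2.trans (by
      rw [div_mul_eq_mul_div, mul_div_assoc', div_le_div_iff₀ (by linarith) hB0]
      nlinarith [mul_le_mul_of_nonneg_left (hτ0 k) (mul_pos hεN hB0).le]))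
    (χ k) (fun v => le_max_left _ _)
    (fun x y hxy => by
      have h1 := (htl x y).trans (h.edge hxy)
      rw [← abs_of_pos hB0, ← abs_mul, mul_sub] at h1
      refine (abs_max_sub_max_le_max _ _ _ _).trans (max_le (by simpa using h.nn _ hxy) ?_)
      refine (abs_min_sub_min_le_max _ _ _ _).trans (max_le ?_ ?_)
      · exact le_of_eq_of_le (by congr 1; ring) h1
      · exact le_of_eq_of_le (by rw [abs_sub_comm]; congr 1; ring) h1)
    {i // PN k i} (fun i => a i.1) (fun i => b i.1) (fun i => ω i.1) (fun i => hω i.1)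
    fun i => by
      rw [div_le_iff₀ hB0]; linarith [i.2.1, i.2.2.1]
  choose ρN hN1 hN2 hN3 hN4 using hNk
  -- service
  let PS : ∀ k, 𝒯 k → κ → Prop := fun k θ i => B * wdist G ℓ (a i) (b i) ≤ t (a i) ∧
    ∃ x ∈ S k θ, wdist G ℓ (a i) x < B * wdist G ℓ (a i) (b i)
  have hPS : ∀ k θ i, PS k θ i → t (a i) ≤ 4 * τ k := by
    rintro k θ i ⟨h1, x, hx, h2⟩
    have h3 := (hSt k θ x hx x (by rw [h.self]; linarith [hR k])).2
    have h4 := htl (a i) x
    have h5 := mul_le_mul_of_nonneg_left (le_abs_self (t (a i) - t x)) hB0.le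
    nlinarith [ht0 (a i), hτp k]
  have hSk := fun k θ => hS V G ℓ δ h hMF (ℓ' k θ) (z k θ) (T k θ) (lam k θ) (4 * C * τ k) (S k θ)
    (by linarith [hR k]) (hT k θ) {i // PS k θ i} (fun i => a i.1) (fun i => b i.1)
    (fun i => ω i.1) (fun i => hω i.1) fun i =>
      ⟨hδ4.trans (mul_le_mul_of_nonneg_left (hab i.1).1 hεS.le), by
        have := mul_le_mul_of_nonneg_left (i.2.1.trans (hPS k θ i.1 i.2)) (by linarith : 0 ≤ C)
        linarith, let ⟨x, hx, hd⟩ := i.2.2; ⟨x, hx, hd.le⟩⟩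
  choose ρS hS1 hS2 hS3 hS4 using hSk
  have hSsupp : ∀ k θ x y, G.Adj x y → ρS k θ x y ≠ 0 →
      ∃ v ∈ S k θ, wdist G ℓ x v ≤ 4 * C * τ k / 2 := by
    intro k θ x y hxy hne
    by_contra hcon
    push Not at hcon
    refine hne (hS3 k θ x y (fun v hv => ?_) fun v hv => ?_)
    · rw [h.comm]; linarith [hcon v hv, hR k]
    · have := h.tri x y v
      rw [h.comm v y]
      linarith [hcon v hv, hR k, h.edge' hxy]
  refine ⟨N, fun k x y => ρN k x y + ∑ θ, ρS k θ x y,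
    fun k => (hN1 k).add (IsCut.sum _ _ fun θ _ => hS1 k θ), fun k x y hxy => ?_,
    fun k x y hxy hne => ?_, ?_⟩
  · have h1 : ∑ θ, ρS k θ x y ≤ ∑ θ ∈ Finset.univ.filter
        (fun θ => ∃ v ∈ S k θ, wdist G ℓ x v ≤ 4 * C * τ k / 2), KS * ℓ s(x, y) := by
      rw [Finset.sum_filter]
      refine Finset.sum_le_sum fun θ _ => ?_
      split_ifs with hθ
      · exact hS2 k θ x y hxy
      · exact le_of_eq (by_contra fun hne => hθ (hSsupp k θ x y hxy hne))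
    rw [Finset.sum_const, nsmul_eq_mul] at h1
    have h2 : ((Finset.univ.filter
        (fun θ => ∃ v ∈ S k θ, wdist G ℓ x v ≤ 4 * C * τ k / 2)).card : ℝ) ≤ M := by
      exact_mod_cast hM k x
    have h3 := mul_le_mul_of_nonneg_right h2 (mul_pos hKS (h.adj_pos hxy)).le
    linarith [hN2 k x y hxy]
  · have e1 : s0 / 4 * 2 ^ k = τ k / 2 := by rw [hτ]; ring
    have e2 : 2 * s0 * 2 ^ k = 4 * τ k := by rw [hτ]; ring
    rw [e1, e2]
    by_cases hn : ρN k x y = 0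
    · obtain ⟨θ, -, hθ⟩ := Finset.exists_ne_zero_of_sum_ne_zero
        (show ∑ θ, ρS k θ x y ≠ 0 by simpa [hn] using hne)
      obtain ⟨v, hv, hd⟩ := hSsupp k θ x y hxy hθ
      have := hSt k θ v hv x (by rw [h.comm]; linarith [hR k])
      constructor <;> linarith [this.1, this.2, hτp k]
    · have hχ : ∀ v, χ k v ≠ 0 → 3 / 4 * τ k ≤ t v ∧ t v ≤ 3 * τ k := by
        intro v hv
        have h1 : 0 < min (B * t v - B * (3 / 4 * τ k)) (B * (3 * τ k) - B * t v) := by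
          by_contra h2
          exact hv (max_eq_left (not_lt.1 h2))
        rw [lt_min_iff, sub_pos, sub_pos] at h1
        exact ⟨(lt_of_mul_lt_mul_left h1.1 hB0.le).le, (lt_of_mul_lt_mul_left h1.2 hB0.le).le⟩
      have h1 := abs_le.1 (hclose k x y ((h.edge' hxy).trans (by nlinarith [hR k])))
      by_cases hx : χ k x = 0
      · have := hχ y fun hy => hn (hN3 k x y hx hy)
        constructor <;> linarith [this.1, this.2, h1.1, h1.2, hτp k]
      · have := hχ x hx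
        constructor <;> linarith [this.1, this.2, hτp k]
  · let PP : (Σ k, Option (𝒯 k)) → κ → Prop := fun j i => j.2.elim (PN j.1 i) fun θ => PS j.1 θ i
    let gg : (Σ k, Option (𝒯 k)) → κ → ℝ := fun j i =>
      j.2.elim (ρN j.1 (a i) (b i)) fun θ => ρS j.1 θ (a i) (b i)
    refine (cover_gain ((Finset.range N).sigma fun _ => Finset.univ) PP ω
      (fun i => wdist G ℓ (a i) (b i)) gg _ (by positivity) hω (fun i => h.nonneg _ _)
      (fun i => ?_) ?_).trans (Finset.sum_le_sum fun i _ => mul_le_mul_of_nonneg_left ?_ (hω i))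
    · by_cases h1 : t (a i) < B * wdist G ℓ (a i) (b i)
      · obtain ⟨k, hk, h2, h3⟩ := hcl (a i) (by linarith [(hab i).1, (hab i).2.1])
        exact ⟨⟨k, none⟩, by simpa using hk, h1, h2, h3⟩
      · obtain ⟨x, ⟨k, hk, θ, hx⟩, hd⟩ := (hab i).2.2.resolve_left h1
        exact ⟨⟨k, some θ⟩, by simpa using hk, not_lt.1 h1, x, hx, hd⟩
    · rintro ⟨k, _ | θ⟩ -
      · have key : min (cN / (2 * B)) cS * ∑ i : {i // PN k i}, ω i.1 * wdist G ℓ (a i.1) (b i.1) ≤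
            ∑ i : {i // PN k i}, ω i.1 * ρN k (a i.1) (b i.1) := ?_
        · rw [sum_sub_eq (PN k) fun i => ω i * wdist G ℓ (a i) (b i),
            sum_sub_eq (PN k) fun i => ω i * ρN k (a i) (b i)] at key
          convert key <;> rfl
        refine le_trans ?_ (hN4 k)
        rw [Finset.mul_sum, Finset.mul_sum]
        refine Finset.sum_le_sum fun i _ => ?_
        have h1 : τ k / B ≤ χ k (a i.1) := by
          have h2 : τ k / B ≤ B * (τ k / 4) := by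
            rw [div_le_iff₀ hB0]
            nlinarith [hτp k, mul_le_mul hB32 hB32 (by norm_num) hB0.le]
          refine le_max_of_le_right (le_min ?_ ?_)
          · nlinarith [mul_le_mul_of_nonneg_left i.2.2.1 hB0.le]
          · nlinarith [mul_le_mul_of_nonneg_left i.2.2.2.le hB0.le, mul_pos hB0 (hτp k)]
        rw [min_eq_left h1, mul_left_comm, mul_left_comm cN]
        refine mul_le_mul_of_nonneg_left ?_ (hω _)
        have h3 : wdist G ℓ (a i.1) (b i.1) ≤ 2 * τ k := (hab i.1).2.1.trans i.2.2.2.le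
        calc _ ≤ cN / (2 * B) * (2 * τ k) :=
              mul_le_mul (min_le_left _ _) h3 (h.nonneg _ _) (by positivity)
          _ = _ := by field_simp
      · have key : min (cN / (2 * B)) cS *
            ∑ i : {i // PS k θ i}, ω i.1 * wdist G ℓ (a i.1) (b i.1) ≤
            ∑ i : {i // PS k θ i}, ω i.1 * ρS k θ (a i.1) (b i.1) := ?_
        · rw [sum_sub_eq (PS k θ) fun i => ω i * wdist G ℓ (a i) (b i),
            sum_sub_eq (PS k θ) fun i => ω i * ρS k θ (a i) (b i)] at key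
          convert key <;> rfl
        refine le_trans ?_ (hS4 k θ)
        exact mul_le_mul_of_nonneg_right (min_le_right _ _)
          (Finset.sum_nonneg fun i _ => mul_nonneg (hω _) (h.nonneg _ _))
    · rw [Finset.sum_sigma]
      refine Finset.sum_le_sum fun k _ => ?_
      have e2 : 2 * s0 * 2 ^ k = 4 * τ k := by rw [hτ]; ring
      rw [Fintype.sum_option, e2]
      have n1 := (hN1 k).nonneg (a i) (b i)
      have n2 := fun θ => (hS1 k θ).nonneg (a i) (b i)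
      by_cases hd : wdist G ℓ (a i) (b i) ≤ 4 * τ k
      · rw [if_pos hd]
        refine add_le_add ?_ (Finset.sum_le_sum fun θ _ => ?_)
        · split_ifs
          · exact le_rfl
          · exact n1
        · split_ifs
          · exact le_rfl
          · exact n2 θ
      · rw [if_neg hd, if_neg, Finset.sum_eq_zero, add_zero]
        · intro θ _
          exact if_neg fun hP => hd ((hab i).2.1.trans (hPS k θ i hP))
        · intro hP
          exact hd ((hab i).2.1.trans (by linarith [hP.2.2, hτp k]))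

end Crest.Agent.N206.PL
end
end

-- ▼ part N206/PL/Serve

/-!
# Row 206, S0317: service of the pairs near one protected set (helper55)
-/

set_option autoImplicit false

noncomputable section

open scoped Classical

namespace Crest.Agent.N206.PL

open Crest.GeometryTopology.GraphMetric Crest.Agent.R206.Iface534 SimpleGraph

theorem card_class' {s T α β : ℝ} (hs : 0 < s) (hα : 0 < α) (m : ℕ) (hm : β ≤ α * 2 ^ m)
    (S : Finset ℕ) (h : ∀ k ∈ S, α * (s * 2 ^ k) ≤ T ∧ T ≤ β * (s * 2 ^ k)) : S.card ≤ m + 1 := by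
  rcases S.eq_empty_or_nonempty with rfl | hne
  · simp
  have hsub : S ⊆ Finset.Icc (S.min' hne) (S.min' hne + m) := by
    intro k hk
    refine Finset.mem_Icc.2 ⟨S.min'_le k hk, ?_⟩
    have h1 := (h k hk).1
    have h2 := (h _ (S.min'_mem hne)).2
    have h3 : (0 : ℝ) < s * 2 ^ S.min' hne := by positivity
    have h4 : α * s * (2 : ℝ) ^ k ≤ α * s * 2 ^ (S.min' hne + m) := by
      rw [pow_add]
      nlinarith [mul_le_mul_of_nonneg_right hm h3.le]
    exact (pow_le_pow_iff_right₀ one_lt_two).1 (le_of_mul_le_mul_left h4 (mul_pos hα hs))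
  have := Finset.card_le_card hsub
  rw [Nat.card_Icc] at this
  omega

theorem WG.d_zero {V : Type} {G : SimpleGraph V} {ℓ : Sym2 V → ℝ} {δ : ℝ} (h : WG G ℓ δ)
    (hδ : δ ≤ 0) (x y : V) : wdist G ℓ x y = 0 := by
  have := le_mul_wdist (ℓ := ℓ) h.conn (wdist G ℓ) 0 le_rfl h.self h.tri
    (fun u v huv => by linarith [h.adj_pos huv, h.adj_le huv]) x y
  linarith [h.nonneg x y]

/-- distance to a nonempty set -/
theorem WG.exists_dist {V : Type} [Fintype V] {G : SimpleGraph V} {ℓ : Sym2 V → ℝ} {δ : ℝ}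
    (h : WG G ℓ δ) {S : Set V} (hS : S.Nonempty) :
    ∃ σ : V → ℝ, (∀ x, ∀ v ∈ S, σ x ≤ wdist G ℓ v x) ∧ (∀ x, ∃ v ∈ S, σ x = wdist G ℓ v x) ∧
      ∀ x y, |σ x - σ y| ≤ wdist G ℓ x y := by
  have : ∀ x, ∃ v ∈ S, ∀ v' ∈ S, wdist G ℓ v x ≤ wdist G ℓ v' x := fun x =>
    Set.exists_min_image S _ (Set.toFinite S) hS
  choose n hn hmin using this
  have key : ∀ x y, wdist G ℓ (n x) x ≤ wdist G ℓ (n y) y + wdist G ℓ y x := fun x y =>
    (hmin x _ (hn y)).trans (h.tri _ _ _)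
  refine ⟨fun x => wdist G ℓ (n x) x, hmin, fun x => ⟨n x, hn x, rfl⟩, fun x y => ?_⟩
  have h1 := key x y
  rw [h.comm y x] at h1
  rw [abs_le]; constructor <;> linarith [key y x]

/-- pairs whose first point is not too close to the set -/
theorem serve_far (hN : NoiseStmt) (B η : ℝ) (hB : 1 ≤ B) (hη : 0 < η) (hη1 : η ≤ 1) :
    ∃ K c ε : ℝ, 0 < K ∧ 0 < c ∧ 0 < ε ∧
    ∀ (V : Type) [Fintype V] (G : SimpleGraph V) (ℓ : Sym2 V → ℝ) (δ : ℝ), WG G ℓ δ → MF G →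
    ∀ (R : ℝ) (σ : V → ℝ), (∀ x y, |σ x - σ y| ≤ wdist G ℓ x y) →
    ∀ (ι : Type) [Fintype ι] (a b : ι → V) (ω : ι → ℝ), (∀ i, 0 ≤ ω i) →
      (∀ i, δ ≤ ε * wdist G ℓ (a i) (b i) ∧ 20 * B * wdist G ℓ (a i) (b i) ≤ R ∧
        η * wdist G ℓ (a i) (b i) ≤ σ (a i) ∧ σ (a i) ≤ 2 * B * wdist G ℓ (a i) (b i)) →
      ∃ ρ : V → V → ℝ, IsCut ρ ∧ (∀ x y, G.Adj x y → ρ x y ≤ K * ℓ s(x, y)) ∧
        (∀ x y, R / 4 ≤ σ x → R / 4 ≤ σ y → ρ x y = 0) ∧
        c * ∑ i, ω i * wdist G ℓ (a i) (b i) ≤ ∑ i, ω i * ρ (a i) (b i) := by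
  obtain ⟨cN, εN, hcN, hεN, hN⟩ := hN
  obtain ⟨m, hm⟩ := pow_unbounded_of_one_lt (10 * B / η) (one_lt_two (α := ℝ))
  rw [div_lt_iff₀ hη] at hm
  refine ⟨4 * (m + 1), cN * η / 4, εN, by positivity, by positivity, hεN, ?_⟩
  intro V _ G ℓ δ h hMF R σ hσ ι _ a b ω hω hab
  rcases le_or_gt δ 0 with hδ | hδ
  · exact ⟨fun _ _ => 0, IsCut.zero, fun x y hxy => by linarith [h.adj_pos hxy, h.adj_le hxy],
      fun _ _ _ _ => rfl, by simp [h.d_zero hδ]⟩
  have hs : 0 < δ / εN := div_pos hδ hεN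
  obtain ⟨D, hD⟩ : ∃ D : ℕ → ℝ, ∀ j, D j = δ / εN * 2 ^ j := ⟨_, fun _ => rfl⟩
  have hD0 : ∀ j, δ / εN ≤ D j := fun j => by
    rw [hD]; exact le_mul_of_one_le_right hs.le (one_le_pow₀ one_le_two)
  have hDp : ∀ j, 0 < D j := fun j => hs.trans_le (hD0 j)
  obtain ⟨N, hNR⟩ := pow_unbounded_of_one_lt (R / (δ / εN)) (one_lt_two (α := ℝ))
  rw [div_lt_iff₀ hs] at hNR
  let P : ℕ → ι → Prop := fun j i =>
    D j ≤ wdist G ℓ (a i) (b i) ∧ wdist G ℓ (a i) (b i) < 2 * D j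
  let χ : ℕ → V → ℝ := fun j x => max 0 (min (σ x - η / 2 * D j) (5 * B * D j - σ x))
  have hNj := fun j => hN V G ℓ δ h hMF (D j) (hDp j)
    (by have := hD0 j; rw [div_le_iff₀ hεN] at this; linarith) (χ j) (fun v => le_max_left _ _)
    (fun x y hxy => by
      have h1 := (hσ x y).trans (h.edge hxy)
      refine (abs_max_sub_max_le_max _ _ _ _).trans (max_le (by simpa using h.nn _ hxy) ?_)
      refine (abs_min_sub_min_le_max _ _ _ _).trans (max_le ?_ ?_)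
      · exact le_of_eq_of_le (by congr 1; ring) h1
      · exact le_of_eq_of_le (by rw [abs_sub_comm]; congr 1; ring) h1)
    {i // P j i} (fun i => a i.1) (fun i => b i.1) (fun i => ω i.1) (fun i => hω i.1)
    fun i => i.2.1
  choose ρ h1 h2 h3 h4 using hNj
  have hχ : ∀ j v, χ j v ≠ 0 → η / 2 * D j < σ v ∧ σ v < 5 * B * D j := by
    intro j v hv
    have h1 : 0 < min (σ v - η / 2 * D j) (5 * B * D j - σ v) := by
      by_contra h2
      exact hv (max_eq_left (not_lt.1 h2))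
    rwa [lt_min_iff, sub_pos, sub_pos] at h1
  let J := (Finset.range N).filter fun j => 20 * B * D j ≤ R
  have hcard : ∀ v, (J.filter fun j => χ j v ≠ 0).card ≤ m + 1 := fun v =>
    card_class' (T := σ v) (α := η / 2) (β := 5 * B) hs (by linarith) m (by linarith) _
      fun k hk => by
        have := hχ k v (Finset.mem_filter.1 hk).2
        rw [← hD]; exact ⟨this.1.le, this.2.le⟩
  refine ⟨fun x y => ∑ j ∈ J, ρ j x y, IsCut.sum _ _ fun j _ => h1 j, fun x y hxy => ?_,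
    fun x y hx hy => Finset.sum_eq_zero fun j hj => ?_, ?_⟩
  · beta_reduce
    have e1 : ∑ j ∈ J, ρ j x y ≤ ∑ j ∈ J.filter (fun j => χ j x ≠ 0 ∨ χ j y ≠ 0),
        (2 * ℓ s(x, y) : ℝ) := by
      rw [Finset.sum_filter (s := J)]
      refine Finset.sum_le_sum fun j _ => ?_
      split_ifs with hj
      · exact h2 j x y hxy
      · push Not at hj
        exact (h3 j x y hj.1 hj.2).le
    rw [Finset.sum_const, nsmul_eq_mul, Finset.filter_or] at e1
    have e2 : (((J.filter fun j => χ j x ≠ 0) ∪ J.filter fun j => χ j y ≠ 0).card : ℝ) ≤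
        (m + 1 : ℝ) + (m + 1 : ℝ) := by
      exact_mod_cast (Finset.card_union_le _ _).trans (add_le_add (hcard x) (hcard y))
    have := mul_le_mul_of_nonneg_right e2 (show 0 ≤ 2 * ℓ s(x, y) by linarith [h.adj_pos hxy])
    linarith
  · have hj' := (Finset.mem_filter.1 hj).2
    refine h3 j x y (by_contra fun hne => ?_) (by_contra fun hne => ?_)
    · linarith [(hχ j x hne).2]
    · linarith [(hχ j y hne).2]
  · refine (cover_gain J P ω (fun i => wdist G ℓ (a i) (b i)) (fun j i => ρ j (a i) (b i)) _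
      (by positivity) hω (fun i => h.nonneg _ _) (fun i => ?_) fun j _ => ?_).trans
      (Finset.sum_le_sum fun i _ => mul_le_mul_of_nonneg_left
        (Finset.sum_le_sum fun j _ => ?_) (hω i))
    · obtain ⟨e1, e2, -⟩ := hab i
      obtain ⟨j, f1, f2⟩ := exists_class hs (T := wdist G ℓ (a i) (b i))
        (by rw [div_le_iff₀ hεN]; linarith)
      rw [← hD] at f1 f2
      have f3 : 20 * B * D j ≤ R := (mul_le_mul_of_nonneg_left f1 (by linarith)).trans e2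
      refine ⟨j, Finset.mem_filter.2 ⟨Finset.mem_range.2 ?_, f3⟩, f1, f2⟩
      have f4 : δ / εN * 2 ^ j < δ / εN * 2 ^ N := by
        rw [← hD j]; nlinarith [hDp j]
      exact (pow_lt_pow_iff_right₀ one_lt_two).1 (lt_of_mul_lt_mul_left f4 hs.le)
    · have key : cN * η / 4 * ∑ i : {i // P j i}, ω i.1 * wdist G ℓ (a i.1) (b i.1) ≤
          ∑ i : {i // P j i}, ω i.1 * ρ j (a i.1) (b i.1) := ?_
      · rw [sum_sub_eq (P j) fun i => ω i * wdist G ℓ (a i) (b i),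
          sum_sub_eq (P j) fun i => ω i * ρ j (a i) (b i)] at key
        convert key
      refine le_trans ?_ (h4 j)
      rw [Finset.mul_sum, Finset.mul_sum]
      refine Finset.sum_le_sum fun i _ => ?_
      obtain ⟨-, -, e3, e4⟩ := hab i.1
      obtain ⟨f1, f2⟩ := i.2
      have f3 : η / 2 * D j ≤ min (D j) (χ j (a i.1)) := by
        refine le_min (by nlinarith [hDp j]) (le_max_of_le_right (le_min ?_ ?_))
        · nlinarith [mul_le_mul_of_nonneg_left f1 hη.le]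
        · nlinarith [mul_le_mul_of_nonneg_left f2.le (show 0 ≤ 2 * B by linarith), hDp j]
      rw [mul_left_comm, mul_left_comm cN]
      refine mul_le_mul_of_nonneg_left ?_ (hω _)
      nlinarith [mul_le_mul_of_nonneg_left f3 hcN.le,
        mul_le_mul_of_nonneg_left f2.le (mul_pos hcN hη).le]
    · split_ifs
      · exact le_rfl
      · exact (h1 j).nonneg _ _

/-- pairs inside the protected set -/
theorem serve_near (hK : KPRStmt) (hA : A2Stmt) :
    ∃ Λ C K c ε : ℝ, 1 ≤ Λ ∧ 1 ≤ C ∧ 0 < K ∧ 0 < c ∧ 0 < ε ∧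
    ∀ (V : Type) [Fintype V] (G : SimpleGraph V) (ℓ : Sym2 V → ℝ) (δ : ℝ), WG G ℓ δ → MF G →
    ∀ (ℓ' : Sym2 V → ℝ) (z : V) (T : Set V) (lam R : ℝ) (S : Set V), 0 < R → 5 * δ ≤ R →
      TypeOK G ℓ ℓ' z T lam R Λ S →
    ∀ (ι : Type) [Fintype ι] (a b : ι → V) (ω : ι → ℝ), (∀ i, 0 ≤ ω i) →
      (∀ i, a i ∈ S ∧ b i ∈ S ∧ δ ≤ ε * wdist G ℓ (a i) (b i) ∧ C * wdist G ℓ (a i) (b i) ≤ R) →
      ∃ ρ : V → V → ℝ, IsCut ρ ∧ (∀ x y, G.Adj x y → ρ x y ≤ K * ℓ s(x, y)) ∧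
        (∀ x y, (∀ v ∈ S, R / 4 ≤ wdist G ℓ v x) → (∀ v ∈ S, R / 4 ≤ wdist G ℓ v y) →
          ρ x y = 0) ∧
        c * ∑ i, ω i * wdist G ℓ (a i) (b i) ≤ ∑ i, ω i * ρ (a i) (b i) := by
  obtain ⟨Δ, hΔ, hK⟩ := hK
  obtain ⟨KA, cA, CA, hKA, hcA, hCA, hA⟩ := hA (2 * Δ) (by linarith)
  refine ⟨2 * Δ + 1, 4 * CA, 2 * KA, cA / 2, 1 / (2 * CA), by linarith, by linarith, by positivity,
    by positivity, by positivity, ?_⟩
  intro V _ G ℓ δ h hMF ℓ' z T lam R S hR hδ hT ι _ a b ω hω hab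
  have h' := h.two hT.len
  have hle := h.two_le hT.len
  obtain ⟨c, -, hc2, hc3⟩ := hK V G ℓ' (2 * δ) h' hMF R (1 / 2) hR (by norm_num) (by norm_num)
    (by linarith) ι a (fun i => ω i * wdist G ℓ (a i) (b i))
    fun i => mul_nonneg (hω i) (h.nonneg _ _)
  have e0 : Δ * R / (1 / 2) = 2 * Δ * R := by ring
  rw [e0] at hc2
  let Sg : V → Set V := fun w => {x | x ∈ S ∧ ∀ y ∈ bl G ℓ' x (R / 2), c y = w}
  have hSg : ∀ w, ∀ x ∈ Sg w, c x = w := fun w x hx =>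
    hx.2 x (by rw [mem_bl, h'.self]; linarith)
  let P : V → ι → Prop := fun w i => c (a i) = w ∧ ∀ y ∈ bl G ℓ' (a i) R, c y = c (a i)
  have hd' : ∀ i, 2 * CA * wdist G ℓ' (a i) (b i) ≤ R := fun i => by
    have := mul_le_mul_of_nonneg_left (hle (a i) (b i)).2 (show 0 ≤ 2 * CA by linarith)
    linarith [(hab i).2.2.2]
  have hP : ∀ w i, P w i → a i ∈ Sg w ∧ b i ∈ Sg w := by
    rintro w i ⟨rfl, hp⟩
    refine ⟨⟨(hab i).1, fun y hy => hp y (le_trans (mem_bl.1 hy) (half_le_self hR.le))⟩,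
      (hab i).2.1, fun y hy => hp y ?_⟩
    have h1 : wdist G ℓ' (b i) y ≤ R / 2 := hy
    have h2 := h'.tri (a i) (b i) y
    have h3 := h'.nonneg (a i) (b i)
    rw [mem_bl]
    nlinarith [hd' i]
  have hAw : ∀ w, ∃ ρ : V → V → ℝ, IsCut ρ ∧ (∀ x y, G.Adj x y → ρ x y ≤ KA * ℓ' s(x, y)) ∧
      (∀ x y, (∀ v ∈ Sg w, R / 10 ≤ wdist G ℓ' v x) → (∀ v ∈ Sg w, R / 10 ≤ wdist G ℓ' v y) →
        ρ x y = 0) ∧
      cA * ∑ i : {i // P w i}, ω i.1 * wdist G ℓ' (a i.1) (b i.1) ≤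
        ∑ i : {i // P w i}, ω i.1 * ρ (a i.1) (b i.1) := by
    intro w
    rcases (Sg w).eq_empty_or_nonempty with he | ⟨x₀, hx₀⟩
    · refine ⟨fun _ _ => 0, IsCut.zero, fun x y hxy => (mul_pos hKA (h'.adj_pos hxy)).le,
        fun _ _ _ _ => rfl, ?_⟩
      have : IsEmpty {i // P w i} := ⟨fun i => by simpa [he] using (hP w i.1 i.2).1⟩
      simp
    have hdiam : ∀ x ∈ Sg w, wdist G ℓ' x x₀ ≤ 2 * Δ * R := fun x hx =>
      hc2 x x₀ ((hSg w x hx).trans (hSg w x₀ hx₀).symm)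
    refine hA V G ℓ' (2 * δ) h' hMF z T lam R (wdist G ℓ' z x₀) (Sg w) hR
      ⟨hT.conn, hT.high, fun x hx => hT.tight x hx.1,
        fun x hx => by nlinarith [hT.room x hx.1], ?_⟩
      (fun x hx => (h'.abs_sub z x x₀).trans (hdiam x hx)) {i // P w i} (fun i => a i.1)
      (fun i => b i.1) (fun i => ω i.1) (fun i => hω i.1) fun i =>
        ⟨(hP w i.1 i.2).1, (hP w i.1 i.2).2, ?_, by nlinarith [hd' i.1, h'.nonneg (a i.1) (b i.1)]⟩
    · obtain ⟨τ, hτ, p₀, hp₀⟩ := hT.away x₀ hx₀.1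
      refine ⟨τ, hτ, p₀, fun v hv x hx => ?_⟩
      have h1 := h.tri x₀ x v
      rw [h.comm x₀ x] at h1
      linarith [hp₀ v hv, (hle x v).1, (hle x x₀).1, hdiam x hx]
    · have h1 := (hab i.1).2.2.1
      rw [one_div_mul_eq_div, le_div_iff₀ (by linarith)] at h1
      linarith [(hle (a i.1) (b i.1)).1]
  choose ρ h1 h2 h3 h4 using hAw
  refine ⟨fun x y => ∑ w, ρ w x y, IsCut.sum _ _ fun w _ => h1 w, fun x y hxy => ?_,
    fun x y hx hy => Finset.sum_eq_zero fun w _ => h3 w x y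
      (fun v hv => by linarith [hx v hv.1, (hle v x).1])
      (fun v hv => by linarith [hy v hv.1, (hle v y).1]), ?_⟩
  · beta_reduce
    rw [Finset.sum_eq_single (c x) (fun w _ hw => ?_) fun hc => absurd (Finset.mem_univ _) hc]
    · nlinarith [h2 (c x) x y hxy, (hT.len s(x, y) hxy).2]
    · have hfar : ∀ v ∈ Sg w, R / 2 < wdist G ℓ' v x := fun v hv => by
        by_contra hcon
        exact hw (hv.2 x (not_lt.1 hcon)).symm
      refine h3 w x y (fun v hv => by linarith [hfar v hv]) fun v hv => ?_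
      linarith [hfar v hv, h'.tri v y x, h'.edge' hxy.symm]
  · let pad : ι → Prop := fun i => ∀ y ∈ bl G ℓ' (a i) R, c y = c (a i)
    have e1 : ∑ i, ω i * wdist G ℓ (a i) (b i) =
        ∑ i, (if pad i then 0 else ω i * wdist G ℓ (a i) (b i)) +
          ∑ i, (if pad i then ω i else 0) * wdist G ℓ (a i) (b i) := by
      rw [← Finset.sum_add_distrib]
      exact Finset.sum_congr rfl fun i _ => by split_ifs <;> simp
    have e2 := cover_gain Finset.univ (fun w i => c (a i) = w) (fun i => if pad i then ω i else 0)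
      (fun i => wdist G ℓ (a i) (b i)) (fun w i => ρ w (a i) (b i)) cA hcA.le
      (fun i => by split_ifs; exacts [hω i, le_rfl]) (fun i => h.nonneg _ _)
      (fun i => ⟨_, Finset.mem_univ _, rfl⟩) fun w _ => by
        have key := h4 w
        rw [sum_sub_eq (P w) fun i => ω i * wdist G ℓ' (a i) (b i),
          sum_sub_eq (P w) fun i => ω i * ρ w (a i) (b i)] at key
        refine le_trans (mul_le_mul_of_nonneg_left (Finset.sum_le_sum fun i _ => ?_) hcA.le)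
          (key.trans (le_of_eq (Finset.sum_congr rfl fun i _ => ?_)))
        · by_cases p1 : c (a i) = w <;> by_cases p2 : pad i
          · rw [if_pos p1, if_pos p2, if_pos ⟨p1, p2⟩]
            exact mul_le_mul_of_nonneg_left (hle _ _).1 (hω i)
          · rw [if_pos p1, if_neg p2, if_neg fun hp : P w i => p2 hp.2, zero_mul]
          · rw [if_neg p1, if_neg fun hp : P w i => p1 hp.1]
          · rw [if_neg p1, if_neg fun hp : P w i => p1 hp.1]
        · by_cases p1 : c (a i) = w <;> by_cases p2 : pad i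
          · rw [if_pos p1, if_pos p2, if_pos ⟨p1, p2⟩]
          · rw [if_pos p1, if_neg p2, if_neg fun hp : P w i => p2 hp.2, zero_mul]
          · rw [if_neg p1, if_neg fun hp : P w i => p1 hp.1]
          · rw [if_neg p1, if_neg fun hp : P w i => p1 hp.1]
    have e3 : ∑ i, (if pad i then ω i else 0) *
        ∑ w, (if c (a i) = w then ρ w (a i) (b i) else 0) ≤ ∑ i, ω i * ∑ w, ρ w (a i) (b i) := by
      refine Finset.sum_le_sum fun i _ => mul_le_mul ?_ (Finset.sum_le_sum fun w _ => ?_)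
        (Finset.sum_nonneg fun w _ => ?_) (hω i)
      · split_ifs; exacts [le_rfl, hω i]
      · split_ifs; exacts [le_rfl, (h1 w).nonneg _ _]
      · split_ifs; exacts [(h1 w).nonneg _ _, le_rfl]
    have e4 : ∑ i, (if pad i then 0 else ω i * wdist G ℓ (a i) (b i)) ≤
        1 / 2 * ∑ i, ω i * wdist G ℓ (a i) (b i) := hc3
    have e5 := le_trans e2 (by convert e3)
    nlinarith

theorem serve (hK : KPRStmt) (hN : NoiseStmt) (hA : A2Stmt) : ServeStmt := by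
  obtain ⟨Λ, C, K, c, ε, hΛ, hC, hK0, hc, hε, hnear⟩ := serve_near hK hA
  refine ⟨Λ, 20 * C, hΛ, by linarith, fun B hB => ?_⟩
  set η : ℝ := min (1 / 4) (c / (8 * K)) with hη
  have hη0 : 0 < η := by positivity
  have hη1 : η ≤ 1 / 4 := min_le_left _ _
  have hη2 : 8 * K * η ≤ c := by
    have := min_le_right (1 / 4) (c / (8 * K))
    rw [← hη, le_div_iff₀ (by positivity)] at this
    linarith
  obtain ⟨K', c', ε', hK', hc', hε', hfar⟩ := serve_far hN B η hB hη0 (by linarith)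
  refine ⟨K + K', min (c / 4) c', min (min 1 (ε / 2)) ε', by positivity, by positivity,
    by positivity, ?_⟩
  intro V _ G ℓ δ h hMF ℓ' z T lam R S hR hT ι _ a b ω hω hab
  rcases isEmpty_or_nonempty ι with hι | ⟨⟨i₀⟩⟩
  · exact ⟨fun _ _ => 0, IsCut.zero, fun x y hxy => (mul_pos (by linarith) (h.adj_pos hxy)).le,
      fun _ _ _ _ => rfl, by simp⟩
  obtain ⟨σ, hσ1, hσ2, hσ3⟩ := h.exists_dist (S := S) (let ⟨x, hx, _⟩ := (hab i₀).2.2; ⟨x, hx⟩)
  choose n hn hσn using hσ2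
  obtain ⟨d, hd⟩ : ∃ d : ι → ℝ, ∀ i, d i = wdist G ℓ (a i) (b i) := ⟨_, fun _ => rfl⟩
  simp only [← hd] at hab ⊢
  have hd0 : ∀ i, 0 ≤ d i := fun i => hd i ▸ h.nonneg _ _
  have hδ1 : ∀ i, δ ≤ d i := fun i => (hab i).1.trans ((mul_le_mul_of_nonneg_right
    ((min_le_left _ _).trans (min_le_left _ _)) (hd0 i)).trans_eq (one_mul _))
  have hδ2 : ∀ i, δ ≤ ε / 2 * d i := fun i => (hab i).1.trans
    (mul_le_mul_of_nonneg_right ((min_le_left _ _).trans (min_le_right _ _)) (hd0 i))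
  have hδ3 : ∀ i, δ ≤ ε' * d i := fun i => (hab i).1.trans
    (mul_le_mul_of_nonneg_right (min_le_right _ _) (hd0 i))
  have hR1 : ∀ i, 20 * C * d i ≤ R := fun i => by
    nlinarith [(hab i).2.1, mul_nonneg (mul_nonneg (show 0 ≤ C by linarith) (hd0 i))
      (show 0 ≤ B - 1 by linarith)]
  have hR2 : ∀ i, 20 * B * d i ≤ R := fun i => by
    nlinarith [(hab i).2.1, mul_nonneg (mul_nonneg (show 0 ≤ B by linarith) (hd0 i))
      (show 0 ≤ C - 1 by linarith)]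
  have hσa : ∀ i, σ (a i) ≤ B * d i := fun i => by
    obtain ⟨x, hx, hxd⟩ := (hab i).2.2
    rw [h.comm] at hxd
    exact (hσ1 _ x hx).trans hxd
  let P : ι → Prop := fun i => σ (a i) < η * d i ∧ σ (b i) < η * d i
  have hnn : ∀ i, P i → d i / 2 ≤ wdist G ℓ (n (a i)) (n (b i)) ∧
      wdist G ℓ (n (a i)) (n (b i)) ≤ 2 * d i := by
    rintro i ⟨p1, p2⟩
    rw [hσn] at p1 p2
    have q1 := h.tri (a i) (n (a i)) (b i)
    have q2 := h.tri (n (a i)) (n (b i)) (b i)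
    have q3 := h.tri (n (a i)) (a i) (n (b i))
    have q4 := h.tri (a i) (b i) (n (b i))
    rw [h.comm (a i) (n (a i)), ← hd] at q1
    rw [h.comm (b i) (n (b i)), ← hd] at q4
    have := mul_le_mul_of_nonneg_right hη1 (hd0 i)
    constructor <;> linarith [hd0 i]
  obtain ⟨ρ₁, a1, a2, a3, a4⟩ := hnear V G ℓ δ h hMF ℓ' z T lam R S hR
    (by nlinarith [hδ1 i₀, hR1 i₀, hd0 i₀]) hT {i // P i} (fun i => n (a i.1))
    (fun i => n (b i.1)) (fun i => ω i.1) (fun i => hω i.1) fun i =>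
      ⟨hn _, hn _, by nlinarith [hδ2 i.1, (hnn i.1 i.2).1],
        by nlinarith [hR1 i.1, (hnn i.1 i.2).2, hd0 i.1]⟩
  let a' : ι → V := fun i => if η * d i ≤ σ (a i) then a i else b i
  let b' : ι → V := fun i => if η * d i ≤ σ (a i) then b i else a i
  have hd' : ∀ i, wdist G ℓ (a' i) (b' i) = d i := fun i => by
    simp only [a', b']; split_ifs
    · exact (hd i).symm
    · rw [h.comm, hd]
  obtain ⟨ρ₂, b1, b2, b3, b4⟩ := hfar V G ℓ δ h hMF R σ hσ3 {i // ¬ P i} (fun i => a' i.1)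
    (fun i => b' i.1) (fun i => ω i.1) (fun i => hω i.1) fun i => by
      rw [hd']
      refine ⟨hδ3 _, hR2 _, ?_⟩
      simp only [a']; split_ifs with h1
      · exact ⟨h1, by nlinarith [hσa i.1, hd0 i.1]⟩
      · have h2 := (abs_le.1 (hσ3 (a i.1) (b i.1))).1
        rw [← hd] at h2
        exact ⟨by_contra fun h3 => i.2 ⟨not_le.1 h1, not_le.1 h3⟩,
          by nlinarith [hσa i.1, hd0 i.1]⟩
  have hρ' : ∀ i, ρ₂ (a' i) (b' i) = ρ₂ (a i) (b i) := fun i => by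
    simp only [a', b']; split_ifs
    · rfl
    · exact b1.symm _ _
  simp only [hd', hρ'] at b4
  refine ⟨fun x y => ρ₁ x y + ρ₂ x y, a1.add b1, fun x y hxy => by
    linarith [a2 x y hxy, b2 x y hxy], fun x y hx hy => ?_, ?_⟩
  · beta_reduce
    rw [a3 x y hx hy, b3 x y (hσn x ▸ hx _ (hn x)) (hσn y ▸ hy _ (hn y)), add_zero]
  have k1 : min (c / 4) c' * ∑ i : {i // P i}, ω i.1 * d i.1 ≤
      ∑ i : {i // P i}, ω i.1 * ρ₁ (a i.1) (b i.1) := by
    have k2 : ∑ i : {i // P i}, ω i.1 * ρ₁ (n (a i.1)) (n (b i.1)) ≤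
        ∑ i : {i // P i}, ω i.1 * ρ₁ (a i.1) (b i.1) + c / 4 * ∑ i : {i // P i}, ω i.1 * d i.1 := by
      rw [Finset.mul_sum, ← Finset.sum_add_distrib]
      refine Finset.sum_le_sum fun i _ => ?_
      rw [mul_left_comm, ← mul_add]
      refine mul_le_mul_of_nonneg_left ?_ (hω _)
      obtain ⟨p1, p2⟩ := i.2
      rw [hσn] at p1 p2
      have q1 := a1.le_d h hK0.le a2 (n (a i.1)) (a i.1)
      have q2 := a1.le_d h hK0.le a2 (n (b i.1)) (b i.1)
      have q3 := a1.tri (n (a i.1)) (a i.1) (n (b i.1))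
      have q4 := a1.tri (a i.1) (b i.1) (n (b i.1))
      rw [a1.symm (b i.1)] at q4
      nlinarith [mul_le_mul_of_nonneg_left p1.le hK0.le, mul_le_mul_of_nonneg_left p2.le hK0.le,
        mul_le_mul_of_nonneg_right hη2 (hd0 i.1)]
    have k3 : c / 2 * ∑ i : {i // P i}, ω i.1 * d i.1 ≤
        c * ∑ i : {i // P i}, ω i.1 * wdist G ℓ (n (a i.1)) (n (b i.1)) := by
      rw [Finset.mul_sum, Finset.mul_sum]
      refine Finset.sum_le_sum fun i _ => ?_
      nlinarith [mul_le_mul_of_nonneg_left (hnn i.1 i.2).1 (mul_nonneg hc.le (hω i.1))]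
    have k4 := mul_le_mul_of_nonneg_right (min_le_left (c / 4) c')
      (Finset.sum_nonneg fun (i : {i // P i}) (_ : i ∈ Finset.univ) => mul_nonneg (hω i.1) (hd0 i.1))
    linarith
  have k5 := (mul_le_mul_of_nonneg_right (min_le_right (c / 4) c') (Finset.sum_nonneg
    fun (i : {i // ¬ P i}) (_ : i ∈ Finset.univ) => mul_nonneg (hω i.1) (hd0 i.1))).trans b4
  rw [sum_sub_eq P fun i => ω i * d i, sum_sub_eq P fun i => ω i * ρ₁ (a i) (b i)] at k1
  rw [sum_sub_eq (fun i => ¬ P i) fun i => ω i * d i,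
    sum_sub_eq (fun i => ¬ P i) fun i => ω i * ρ₂ (a i) (b i)] at k5
  have k6 : ∑ i, ω i * d i = (∑ i, if P i then ω i * d i else 0) +
      ∑ i, if ¬ P i then ω i * d i else 0 := by
    rw [← Finset.sum_add_distrib]
    exact Finset.sum_congr rfl fun i _ => by by_cases hp : P i <;> simp [hp]
  rw [k6, mul_add]
  refine (add_le_add k1 k5).trans ?_
  rw [← Finset.sum_add_distrib]
  refine Finset.sum_le_sum fun i _ => ?_
  have n1 := mul_nonneg (hω i) (a1.nonneg (a i) (b i))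
  have n2 := mul_nonneg (hω i) (b1.nonneg (a i) (b i))
  rw [mul_add]
  by_cases hp : P i
  · rw [if_pos hp, if_neg (not_not.2 hp)]; linarith
  · rw [if_neg hp, if_pos hp]; linarith

end Crest.Agent.N206.PL
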